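import Vale.Agent.P297.H55.Cert
import Vale.Agent.P297.H424.G4.Forms

/-!
The two maps of the dominance argument, and the certificates.
-/

namespace Vale.Agent.P297.H55

open Vale.Agent.P297.G4

section

variable {R : Type} [CommRing R]

/-- a pencil of quartics, as a binary form in the parameter -/
def dh (D : Fin 5 × Fin 3 → R) (x y : R) : Fin 5 → R :=
  fun i => D (i, 0) * y ^ 2 + D (i, 1) * (x * y) + D (i, 2) * x ^ 2

/-- the values of the invariants of a pencil of quartics -/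
def phi (D : Fin 5 × Fin 3 → R) : Fin 5 ⊕ Fin 7 → R :=
  Sum.elim (fun k => qI (dh D (k : ℕ) 1)) (fun k => qJ (dh D (k : ℕ) 1))

/-- the values of the two forms of the surface after a change of coordinates -/
def psi (v : Fin 11 ⊕ Fin 4 → R) : Fin 5 ⊕ Fin 7 → R :=
  Sum.elim
    (fun k => ID (fun i => v (Sum.inl i)) (v (Sum.inr 0) * (k : ℕ) + v (Sum.inr 1))
      (v (Sum.inr 2) * (k : ℕ) + v (Sum.inr 3)))
    (fun k => JD (fun i => v (Sum.inl i)) (v (Sum.inr 0) * (k : ℕ) + v (Sum.inr 1))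
      (v (Sum.inr 2) * (k : ℕ) + v (Sum.inr 3)))

end

section

variable {R S : Type} [CommRing R] [CommRing S] (φ : R →+* S)

theorem map_qI (c : Fin 5 → R) : φ (qI c) = qI fun i => φ (c i) := by
  simp only [qI, map_add, map_sub, map_mul, map_pow, map_ofNat]

theorem map_qJ (c : Fin 5 → R) : φ (qJ c) = qJ fun i => φ (c i) := by
  simp only [qJ, map_add, map_sub, map_mul, map_pow, map_ofNat]

theorem map_ID (m : Fin 11 → R) (x y : R) : φ (ID m x y) = ID (fun i => φ (m i)) (φ x) (φ y) := by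
  simp only [ID, gD, gI, gA, gB, gC, gE, map_add, map_sub, map_mul, map_pow, map_ofNat]

theorem map_JD (m : Fin 11 → R) (x y : R) : φ (JD m x y) = JD (fun i => φ (m i)) (φ x) (φ y) := by
  simp only [JD, gD, gI, gJ, gA, gB, gC, gE, map_add, map_sub, map_mul, map_pow, map_ofNat]

theorem map_dh (D : Fin 5 × Fin 3 → R) (x y : R) :
    (fun i => φ (dh D x y i)) = dh (fun k => φ (D k)) (φ x) (φ y) := by
  funext i
  simp only [dh, map_add, map_mul, map_pow]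

theorem map_phi (D : Fin 5 × Fin 3 → R) (i : Fin 5 ⊕ Fin 7) :
    φ (phi D i) = phi (fun k => φ (D k)) i := by
  rcases i with k | k
  · simp only [phi, Sum.elim_inl, map_qI, map_dh, map_natCast, map_one]
  · simp only [phi, Sum.elim_inr, map_qJ, map_dh, map_natCast, map_one]

theorem map_psi (v : Fin 11 ⊕ Fin 4 → R) (i : Fin 5 ⊕ Fin 7) :
    φ (psi v i) = psi (fun k => φ (v k)) i := by
  rcases i with k | k
  · simp only [psi, Sum.elim_inl, map_ID, map_add, map_mul, map_natCast]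
  · simp only [psi, Sum.elim_inr, map_JD, map_add, map_mul, map_natCast]

end

/-- the position of a row or column -/
def idx : Fin 5 ⊕ Fin 7 → ℕ
  | Sum.inl k => k
  | Sum.inr k => k + 5

def look (L : List (List ℤ)) (a b : Fin 5 ⊕ Fin 7) : ℤ := (L.getD (idx a) []).getD (idx b) 0

/-- the base point for `phi`: the pencil `X + l² X³` -/
def xPhi : Fin 5 × Fin 3 → ℤ := fun k => if k = (1, 0) ∨ k = (3, 2) then 1 else 0

def ePhi (a : Fin 5 ⊕ Fin 7) : Fin 5 × Fin 3 :=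
  [(0, 0), (0, 1), (0, 2), (1, 0), (1, 1), (1, 2), (2, 0), (2, 1), (3, 0), (3, 1), (4, 0), (4, 1)].getD (idx a) (0, 0)

def nPhi : List (List ℤ) :=
  [[0, 0, 0, 0, 0, 70, 32, 14, 42, 36, 75, 34],
    [0, 0, 0, 0, 0, 32, 48, 88, 43, 100, 99, 95],
    [0, 0, 0, 0, 0, 61, 38, 6, 93, 6, 38, 61],
    [43, 80, 91, 12, 77, 0, 0, 0, 0, 0, 0, 0],
    [31, 50, 68, 95, 59, 0, 0, 0, 0, 0, 0, 0],
    [7, 73, 42, 73, 7, 0, 0, 0, 0, 0, 0, 0],
    [0, 0, 0, 0, 0, 51, 63, 90, 72, 43, 30, 55],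
    [0, 0, 0, 0, 0, 74, 66, 16, 61, 72, 47, 68],
    [67, 0, 0, 0, 0, 0, 0, 0, 0, 0, 0, 0],
    [54, 66, 1, 22, 59, 0, 0, 0, 0, 0, 0, 0],
    [0, 0, 0, 0, 0, 86, 0, 0, 0, 0, 0, 0],
    [0, 0, 0, 0, 0, 62, 11, 62, 1, 31, 83, 53]]

/-- the base point for `psi` -/
def xPsi : Fin 11 ⊕ Fin 4 → ℤ :=
  Sum.elim ![0, 1, 1, 0, 1, 1, 0, 1, 0, 1, 0] ![1, 0, 0, 1]

def ePsi (a : Fin 5 ⊕ Fin 7) : Fin 11 ⊕ Fin 4 :=
  [Sum.inl 0, Sum.inl 1, Sum.inl 2, Sum.inl 3, Sum.inl 4, Sum.inl 5, Sum.inl 6, Sum.inl 8, Sum.inl 10, Sum.inr 0, Sum.inr 1, Sum.inr 2].getD (idx a) (Sum.inl 0)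

def nPsi : List (List ℤ) :=
  [[31, 78, 85, 78, 31, 89, 72, 22, 38, 22, 72, 89],
    [73, 60, 46, 34, 13, 49, 79, 38, 87, 23, 62, 77],
    [6, 94, 37, 93, 69, 74, 70, 28, 77, 84, 64, 70],
    [25, 26, 85, 87, 98, 5, 90, 51, 15, 22, 89, 13],
    [55, 66, 14, 43, 2, 43, 34, 81, 87, 11, 29, 78],
    [95, 33, 36, 7, 78, 80, 90, 92, 93, 39, 51, 48],
    [87, 84, 9, 27, 70, 24, 73, 23, 99, 35, 38, 12],
    [69, 96, 85, 60, 82, 32, 99, 7, 35, 4, 61, 2],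
    [6, 70, 24, 29, 86, 72, 84, 81, 77, 99, 83, 24],
    [35, 0, 47, 43, 16, 100, 11, 10, 5, 80, 30, 53],
    [54, 0, 0, 0, 0, 46, 0, 0, 0, 0, 0, 0],
    [50, 0, 37, 36, 20, 91, 28, 53, 77, 86, 58, 89]]

theorem cert_phi : ∀ i j, (101 : ℤ) ^ 2 ∣ (∑ k, (phi (xPhi + Pi.single (ePhi k) 101) i - phi xPhi i) *
    look nPhi k j) - if i = j then 101 else 0 := by
  decide +kernel

theorem cert_psi : ∀ i j, (101 : ℤ) ^ 2 ∣ (∑ k, (psi (xPsi + Pi.single (ePsi k) 101) i - psi xPsi i) *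
    look nPsi k j) - if i = j then 101 else 0 := by
  decide +kernel

end Vale.Agent.P297.H55
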