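import Vale.Agent.P297.H637.GenPts
import Vale.Agent.P297.H777.Dbl

/-!
A smooth intersection of four quadrics `Q(o) = e(v)`: the determinant of the web of the `Q` does not
vanish twice along a curve of the Cayley cubic.
-/

set_option linter.unusedSectionVars false

open IntermediateField Polynomial Matrix

namespace Vale.Agent.P297.C8

open Vale.Agent.P297.Gen

section

variable {N : Type} [Field N] [Algebra ℂ N] [IsAlgClosed N] {Q : Web}

/-- The points of the intersection of the four quadrics are smooth, over `N`. -/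
def SmN (Q : Web) (N : Type) [Field N] [Algebra ℂ N] : Prop :=
  ∀ (o : Fin 4 → N) (v : Fin 3 → N), qq Q o = ee v → (o ≠ 0 ∨ v ≠ 0) → ∀ l : Fin 4 → N,
    (∀ u, ∑ i, l i * qb Q o u i = 0) → (∀ u, ∑ i, l i * eb v u i = 0) → l = 0

/-- no singular point -/
theorem no_sing (hsm : SmN Q N) (hz : ∀ o : Fin 4 → N, qq Q o = 0 → o = 0) {l o : Fin 4 → N}
    {v : Fin 3 → N} (hl : l ≠ 0) (ho : o ≠ 0) (hM : ∀ u, ∑ i, l i * qb Q o u i = 0)
    (hE : ∀ u, ∑ i, l i * eb v u i = 0) {c : N} (hc : qq Q o = c • ee v) : False := by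
  have hc0 : c ≠ 0 := by
    rintro rfl
    rw [zero_smul] at hc
    exact ho (hz o hc)
  obtain ⟨r, hr⟩ := IsAlgClosed.exists_pow_nat_eq c (n := 2) two_pos
  have hr0 : r ≠ 0 := by
    rintro rfl
    exact hc0 (by rw [← hr]; ring)
  apply hl
  refine hsm (r⁻¹ • o) v ?_ (Or.inl (smul_ne_zero (inv_ne_zero hr0) ho)) l (fun u => ?_) hE
  · rw [qq_smul, hc, smul_smul, ← hr]
    have h1 : r⁻¹ ^ 2 * r ^ 2 = 1 := by
      rw [← mul_pow, inv_mul_cancel₀ hr0, one_pow]
    rw [h1, one_smul]
  · rw [qb_smul_left]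
    have h1 : ∑ i, l i * (r⁻¹ • qb Q o u) i = r⁻¹ * ∑ i, l i * qb Q o u i := by
      rw [Finset.mul_sum]
      refine Finset.sum_congr rfl fun i _ => ?_
      rw [Pi.smul_apply, smul_eq_mul]
      ring
    rw [h1, hM, mul_zero]

/-- The annihilator of two functionals and of a third one that kills the given vector. -/
theorem prop_of {a b k : Fin 4} (hall : ∀ i : Fin 4, i = 0 ∨ i = a ∨ i = b ∨ i = k)
    (hsum : ∀ f : Fin 4 → N, ∑ i, f i = f 0 + f a + f b + f k)
    {l d E y : Fin 4 → N} (l0 : l 0 = 1) (d0 : d 0 = 0) (d3 : d k = 1)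
    (hE : E ≠ 0) (h1 : ∑ i, l i * E i = 0) (h2 : ∑ i, d i * E i = 0)
    (h3 : ∑ i, l i * y i = 0) (h4 : ∑ i, d i * y i = 0) (h5 : E b * y a = E a * y b) :
    ∃ c : N, y = c • E := by
  rw [hsum] at h1 h2 h3 h4
  rw [l0] at h1 h3
  rw [d0, d3] at h2 h4
  have e3 : E k = -(d a * E a) - d b * E b := by linear_combination h2
  have e0 : E 0 = -(l a * E a) - l b * E b - l k * E k := by linear_combination h1
  have y3 : y k = -(d a * y a) - d b * y b := by linear_combination h4
  have y0 : y 0 = -(l a * y a) - l b * y b - l k * y k := by linear_combination h3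
  have key : ∀ c : N, y a = c * E a → y b = c * E b → y = c • E := by
    intro c k1 k2
    have k3 : y k = c * E k := by rw [y3, e3, k1, k2]; ring
    have k0 : y 0 = c * E 0 := by rw [y0, e0, k1, k2, k3]; ring
    funext i
    rcases hall i with rfl | rfl | rfl | rfl
    · exact k0
    · exact k1
    · exact k2
    · exact k3
  by_cases hE1 : E a = 0
  · by_cases hE2 : E b = 0
    · exfalso
      apply hE
      have k3 : E k = 0 := by rw [e3, hE1, hE2]; ring
      have k0 : E 0 = 0 := by rw [e0, hE1, hE2, k3]; ring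
      funext i
      rcases hall i with rfl | rfl | rfl | rfl
      · exact k0
      · exact hE1
      · exact hE2
      · exact k3
    · refine ⟨y b / E b, key _ ?_ (div_mul_cancel₀ _ hE2).symm⟩
      rw [hE1, mul_zero]
      rw [hE1, zero_mul] at h5
      exact (mul_eq_zero.1 h5).resolve_left hE2
  · refine ⟨y a / E a, key _ (div_mul_cancel₀ _ hE1).symm ?_⟩
    rw [div_mul_eq_mul_div, eq_div_iff hE1]
    linear_combination -h5

/-- the derivative of the identity `A * adj A = det A` -/
theorem adj_of_double {A : Matrix (Fin 4) (Fin 4) N[X]} {t : N}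
    (hd' : (derivative A.det).eval t = 0) {a : Fin 4 → N}
    (ha : ∀ l, ∑ i, a i * (A i l).eval t = 0) (j : Fin 4) :
    ∑ i, a i * ∑ l, (derivative (A i l)).eval t * (A.adjugate l j).eval t = 0 := by
  have h1 : ∀ i, ∑ l, ((derivative (A i l)).eval t * (A.adjugate l j).eval t +
      (A i l).eval t * (derivative (A.adjugate l j)).eval t) = 0 := by
    intro i
    have h2 := congrFun (congrFun (Matrix.mul_adjugate A) i) j
    rw [Matrix.mul_apply, Matrix.smul_apply, smul_eq_mul] at h2
    have h3 := congrArg (fun p => (derivative p).eval t) h2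
    simp only [derivative_sum, derivative_mul, eval_finsetSum, eval_add, eval_mul] at h3
    rw [h3]
    by_cases hij : i = j
    · rw [hij, Matrix.one_apply_eq]
      simp [hd']
    · rw [Matrix.one_apply_ne hij]
      simp
  have h2 : ∑ i, a i * ∑ l, ((derivative (A i l)).eval t * (A.adjugate l j).eval t +
      (A i l).eval t * (derivative (A.adjugate l j)).eval t) = 0 := by
    simp only [h1, mul_zero, Finset.sum_const_zero]
  simp only [Finset.sum_add_distrib, mul_add] at h2
  have h3 : ∑ i, a i * ∑ l, (A i l).eval t * (derivative (A.adjugate l j)).eval t = 0 := by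
    simp only [Finset.mul_sum]
    rw [Finset.sum_comm]
    have h4 : ∀ l, ∑ i, a i * ((A i l).eval t * (derivative (A.adjugate l j)).eval t) = 0 := by
      intro l
      have h5 : ∀ i, a i * ((A i l).eval t * (derivative (A.adjugate l j)).eval t) =
          (a i * (A i l).eval t) * (derivative (A.adjugate l j)).eval t := fun i => by ring
      simp only [h5]
      rw [← Finset.sum_mul, ha, zero_mul]
    simp only [h4, Finset.sum_const_zero]
  rw [h3, add_zero] at h2
  exact h2

/-- A vector of the kernel whose coordinate is nonzero, and whose principal cofactor vanishes,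
is not alone. -/
theorem second_vector {M : Matrix (Fin 4) (Fin 4) N} (hM : M.IsSymm) {o : Fin 4 → N} {k : Fin 4}
    (hk : o k ≠ 0) (ho : M *ᵥ o = 0) (hadj : M.adjugate k k = 0) :
    ∃ z : Fin 4 → N, z ≠ 0 ∧ z k = 0 ∧ M *ᵥ z = 0 := by
  rw [Matrix.adjugate_apply] at hadj
  obtain ⟨z, hz0, hz⟩ := Matrix.exists_mulVec_eq_zero_iff.2 hadj
  have hzk : z k = 0 := by
    have h1 := congrFun hz k
    rw [Matrix.mulVec, Matrix.updateRow_self] at h1
    simpa using h1
  have hzi : ∀ i, i ≠ k → (M *ᵥ z) i = 0 := by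
    intro i hi
    have h1 := congrFun hz i
    rw [Matrix.mulVec, Matrix.updateRow_ne hi] at h1
    exact h1
  refine ⟨z, hz0, hzk, ?_⟩
  have h1 : o ⬝ᵥ (M *ᵥ z) = 0 := by
    rw [Matrix.dotProduct_mulVec, ← Matrix.mulVec_transpose, hM, ho, zero_dotProduct]
  have h2 : o ⬝ᵥ (M *ᵥ z) = o k * (M *ᵥ z) k := by
    rw [dotProduct, Finset.sum_eq_single k]
    · intro i _ hi
      rw [hzi i hi, mul_zero]
    · simp
  rw [h2] at h1
  have h3 := (mul_eq_zero.1 h1).resolve_left hk
  funext i
  by_cases hi : i = k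
  · rw [hi, h3]
    rfl
  · exact hzi i hi

/-- the vertex of the conic `m m⁻¹` -/
def vtx (x y : N) : Fin 3 → N := ![x - x⁻¹, y - y⁻¹, (x * y)⁻¹ - x * y]

theorem eb_vtx {x y : N} (hx : x ≠ 0) (hy : y ≠ 0) (u : Fin 3 → N) :
    ∑ i, lam x y i * eb (vtx x y) u i = 0 := by
  have : CharZero N := charZero_of_injective_algebraMap (algebraMap ℂ N).injective
  have h := lam_eb hx hy (vtx x y) u
  have h1 : ∑ i, mv x y i * vtx x y i = 0 := by
    simp only [Fin.sum_univ_three, mv, vtx, Matrix.cons_val]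
    field_simp
    ring
  have h2 : ∑ i, mv x⁻¹ y⁻¹ i * vtx x y i = 0 := by
    simp only [Fin.sum_univ_three, mv, vtx, Matrix.cons_val]
    field_simp
    ring
  rw [h1, h2, zero_mul, mul_zero, add_zero] at h
  exact (mul_eq_zero.1 h).resolve_left two_ne_zero

theorem ee_ne {v : Fin 3 → N} (hv : v ≠ 0) : ee v ≠ 0 := by
  have : CharZero N := charZero_of_injective_algebraMap (algebraMap ℂ N).injective
  intro h
  apply hv
  have h0 := congrFun h 0
  have h1 := congrFun h 1
  have h2 := congrFun h 2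
  have h3 := congrFun h 3
  rw [ee_zero] at h0
  rw [ee_one] at h1
  rw [ee_two] at h2
  rw [ee_three] at h3
  simp only [Pi.zero_apply] at h0 h1 h2 h3
  have k1 := (mul_eq_zero.1 h1).resolve_left two_ne_zero
  have k2 := (mul_eq_zero.1 h2).resolve_left two_ne_zero
  have k3 := (mul_eq_zero.1 h3).resolve_left two_ne_zero
  have sq : ∀ a : N, a ^ 2 = 0 → a = 0 := fun a ha => pow_eq_zero_iff two_ne_zero |>.1 ha
  have e0 : v 0 = 0 := by
    apply sq
    have h4 : v 0 * (v 0 ^ 2 + v 1 ^ 2 + v 2 ^ 2) = 0 := by rw [h0, mul_zero]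
    have h5 : v 0 * v 0 ^ 2 = 0 := by linear_combination h4 - v 1 * k3 - v 2 * k2
    rcases mul_eq_zero.1 h5 with h6 | h6
    · rw [h6]
      ring
    · exact h6
  have e1 : v 1 = 0 := by
    apply sq
    have h4 : v 1 * (v 0 ^ 2 + v 1 ^ 2 + v 2 ^ 2) = 0 := by rw [h0, mul_zero]
    have h5 : v 1 * v 1 ^ 2 = 0 := by linear_combination h4 - v 0 * k3 - v 2 * k1
    rcases mul_eq_zero.1 h5 with h6 | h6
    · rw [h6]
      ring
    · exact h6
  have e2 : v 2 = 0 := by
    apply sq
    rw [e0, e1] at h0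
    linear_combination h0
  funext i
  fin_cases i
  · exact e0
  · exact e1
  · exact e2

/-- derivations and the form of the quadrics -/
theorem der_lam_qq (hQ : ∀ i, (Q i).IsSymm) (D : Derivation ℤ N N)
    (hD : ∀ c : ℂ, D (algebraMap ℂ N c) = 0) {l o : Fin 4 → N}
    (hM : ∀ u, ∑ i, l i * qb Q o u i = 0) : ∑ i, D (l i) * qq Q o i = 0 := by
  have h1 : D (∑ i, l i * qq Q o i) = 0 := by
    have h2 : ∑ i, l i * qq Q o i = 0 := hM o
    rw [h2, map_zero]
  rw [map_sum] at h1
  have h3 : ∀ i, D (l i * qq Q o i) = D (l i) * qq Q o i +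
      2 * (l i * qb Q o (fun j => D (o j)) i) := by
    intro i
    rw [D.leibniz, der_qq hQ D hD]
    simp only [smul_eq_mul]
    ring
  simp only [h3] at h1
  rw [Finset.sum_add_distrib, ← Finset.mul_sum, hM, mul_zero, add_zero] at h1
  exact h1

theorem der_lam_ee (D : Derivation ℤ N N) {l : Fin 4 → N} {v : Fin 3 → N}
    (hM : ∀ u, ∑ i, l i * eb v u i = 0) : ∑ i, D (l i) * ee v i = 0 := by
  have h1 : D (∑ i, l i * ee v i) = 0 := by
    have h2 : ∑ i, l i * ee v i = 0 := hM v
    rw [h2, map_zero]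
  rw [map_sum] at h1
  have h3 : ∀ i, D (l i * ee v i) = D (l i) * ee v i +
      2 * (l i * eb v (fun j => D (v j)) i) := by
    intro i
    have h4 : D (ee v i) = 2 * eb v (fun j => D (v j)) i := by
      fin_cases i
      · change D (v 0 * v 0 + v 1 * v 1 + v 2 * v 2) =
          2 * (v 0 * D (v 0) + v 1 * D (v 1) + v 2 * D (v 2))
        rw [map_add, map_add, D.leibniz, D.leibniz, D.leibniz]
        simp only [smul_eq_mul]
        ring
      · change D (v 1 * v 2 + v 2 * v 1) = 2 * (v 1 * D (v 2) + v 2 * D (v 1))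
        rw [map_add, D.leibniz, D.leibniz]
        simp only [smul_eq_mul]
        ring
      · change D (v 0 * v 2 + v 2 * v 0) = 2 * (v 0 * D (v 2) + v 2 * D (v 0))
        rw [map_add, D.leibniz, D.leibniz]
        simp only [smul_eq_mul]
        ring
      · change D (v 0 * v 1 + v 1 * v 0) = 2 * (v 0 * D (v 1) + v 1 * D (v 0))
        rw [map_add, D.leibniz, D.leibniz]
        simp only [smul_eq_mul]
        ring
    rw [D.leibniz, h4]
    simp only [smul_eq_mul]
    ring
  simp only [h3] at h1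
  rw [Finset.sum_add_distrib, ← Finset.mul_sum, hM, mul_zero, add_zero] at h1
  exact h1

theorem qb_of_ker {x y : N} (hQ : ∀ i, (Q i).IsSymm) {o : Fin 4 → N}
    (ho : MM Q x y *ᵥ o = 0) (u : Fin 4 → N) : ∑ i, lam x y i * qb Q o u i = 0 := by
  have h1 := MM_mulVec Q x y u o
  have h2 : ∑ a, u a * (MM Q x y).mulVec o a = 0 := by
    rw [ho]
    simp
  rw [h2] at h1
  rw [qb_comm hQ]
  exact h1.symm

/-- A derivation that is trivial on `ℂ` and does not vanish at a transcendental element. -/
theorem exists_der {w : N} (hw : Transcendental ℂ w) :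
    ∃ D : Derivation ℤ N N, (∀ c : ℂ, D (algebraMap ℂ N c) = 0) ∧ D w = 1 := by
  have hns : ¬ IsAlgebraic (⊥ : IntermediateField ℂ N) w := fun h => hw (h.restrictScalars ℂ)
  obtain ⟨D, hD, hDk⟩ := exists_derivation (⊥ : IntermediateField ℂ N) hns
  exact ⟨D, fun c => hD _ (IntermediateField.algebraMap_mem _ c), hDk⟩

/-- **No double curve.** -/
theorem no_double (hQ : ∀ i, (Q i).IsSymm) (hsm : SmN Q N)
    (hz : ∀ o : Fin 4 → N, qq Q o = 0 → o = 0) {x y : N} (hx : x ≠ 0) (hy : y ≠ 0)
    {a b k : Fin 4} (hall : ∀ i : Fin 4, i = 0 ∨ i = a ∨ i = b ∨ i = k)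
    (hsum : ∀ f : Fin 4 → N, ∑ i, f i = f 0 + f a + f b + f k)
    (hk : Transcendental ℂ (lam x y k)) (hv : vtx x y ≠ 0) (hdet : (MM Q x y).det = 0)
    (hτ : ∀ j, ee (vtx x y) b * qq Q (fun i => (MM Q x y).adjugate i j) a =
      ee (vtx x y) a * qq Q (fun i => (MM Q x y).adjugate i j) b) : False := by
  obtain ⟨D, hD, hDk⟩ := exists_der hk
  have l0 : lam x y 0 = 1 := rfl
  have hlne : lam x y ≠ 0 := fun h => by
    have h1 := congrFun h 0
    rw [l0] at h1
    exact one_ne_zero h1
  have d0 : D (lam x y 0) = 0 := by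
    rw [l0, ← map_one (algebraMap ℂ N), hD]
  have final : ∀ u : Fin 4 → N, u ≠ 0 → MM Q x y *ᵥ u = 0 →
      ee (vtx x y) b * qq Q u a = ee (vtx x y) a * qq Q u b → False := by
    intro u hu hMu hu2
    have hM := qb_of_ker hQ hMu
    obtain ⟨c, hc⟩ := prop_of (l := lam x y) (d := fun i => D (lam x y i)) (E := ee (vtx x y))
      (y := qq Q u) hall hsum l0 d0 hDk (ee_ne hv) (eb_vtx hx hy (vtx x y))
      (der_lam_ee D (eb_vtx hx hy)) (hM u) (der_lam_qq hQ D hD hM) hu2
    exact no_sing hsm hz hlne hu hM (eb_vtx hx hy) hc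
  obtain ⟨o, ho0, ho⟩ := Matrix.exists_mulVec_eq_zero_iff.2 hdet
  obtain ⟨j, hj⟩ : ∃ j, o j ≠ 0 := by
    by_contra hne
    push Not at hne
    exact ho0 (funext hne)
  by_cases hadj : (MM Q x y).adjugate j j = 0
  · obtain ⟨z, hz0, hzj, hMz⟩ := second_vector (MM_isSymm hQ x y) hj ho hadj
    by_cases hfz : ee (vtx x y) b * qq Q z a - ee (vtx x y) a * qq Q z b = 0
    · exact final z hz0 hMz (sub_eq_zero.1 hfz)
    · have hdeg : (C (ee (vtx x y) b * qq Q z a - ee (vtx x y) a * qq Q z b) * X ^ 2 +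
          C (2 * (ee (vtx x y) b * qb Q o z a - ee (vtx x y) a * qb Q o z b)) * X +
          C (ee (vtx x y) b * qq Q o a - ee (vtx x y) a * qq Q o b) : N[X]).degree ≠ 0 := by
        rw [degree_quadratic hfz]
        exact two_ne_zero
      obtain ⟨β, hβ⟩ := IsAlgClosed.exists_root _ hdeg
      simp only [IsRoot.def, eval_add, eval_mul, eval_C, eval_pow, eval_X] at hβ
      refine final (o + β • z) ?_ ?_ ?_
      · intro h
        have h1 := congrFun h j
        rw [Pi.add_apply, Pi.smul_apply, hzj, smul_zero, add_zero] at h1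
        exact hj h1
      · rw [Matrix.mulVec_add, Matrix.mulVec_smul, ho, hMz, smul_zero, add_zero]
      · rw [qq_add hQ, qq_smul, qb_smul_right]
        simp only [Pi.add_apply, Pi.smul_apply, smul_eq_mul]
        linear_combination hβ
  · refine final (fun i => (MM Q x y).adjugate i j) (fun h => hadj (congrFun h j)) ?_ (hτ j)
    have h1 := Matrix.mul_adjugate (MM Q x y)
    rw [hdet, zero_smul] at h1
    funext i
    have h2 := congrFun (congrFun h1 i) j
    rw [Matrix.mul_apply] at h2
    exact h2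

/-- **No double root.** The determinant of a polynomial matrix through `MM Q x y`. -/
theorem no_double_poly (hQ : ∀ i, (Q i).IsSymm) (hsm : SmN Q N)
    (hz : ∀ o : Fin 4 → N, qq Q o = 0 → o = 0) {x y : N} (hx : x ≠ 0) (hy : y ≠ 0)
    {a b k : Fin 4} (hall : ∀ i : Fin 4, i = 0 ∨ i = a ∨ i = b ∨ i = k)
    (hsum : ∀ f : Fin 4 → N, ∑ i, f i = f 0 + f a + f b + f k)
    (hk : Transcendental ℂ (lam x y k)) (hv : vtx x y ≠ 0)
    (A : Matrix (Fin 4) (Fin 4) N[X]) {t s s' τa τb κ : N} (hs : s ≠ 0)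
    (hA : ∀ i l, (A i l).eval t = s * MM Q x y i l)
    (hA' : ∀ i l, (derivative (A i l)).eval t = s' * MM Q x y i l +
      τa * algebraMap ℂ N (Q a i l) + τb * algebraMap ℂ N (Q b i l))
    (hb : ee (vtx x y) b = κ * τa) (ha : ee (vtx x y) a = -(κ * τb))
    (hd : A.det.eval t = 0) (hd' : (derivative A.det).eval t = 0) : False := by
  have hmap : (evalRingHom t).mapMatrix A = s • MM Q x y := by
    ext i l
    rw [RingHom.mapMatrix_apply, Matrix.map_apply, coe_evalRingHom, hA, Matrix.smul_apply,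
      smul_eq_mul]
  have hdet : (MM Q x y).det = 0 := by
    have h1 : (evalRingHom t) A.det = ((evalRingHom t).mapMatrix A).det := RingHom.map_det _ _
    rw [hmap, Matrix.det_smul, coe_evalRingHom, hd] at h1
    rcases mul_eq_zero.1 h1.symm with h2 | h2
    · exact absurd h2 (pow_ne_zero _ hs)
    · exact h2
  have hadj : ∀ l j, (A.adjugate l j).eval t = s ^ 3 * (MM Q x y).adjugate l j := by
    intro l j
    have h1 : (evalRingHom t).mapMatrix A.adjugate = ((evalRingHom t).mapMatrix A).adjugate :=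
      RingHom.map_adjugate _ _
    rw [hmap, Matrix.adjugate_smul] at h1
    have h2 := congrFun (congrFun h1 l) j
    rw [RingHom.mapMatrix_apply, Matrix.map_apply, coe_evalRingHom, Matrix.smul_apply,
      smul_eq_mul] at h2
    rw [h2]
    simp
  refine no_double hQ hsm hz hx hy hall hsum hk hv hdet fun j => ?_
  have hker : ∀ i, ∑ l, MM Q x y i l * (MM Q x y).adjugate l j = 0 := by
    intro i
    have h1 := Matrix.mul_adjugate (MM Q x y)
    rw [hdet, zero_smul] at h1
    have h2 := congrFun (congrFun h1 i) j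
    rw [Matrix.mul_apply] at h2
    exact h2
  have hker' : ∀ l, ∑ i, (MM Q x y).adjugate i j * (A i l).eval t = 0 := by
    intro l
    have h1 : ∀ i, (MM Q x y).adjugate i j * (A i l).eval t =
        s * (MM Q x y l i * (MM Q x y).adjugate i j) := by
      intro i
      rw [hA, (MM_isSymm hQ x y).apply i l]
      ring
    simp only [h1]
    rw [← Finset.mul_sum, hker, mul_zero]
  have h2 := adj_of_double hd' hker' j
  set u : Fin 4 → N := fun i => (MM Q x y).adjugate i j with hu
  have h3 : ∀ i, ∑ l, (derivative (A i l)).eval t * (A.adjugate l j).eval t =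
      s ^ 3 * (τa * ∑ l, algebraMap ℂ N (Q a i l) * u l) +
      s ^ 3 * (τb * ∑ l, algebraMap ℂ N (Q b i l) * u l) := by
    intro i
    have h4 : ∀ l, (derivative (A i l)).eval t * (A.adjugate l j).eval t =
        s ^ 3 * s' * (MM Q x y i l * (MM Q x y).adjugate l j) +
        (s ^ 3 * τa * (algebraMap ℂ N (Q a i l) * u l) +
        s ^ 3 * τb * (algebraMap ℂ N (Q b i l) * u l)) := by
      intro l
      rw [hA', hadj, hu]
      ring
    simp only [h4]
    rw [Finset.sum_add_distrib, Finset.sum_add_distrib, ← Finset.mul_sum, ← Finset.mul_sum,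
      ← Finset.mul_sum, hker, mul_zero, zero_add]
    ring
  simp only [h3] at h2
  have hqq : ∀ c : Fin 4, qq Q u c = ∑ i, u i * ∑ l, algebraMap ℂ N (Q c i l) * u l := by
    intro c
    rw [qq_apply]
    refine Finset.sum_congr rfl fun i _ => ?_
    rw [Finset.mul_sum]
    refine Finset.sum_congr rfl fun l _ => ?_
    ring
  have h5 : s ^ 3 * (τa * qq Q u a + τb * qq Q u b) = 0 := by
    rw [← h2, hqq, hqq, Finset.mul_sum, Finset.mul_sum, ← Finset.sum_add_distrib,
      Finset.mul_sum]
    refine Finset.sum_congr rfl fun i _ => ?_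
    ring
  have h6 := (mul_eq_zero.1 h5).resolve_left (pow_ne_zero _ hs)
  rw [ha, hb]
  linear_combination κ * h6

theorem trans_half {w : N} (hw : Transcendental ℂ w) : Transcendental ℂ ((w + w⁻¹) / 2) := by
  have : CharZero N := charZero_of_injective_algebraMap (algebraMap ℂ N).injective
  have hw0 : w ≠ 0 := by
    rintro rfl
    exact hw isAlgebraic_zero
  intro h
  apply hw
  have hF : Algebra.IsAlgebraic ℂ (IntermediateField.adjoin ℂ {(w + w⁻¹) / 2}) :=
    IntermediateField.isAlgebraic_adjoin fun x hx => by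
      rw [Set.mem_singleton_iff] at hx
      rw [hx]
      exact h.isIntegral
  set c : IntermediateField.adjoin ℂ {(w + w⁻¹) / 2} :=
    ⟨(w + w⁻¹) / 2, IntermediateField.mem_adjoin_simple_self _ _⟩ with hc
  have h1 : IsAlgebraic (IntermediateField.adjoin ℂ {(w + w⁻¹) / 2}) w := by
    refine ⟨X ^ 2 - C (2 * c) * X + 1, ?_, ?_⟩
    · intro h2
      have h3 := congrArg (fun p => p.coeff 2) h2
      simp [coeff_one] at h3
    · have hcw : algebraMap (IntermediateField.adjoin ℂ {(w + w⁻¹) / 2}) N c =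
          (w + w⁻¹) / 2 := rfl
      simp only [map_add, map_sub, map_mul, map_pow, aeval_X, aeval_C, map_one, map_ofNat, hcw]
      field_simp
      ring
  exact h1.restrictScalars ℂ

theorem trans_ne {w : N} (hw : Transcendental ℂ w) : w - w⁻¹ ≠ 0 := by
  intro h
  have hw0 : w ≠ 0 := by
    rintro rfl
    exact hw isAlgebraic_zero
  apply hw
  refine ⟨X ^ 2 - 1, ?_, ?_⟩
  · intro h2
    have h3 := congrArg (fun p => p.coeff 2) h2
    simp [coeff_one] at h3
  · have h1 : w * w = 1 := by
      have h2 : w = w⁻¹ := sub_eq_zero.1 h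
      calc w * w = w * w⁻¹ := by rw [← h2]
        _ = 1 := mul_inv_cancel₀ hw0
    simp only [map_sub, map_pow, aeval_X, map_one]
    linear_combination h1

/-- The matrix `T · MM Q x T`. -/
noncomputable def A1 (Q : Web) (x : N) : Matrix (Fin 4) (Fin 4) N[X] := fun i l =>
  X * C (algebraMap ℂ N (Q 0 i l)) + X * C ((x + x⁻¹) / 2 * algebraMap ℂ N (Q 1 i l)) +
    (X ^ 2 + 1) * C (algebraMap ℂ N (Q 2 i l) / 2) +
    (C x * X ^ 2 + C x⁻¹) * C (algebraMap ℂ N (Q 3 i l) / 2)

theorem A1_eval (Q : Web) (x : N) {t : N} (ht : t ≠ 0) (i l : Fin 4) :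
    (A1 Q x i l).eval t = t * MM Q x t i l := by
  have : CharZero N := charZero_of_injective_algebraMap (algebraMap ℂ N).injective
  simp only [A1, MM, lam, Fin.sum_univ_four, Matrix.cons_val, eval_add, eval_mul, eval_C, eval_X,
    eval_pow, eval_one, mul_inv]
  field_simp

/-- **No double root**, when `x` is transcendental. -/
theorem no_double_one (hQ : ∀ i, (Q i).IsSymm) (hsm : SmN Q N)
    (hz : ∀ o : Fin 4 → N, qq Q o = 0 → o = 0) {x y : N} (hx : Transcendental ℂ x) (hy : y ≠ 0)
    (hd : (A1 Q x).det.eval y = 0) (hd' : (derivative (A1 Q x).det).eval y = 0) : False := by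
  have : CharZero N := charZero_of_injective_algebraMap (algebraMap ℂ N).injective
  have hx0 : x ≠ 0 := by
    rintro rfl
    exact hx isAlgebraic_zero
  refine no_double_poly (a := 2) (b := 3) (k := 1) hQ hsm hz hx0 hy (by decide)
    (fun f => by rw [Fin.sum_univ_four]; ring) (trans_half hx) ?_ (A1 Q x) (t := y) (s := y)
    (s' := 1) (τa := (y - y⁻¹) / 2) (τb := (x * y - (x * y)⁻¹) / 2) (κ := 4 * (x - x⁻¹)) hy
    (fun i l => A1_eval Q x hy i l) ?_ ?_ ?_ hd hd'
  · intro h
    exact trans_ne hx (congrFun h 0)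
  · intro i l
    simp only [A1, MM, lam, Fin.sum_univ_four, Matrix.cons_val, derivative_add, derivative_mul,
      derivative_C, derivative_X, derivative_X_pow, derivative_one, eval_add, eval_mul, eval_C,
      eval_X, eval_pow, eval_one, eval_zero, mul_inv]
    field_simp
    simp
    ring
  · rw [ee_three, vtx]
    simp only [Matrix.cons_val]
    ring
  · rw [ee_two, vtx]
    simp only [Matrix.cons_val]
    ring

/-- The matrix `T · MM Q (x T) (y / T)`. -/
noncomputable def A3 (Q : Web) (x y : N) : Matrix (Fin 4) (Fin 4) N[X] := fun i l =>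
  X * C (algebraMap ℂ N (Q 0 i l)) +
    (C x * X ^ 2 + C x⁻¹) * C (algebraMap ℂ N (Q 1 i l) / 2) +
    (C y + C y⁻¹ * X ^ 2) * C (algebraMap ℂ N (Q 2 i l) / 2) +
    X * C ((x * y + (x * y)⁻¹) / 2 * algebraMap ℂ N (Q 3 i l))

theorem A3_eval (Q : Web) {x y t : N} (hx : x ≠ 0) (hy : y ≠ 0) (ht : t ≠ 0) (i l : Fin 4) :
    (A3 Q x y i l).eval t = t * MM Q (x * t) (y / t) i l := by
  have : CharZero N := charZero_of_injective_algebraMap (algebraMap ℂ N).injective
  simp only [A3, MM, lam, Fin.sum_univ_four, Matrix.cons_val, eval_add, eval_mul, eval_C, eval_X,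
    eval_pow]
  field_simp

/-- **No double root**, when `x y` is transcendental. -/
theorem no_double_three (hQ : ∀ i, (Q i).IsSymm) (hsm : SmN Q N)
    (hz : ∀ o : Fin 4 → N, qq Q o = 0 → o = 0) {x y : N} (hx0 : x ≠ 0) (hy : y ≠ 0)
    (hx : Transcendental ℂ (x * y))
    (hd : (A3 Q x y).det.eval 1 = 0) (hd' : (derivative (A3 Q x y).det).eval 1 = 0) :
    False := by
  have : CharZero N := charZero_of_injective_algebraMap (algebraMap ℂ N).injective
  refine no_double_poly (a := 1) (b := 2) (k := 3) hQ hsm hz hx0 hy (by decide)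
    (fun f => by rw [Fin.sum_univ_four]) (trans_half hx) ?_ (A3 Q x y) (t := 1) (s := 1)
    (s' := 1) (τa := (x - x⁻¹) / 2) (τb := (y⁻¹ - y) / 2) (κ := 4 * ((x * y)⁻¹ - x * y))
    one_ne_zero (fun i l => ?_) ?_ ?_ ?_ hd hd'
  · intro h
    apply trans_ne hx
    have h1 : (x * y)⁻¹ - x * y = 0 := congrFun h 2
    linear_combination -h1
  · rw [A3_eval Q hx0 hy one_ne_zero, mul_one, div_one]
  · intro i l
    simp only [A3, MM, lam, Fin.sum_univ_four, Matrix.cons_val, derivative_add, derivative_mul,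
      derivative_C, derivative_X, derivative_X_pow, eval_add, eval_mul, eval_C,
      eval_X, eval_pow, eval_one, eval_zero]
    field_simp
    simp
    ring
  · rw [ee_two, vtx]
    simp only [Matrix.cons_val]
    ring
  · rw [ee_one, vtx]
    simp only [Matrix.cons_val]
    ring

end

end Vale.Agent.P297.C8
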