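import Vale.Agent.P297.H55.Fin8
import Vale.Agent.P297.H10.XAut

/-!
The cyclic group of order eight acts on the function field of the intersection of the four quadrics.
-/

set_option linter.unusedSectionVars false

open IntermediateField Polynomial Matrix

namespace Vale.Agent.P297.C8

open Vale.Agent.P297 Vale.Agent.P297.Gen Vale.Agent.P297.H637 Vale.Agent.P297.H55.T8
open Vale.Agent.P297.H212.Camp Vale.Agent.P297.H839 Vale.Agent.P297.H777

variable {m : Fin 10 → ℂ} {E : Type} [Field E] [Algebra ℂ E] {x : Fin 4 → E} {v : Fin 3 → E}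

theorem Z8.mem_zA {K : Type} [Field K] [Algebra ℂ K] (c : Fin 4 → K) (j : Fin 4) :
    c j ∈ adjoin ℂ (Set.range (zA c)) := by
  have h1 : zA c j ∈ adjoin ℂ (Set.range (zA c)) := subset_adjoin ℂ _ ⟨j, rfl⟩
  have h2 : c j = algebraMap ℂ K (zl j)⁻¹ * zA c j := by
    rw [zA_apply, ← mul_assoc, ← map_mul, inv_mul_cancel₀ (zl_ne j), map_one, one_mul]
  rw [h2]
  exact mul_mem (IntermediateField.algebraMap_mem _ _) h1

/-- The coordinate `v 0` is not a function on the octic. -/
theorem Z8.v_notMem (hirr : Irreducible (octic (zweb m))) (hX : IsX (zweb m) x v) :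
    v 0 ∉ K1 x := by
  intro hv
  have hFF := hX.isFF hirr
  obtain ⟨hne, v0, v1, v2⟩ := hX.ne hirr
  have cE : CharZero E := charZero_of_injective_algebraMap (algebraMap ℂ E).injective
  have cK : CharZero (K1 x) := charZero_of_injective_algebraMap (algebraMap ℂ (K1 x)).injective
  set c := cx x with hc
  have e2 := congrFun hX.eq 2
  have e3 := congrFun hX.eq 3
  have e1 := congrFun hX.eq 1
  change _ = v 1 * v 2 + v 2 * v 1 at e1
  change _ = v 0 * v 2 + v 2 * v 0 at e2
  change _ = v 0 * v 1 + v 1 * v 0 at e3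
  have hval : ∀ i, ((qq (zweb m) c i : K1 x) : E) = qq (zweb m) x i :=
    fun i => map_qq _ (K1 x).val (cx x) i
  obtain ⟨s, hs⟩ : ∃ s : K1 x, (s : E) = v 2 := by
    refine ⟨⟨v 2, ?_⟩, rfl⟩
    have h1 : v 2 = qq (zweb m) x 2 / (2 * v 0) := by
      rw [e2]
      field_simp
      ring
    rw [h1]
    exact div_mem (qq_mem _ x 2) (mul_mem (ofNat_mem _ 2) hv)
  obtain ⟨φ, hφ⟩ := IsFF.exists_hom hFF (o := zA c) hFF.one
    (by rw [st_zA, hFF.zero]) (fun j => Z8.mem_zA c j)
  have hφ1 : ∀ j, φ (c j) = algebraMap ℂ (K1 x) (zl j) * c j := fun j => by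
    rw [hφ, zA_apply]
  have hφ4 : ∀ t, φ (φ (φ (φ t))) = t := by
    have h1 : (φ.comp φ).comp (φ.comp φ) = AlgHom.id ℂ (K1 x) := by
      refine phi_ext hFF fun j => ?_
      change φ (φ (φ (φ (c j)))) = c j
      simp only [hφ1, map_mul, φ.commutes]
      have h2 : algebraMap ℂ (K1 x) (zl j) ^ 4 = 1 := by
        rw [← map_pow, zl_pow, map_one]
      linear_combination c j * h2
    exact fun t => DFunLike.congr_fun h1 t
  have hφq : ∀ i, φ (qq (zweb m) c i) = qq (zweb m) (zA c) i := by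
    intro i
    rw [map_qq]
    congr 1
    funext j
    exact hφ j
  have hj := im_sq (N := K1 x)
  have hjne : im (K1 x) ≠ 0 := by
    intro h0
    rw [h0] at hj
    norm_num at hj
  have hne3 : qq (zweb m) c 3 ≠ 0 := by
    intro h
    apply hne 3 (by decide)
    rw [← hval, h]
    rfl
  have hs2 : s ^ 2 = qq (zweb m) c 1 * qq (zweb m) c 2 / (2 * qq (zweb m) c 3) := by
    have h1 : (s ^ 2 + s ^ 2) * qq (zweb m) c 3 = qq (zweb m) c 1 * qq (zweb m) c 2 := by
      apply Subtype.ext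
      change ((s : E) ^ 2 + (s : E) ^ 2) * ((qq (zweb m) c 3 : K1 x) : E) =
        ((qq (zweb m) c 1 : K1 x) : E) * ((qq (zweb m) c 2 : K1 x) : E)
      rw [hs, hval, hval, hval, e1, e2, e3]
      ring
    rw [← h1]
    field_simp
    ring
  have hs3 : φ s ^ 2 = -(im (K1 x)) * s ^ 2 := by
    rw [← map_pow, hs2, map_div₀, map_mul, map_mul, map_ofNat, hφq, hφq, hφq, qq_zA]
    change -(im (K1 x) * qq (zweb m) c 2) * (im (K1 x) * qq (zweb m) c 1) /
      (2 * (im (K1 x) * qq (zweb m) c 3)) = _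
    field_simp
  obtain ⟨e, he⟩ := IsAlgClosed.exists_pow_nat_eq (-Complex.I) (n := 2) two_pos
  have heE : algebraMap ℂ (K1 x) e ^ 2 = -(im (K1 x)) := by
    rw [← map_pow, he, map_neg]
    rfl
  obtain ⟨k, hk, hk'⟩ : ∃ k : ℂ, algebraMap ℂ (K1 x) k ^ 2 = -(im (K1 x)) ∧
      φ s = algebraMap ℂ (K1 x) k * s := by
    have h1 : (φ s - algebraMap ℂ (K1 x) e * s) * (φ s + algebraMap ℂ (K1 x) e * s) = 0 := by
      linear_combination hs3 - s ^ 2 * heE
    rcases mul_eq_zero.1 h1 with h2 | h2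
    · exact ⟨e, heE, sub_eq_zero.1 h2⟩
    · refine ⟨-e, ?_, ?_⟩
      · rw [map_neg, neg_sq, heE]
      · rw [map_neg]
        linear_combination h2
  have h5 := hφ4 s
  simp only [hk', map_mul, φ.commutes] at h5
  have h6 : (2 : K1 x) * s = 0 := by
    linear_combination -h5 + s * (algebraMap ℂ (K1 x) k ^ 2 - im (K1 x)) * hk + s * hj
  have h7 : s = 0 := (mul_eq_zero.1 h6).resolve_left two_ne_zero
  apply v2
  rw [← hs, h7]
  rfl

/-- **The cyclic group of order eight acts on the function field.** -/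
theorem Z8.exists_act (hirr : Irreducible (octic (zweb m))) (hX : IsX (zweb m) x v) {ε : ℂ}
    (hε : ε ^ 2 = -Complex.I) : ∃ G : E ≃ₐ[ℂ] E, ActZ ε x v G := by
  have cE : CharZero E := charZero_of_injective_algebraMap (algebraMap ℂ E).injective
  have hv := Z8.v_notMem hirr hX
  have x0 := hX.one
  have hj := im_sq (N := E)
  have hεE : algebraMap ℂ E ε * algebraMap ℂ E ε = -(im E) := by
    rw [← map_mul, ← sq, hε, map_neg]
    rfl
  have A := congrFun hX.eq 0
  have B := congrFun hX.eq 1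
  have C := congrFun hX.eq 2
  have D := congrFun hX.eq 3
  change _ = v 0 * v 0 + v 1 * v 1 + v 2 * v 2 at A
  change _ = v 1 * v 2 + v 2 * v 1 at B
  change _ = v 0 * v 2 + v 2 * v 0 at C
  change _ = v 0 * v 1 + v 1 * v 0 at D
  obtain ⟨G, g1, g2⟩ := hX.exists_hom hirr hv (x' := zA x)
    (v' := ![-(algebraMap ℂ E ε * v 1), algebraMap ℂ E ε * v 0, algebraMap ℂ E ε * v 2])
    x0 (by
      rw [qq_zA]
      funext i
      fin_cases i
      · change -(im E * qq (zweb m) x 0) = -(algebraMap ℂ E ε * v 1) * -(algebraMap ℂ E ε * v 1) +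
          algebraMap ℂ E ε * v 0 * (algebraMap ℂ E ε * v 0) +
          algebraMap ℂ E ε * v 2 * (algebraMap ℂ E ε * v 2)
        linear_combination -im E * A - (v 0 ^ 2 + v 1 ^ 2 + v 2 ^ 2) * hεE
      · change -(im E * qq (zweb m) x 2) = algebraMap ℂ E ε * v 0 * (algebraMap ℂ E ε * v 2) +
          algebraMap ℂ E ε * v 2 * (algebraMap ℂ E ε * v 0)
        linear_combination -im E * C - (2 * v 0 * v 2) * hεE
      · change im E * qq (zweb m) x 1 = -(algebraMap ℂ E ε * v 1) * (algebraMap ℂ E ε * v 2) +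
          algebraMap ℂ E ε * v 2 * -(algebraMap ℂ E ε * v 1)
        linear_combination im E * B + (2 * v 1 * v 2) * hεE
      · change im E * qq (zweb m) x 3 = -(algebraMap ℂ E ε * v 1) * (algebraMap ℂ E ε * v 0) +
          algebraMap ℂ E ε * v 0 * -(algebraMap ℂ E ε * v 1)
        linear_combination im E * D + (2 * v 0 * v 1) * hεE)
    (fun j => Z8.mem_zA x j)
  have gx : ∀ j, G (x j) = algebraMap ℂ E (zl j) * x j := fun j => by
    rw [g1, zA_apply]
  have gv0 : G (v 0) = -(algebraMap ℂ E ε * v 1) := g2 0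
  have gv1 : G (v 1) = algebraMap ℂ E ε * v 0 := g2 1
  have gv2 : G (v 2) = algebraMap ℂ E ε * v 2 := g2 2
  let H : E →ₐ[ℂ] E := (G.comp G).comp (G.comp G)
  have Hx : ∀ j, H (x j) = x j := by
    intro j
    change G (G (G (G (x j)))) = x j
    simp only [gx, map_mul, G.commutes]
    have h2 : algebraMap ℂ E (zl j) ^ 4 = 1 := by
      rw [← map_pow, zl_pow, map_one]
    linear_combination x j * h2
  have Hv : ∀ j, H (v j) = -v j := by
    intro j
    change G (G (G (G (v j)))) = -v j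
    fin_cases j
    · change G (G (G (G (v 0)))) = -v 0
      simp only [gv0, gv1, map_neg, map_mul, G.commutes]
      linear_combination (v 0 * (algebraMap ℂ E ε * algebraMap ℂ E ε - im E)) * hεE + v 0 * hj
    · change G (G (G (G (v 1)))) = -v 1
      simp only [gv0, gv1, map_neg, map_mul, G.commutes]
      linear_combination (v 1 * (algebraMap ℂ E ε * algebraMap ℂ E ε - im E)) * hεE + v 1 * hj
    · change G (G (G (G (v 2)))) = -v 2
      simp only [gv2, map_mul, G.commutes]
      linear_combination (v 2 * (algebraMap ℂ E ε * algebraMap ℂ E ε - im E)) * hεE + v 2 * hj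
  have HH : ∀ s, H (H s) = s := by
    have h1 : H.comp H = AlgHom.id ℂ E := by
      refine hX.hom_ext (fun j => ?_) (fun j => ?_)
      · change H (H (x j)) = x j
        rw [Hx, Hx]
      · change H (H (v j)) = v j
        rw [Hv, map_neg, Hv, neg_neg]
    exact fun s => DFunLike.congr_fun h1 s
  let G' : E ≃ₐ[ℂ] E := AlgEquiv.ofAlgHom G ((G.comp (G.comp G)).comp H)
    (AlgHom.ext fun s => HH s) (AlgHom.ext fun s => HH s)
  have hG' : ∀ s, G' s = G s := fun s => rfl
  refine ⟨G', ?_, ?_, ?_, ?_, ?_, ?_⟩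
  · rw [hG', g1]
    rfl
  · rw [hG', g1]
    rfl
  · rw [hG', g1]
    rfl
  · rw [hG', gv0]
  · rw [hG', gv1]
  · rw [hG', gv2]

/-- **Bloch's conjecture** for the quotients by the cyclic group of order eight, with the
automorphism. -/
theorem Z8.bloch_exists (hs : SmoothX (zweb m)) (hX : IsX (zweb m) x v) {ε : ℂ}
    (hε : ε ^ 2 = -Complex.I) : ∃ G : E ≃ₐ[ℂ] E, ActZ ε x v G ∧
      ∀ (L : Type) [Field L] [Algebra ℂ L],
        (L →ₐ[ℂ] IntermediateField.fixedField (F := ℂ) (Subgroup.zpowers G)) →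
          PointsEquivalent L := by
  obtain ⟨G, hG⟩ := Z8.exists_act (hs.irreducible (zweb_symm m) hs.noBase) hX hε
  exact ⟨G, hG, fun L _ _ ι => Z8.bloch_le hs hX hε hG ι⟩

end Vale.Agent.P297.C8
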