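import Vale.Agent.P297.H55.Z8Surf
import Vale.Agent.P297.H10.OctIrr
import Vale.Agent.P297.H10.Q8Main

/-!
Bloch's conjecture for all the fields which are dominated by the quotients of the smooth
intersections of four quadrics by the groups `ℤ/8` and `Q₈`.
-/

set_option linter.unusedSectionVars false

open IntermediateField Polynomial Matrix

namespace Vale.Agent.P297.C8

open Vale.Agent.P297 Vale.Agent.P297.Gen Vale.Agent.P297.H637 Vale.Agent.P297.H55.T8
open Vale.Agent.P297.H212.Camp Vale.Agent.P297.H839 Vale.Agent.P297.H777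

section z8

variable {m : Fin 10 → ℂ} {E : Type} [Field E] [Algebra ℂ E] {x : Fin 4 → E} {v : Fin 3 → E}

/-- The field of the quotient is contained in the field of the octic. -/
theorem Z8.exists_incl (hirr : Irreducible (octic (zweb m)))
    (hX : IsX (zweb m) x v) {ε : ℂ} (hε : ε ^ 2 = -Complex.I) {G : E ≃ₐ[ℂ] E}
    (hG : ActZ ε x v G) :
    ∃ (g : K1 x →ₐ[ℂ] K1 x)
      (κ : IntermediateField.fixedField (F := ℂ) (Subgroup.zpowers G) →ₐ[ℂ] K1 x),
      (∀ j, g (cx x j) = zl j • cx x j) ∧ ∀ s, g (κ s) = κ s := by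
  have mx : ∀ j, x j ∈ K1 x := fun j => IntermediateField.subset_adjoin ℂ _ ⟨j, rfl⟩
  have hx := hG.x4 hX.one
  have hI : algebraMap ℂ E Complex.I * algebraMap ℂ E Complex.I = -1 := by
    rw [← map_mul, Complex.I_mul_I, map_neg, map_one]
  have hεE : algebraMap ℂ E ε * algebraMap ℂ E ε = -algebraMap ℂ E Complex.I := by
    rw [← map_mul, ← sq, hε, map_neg]
  have k1 : ∀ s ∈ K1 x, G s ∈ K1 x := by
    intro s hs
    refine adjoin_induction (F := ℂ) (s := Set.range x) (p := fun s _ => G s ∈ K1 x)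
      ?_ ?_ ?_ ?_ ?_ hs
    · rintro _ ⟨j, rfl⟩
      rw [hx, Algebra.smul_def]
      exact mul_mem ((K1 x).algebraMap_mem _) (mx j)
    · intro c
      rw [G.commutes]
      exact (K1 x).algebraMap_mem c
    · intro s t _ _ e1 e2
      rw [map_add]
      exact add_mem e1 e2
    · intro s _ e1
      rw [map_inv₀]
      exact inv_mem e1
    · intro s t _ _ e1 e2
      rw [map_mul]
      exact mul_mem e1 e2
  let g : K1 x →ₐ[ℂ] K1 x := (G.toAlgHom.comp (K1 x).val).codRestrict (K1 x).toSubalgebra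
    (fun s => k1 s s.2)
  have hg : ∀ s, (g s : E) = G s := fun s => rfl
  have hle : IntermediateField.fixedField (F := ℂ) (Subgroup.zpowers G) ≤ K1 x := by
    intro s hs
    have e1 : G s = s := hs ⟨G, Subgroup.mem_zpowers G⟩
    refine hX.mem_of_fixed hirr (σ := (G * G * (G * G) : E ≃ₐ[ℂ] E).toAlgHom) ?_ ?_ ?_
    · intro j
      change G (G (G (G (x j)))) = x j
      simp only [hx, map_smul, smul_smul]
      have h2 : zl j * zl j * zl j * zl j = 1 := by
        rw [← zl_pow j]
        ring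
      rw [h2, one_smul]
    · intro j
      change G (G (G (G (v j)))) = -v j
      fin_cases j
      · change G (G (G (G (v 0)))) = -v 0
        simp only [hG.a4, hG.a5, map_neg, map_mul, G.commutes]
        linear_combination (v 0 * (algebraMap ℂ E ε * algebraMap ℂ E ε -
          algebraMap ℂ E Complex.I)) * hεE + v 0 * hI
      · change G (G (G (G (v 1)))) = -v 1
        simp only [hG.a4, hG.a5, map_neg, map_mul, G.commutes]
        linear_combination (v 1 * (algebraMap ℂ E ε * algebraMap ℂ E ε -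
          algebraMap ℂ E Complex.I)) * hεE + v 1 * hI
      · change G (G (G (G (v 2)))) = -v 2
        simp only [hG.a6, map_mul, G.commutes]
        linear_combination (v 2 * (algebraMap ℂ E ε * algebraMap ℂ E ε -
          algebraMap ℂ E Complex.I)) * hεE + v 2 * hI
    · change G (G (G (G s))) = s
      rw [e1, e1, e1, e1]
  refine ⟨g, IntermediateField.inclusion hle, ?_, ?_⟩
  · intro j
    apply Subtype.ext
    rw [hg]
    exact hx j
  · intro s
    apply Subtype.ext
    rw [hg]
    exact s.2 ⟨G, Subgroup.mem_zpowers G⟩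

/-- **Bloch's conjecture** for all the fields contained in the field of the quotient by the cyclic
group of order eight of a smooth intersection of four quadrics. -/
theorem Z8.bloch_le (hs : SmoothX (zweb m)) (hX : IsX (zweb m) x v) {ε : ℂ}
    (hε : ε ^ 2 = -Complex.I) {G : E ≃ₐ[ℂ] E} (hG : ActZ ε x v G) {L : Type} [Field L]
    [Algebra ℂ L]
    (ι : L →ₐ[ℂ] IntermediateField.fixedField (F := ℂ) (Subgroup.zpowers G)) :
    PointsEquivalent L := by
  have hirr := hs.irreducible (zweb_symm m) hs.noBase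
  obtain ⟨g, κ, h1, h2⟩ := Z8.exists_incl hirr hX hε hG
  exact Z8.bloch_sub hs (hX.isFF hirr) g h1 (κ.comp ι) fun s => h2 (ι s)

/-- **Bloch's conjecture** for the quotients by the cyclic group of order eight of the smooth
intersections of four quadrics. -/
theorem Z8.bloch_smoothX (hs : SmoothX (zweb m)) (hX : IsX (zweb m) x v) {ε : ℂ}
    (hε : ε ^ 2 = -Complex.I) {G : E ≃ₐ[ℂ] E} (hG : ActZ ε x v G) :
    PointsEquivalent (IntermediateField.fixedField (F := ℂ) (Subgroup.zpowers G)) :=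
  Z8.bloch_le hs hX hε hG (AlgHom.id ℂ _)

end z8

end Vale.Agent.P297.C8

namespace Vale.Agent.P297.H10

open Vale.Agent.P297 Vale.Agent.P297.Gen Vale.Agent.P297.G4 Vale.Agent.P297.C8
open Vale.Agent.P297.H637 Vale.Agent.P297.Z3

section

variable {a : ℂ} {p q r : Fin 3 → ℂ}
variable {E : Type} [Field E] [Algebra ℂ E] {x : Fin 4 → E} {v : Fin 3 → E}

/-- The field of the quotient is contained in the field of the octic. -/
theorem exists_incl_Q8 (hirr : Irreducible (octic (webQ a p q r)))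
    (hX : IsX (webQ a p q r) x v) {G₁ G₂ : E ≃ₐ[ℂ] E} (hG : ActX x v G₁ G₂) :
    ∃ (g₁ g₂ : K1 x ≃ₐ[ℂ] K1 x)
      (κ : IntermediateField.fixedField (F := ℂ) (Subgroup.closure {G₁, G₂}) →ₐ[ℂ] K1 x),
      ActQ (cx x) g₁ g₂ ∧ (∀ s, g₁ (κ s) = κ s) ∧ ∀ s, g₂ (κ s) = κ s := by
  have mx : ∀ j, x j ∈ K1 x := fun j => IntermediateField.subset_adjoin ℂ _ ⟨j, rfl⟩
  have hFF := hX.isFF hirr
  have hgen : GenW (webQ a p q r) (cx x) := GenW.of_phi hFF (AlgHom.id ℂ (K1 x))
  have x1 : x 1 ≠ 0 := by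
    intro h0
    have h1 := coord_ne hirr hgen 1
    exact h1 (Subtype.ext h0)
  have h0 : ∀ G : E ≃ₐ[ℂ] E, G (x 0) = x 0 := fun G => by rw [hX.one, map_one]
  obtain ⟨g₁, hg₁⟩ := exists_restrK1 (x := x) G₁ (by
    intro j
    fin_cases j
    · change G₁ (x 0) ∈ _
      rw [h0]
      exact mx 0
    · change G₁ (x 1) ∈ _
      rw [hG.a1]
      exact neg_mem (mx 1)
    · change G₁ (x 2) ∈ _
      rw [hG.a2]
      exact mx 2
    · change G₁ (x 3) ∈ _
      rw [hG.a3]
      exact neg_mem (mx 3)) (by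
    intro j
    fin_cases j
    · change G₁ (G₁ (x 0)) = x 0
      rw [h0, h0]
    · change G₁ (G₁ (x 1)) = x 1
      rw [hG.a1, map_neg, hG.a1, neg_neg]
    · change G₁ (G₁ (x 2)) = x 2
      rw [hG.a2, hG.a2]
    · change G₁ (G₁ (x 3)) = x 3
      rw [hG.a3, map_neg, hG.a3, neg_neg])
  obtain ⟨g₂, hg₂⟩ := exists_restrK1 (x := x) G₂ (by
    intro j
    fin_cases j
    · change G₂ (x 0) ∈ _
      rw [h0]
      exact mx 0
    · change G₂ (x 1) ∈ _
      rw [hG.b1]
      exact neg_mem (inv_mem (mx 1))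
    · change G₂ (x 2) ∈ _
      rw [hG.b2]
      exact div_mem (mx 3) (mx 1)
    · change G₂ (x 3) ∈ _
      rw [hG.b3]
      exact neg_mem (div_mem (mx 2) (mx 1))) (by
    intro j
    fin_cases j
    · change G₂ (G₂ (x 0)) = x 0
      rw [h0, h0]
    · change G₂ (G₂ (x 1)) = x 1
      rw [hG.b1, map_neg, map_inv₀, hG.b1]
      field_simp
    · change G₂ (G₂ (x 2)) = x 2
      rw [hG.b2, map_div₀, hG.b1, hG.b3]
      field_simp
    · change G₂ (G₂ (x 3)) = x 3
      rw [hG.b3, map_neg, map_div₀, hG.b1, hG.b2]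
      field_simp)
  have hact : ActQ (cx x) g₁ g₂ := by
    refine ⟨?_, ?_, ?_, ?_, ?_, ?_⟩ <;> apply Subtype.ext
    · rw [hg₁]
      exact hG.a1
    · rw [hg₁]
      exact hG.a2
    · rw [hg₁]
      exact hG.a3
    · rw [hg₂]
      exact hG.b1
    · rw [hg₂]
      exact hG.b2
    · rw [hg₂]
      exact hG.b3
  set H := Subgroup.closure {G₁, G₂} with hH
  have hI : algebraMap ℂ E Complex.I * algebraMap ℂ E Complex.I = -1 := by
    rw [← map_mul, Complex.I_mul_I, map_neg, map_one]
  have hle : IntermediateField.fixedField (F := ℂ) H ≤ K1 x := by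
    intro s hs
    obtain ⟨e1, -⟩ := fixed_val G₁ G₂ ⟨s, hs⟩
    refine hX.mem_of_fixed hirr (σ := (G₁ * G₁ : E ≃ₐ[ℂ] E).toAlgHom) ?_ ?_ ?_
    · intro j
      change G₁ (G₁ (x j)) = x j
      fin_cases j
      · change G₁ (G₁ (x 0)) = x 0
        rw [h0, h0]
      · change G₁ (G₁ (x 1)) = x 1
        rw [hG.a1, map_neg, hG.a1, neg_neg]
      · change G₁ (G₁ (x 2)) = x 2
        rw [hG.a2, hG.a2]
      · change G₁ (G₁ (x 3)) = x 3
        rw [hG.a3, map_neg, hG.a3, neg_neg]
    · intro j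
      change G₁ (G₁ (v j)) = -v j
      fin_cases j
      · change G₁ (G₁ (v 0)) = -v 0
        rw [hG.a4, map_neg, map_mul, G₁.commutes, hG.a4]
        linear_combination v 0 * hI
      · change G₁ (G₁ (v 1)) = -v 1
        rw [hG.a5, map_mul, G₁.commutes, hG.a5]
        linear_combination v 1 * hI
      · change G₁ (G₁ (v 2)) = -v 2
        rw [hG.a6, map_mul, G₁.commutes, hG.a6]
        linear_combination v 2 * hI
    · change G₁ (G₁ s) = s
      have e2 : G₁ s = s := e1
      rw [e2, e2]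
  refine ⟨g₁, g₂, IntermediateField.inclusion hle, hact, ?_, ?_⟩
  · intro s
    apply Subtype.ext
    rw [hg₁]
    exact (fixed_val G₁ G₂ s).1
  · intro s
    apply Subtype.ext
    rw [hg₂]
    exact (fixed_val G₁ G₂ s).2

/-- **Bloch's conjecture** for all the fields contained in the field of the quotient by the
quaternion group of a smooth intersection of four quadrics. -/
theorem bloch_Q8_le (hs : SmoothX (webQ a p q r)) (hX : IsX (webQ a p q r) x v)
    {G₁ G₂ : E ≃ₐ[ℂ] E} (hG : ActX x v G₁ G₂) {L : Type} [Field L] [Algebra ℂ L]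
    (ι : L →ₐ[ℂ] IntermediateField.fixedField (F := ℂ) (Subgroup.closure {G₁, G₂})) :
    H839.PointsEquivalent L := by
  have hirr := hs.irreducible (webQ_symm a p q r) hs.noBase
  obtain ⟨g₁, g₂, κ, hact, h1, h2⟩ := exists_incl_Q8 hirr hX hG
  exact bloch_Q8 hs (hX.isFF hirr) hact (κ.comp ι) (fun s => h1 (ι s)) fun s => h2 (ι s)

end

end Vale.Agent.P297.H10
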