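import Vale.Agent.P297.H55.Canon
import Vale.Agent.P297.H10.V3.Defs

/-!
Bloch's conjecture for all canonical models, with the definitions of `H10/V3/Defs`.
-/

set_option linter.unusedSectionVars false

open MvPolynomial

namespace Vale.Agent.P297.C8V

open Vale.Agent.P297 Vale.Agent.P297.H839 Vale.Agent.P297.H10 Vale.Agent.P297.H55.T8

section web

variable {F : Fin 4 → MvPolynomial (Fin 7) ℂ} {Q : C8.Web}

theorem noBase_of (h0 : ∀ (o : Fin 4 → ℂ) (v : Fin 3 → ℂ) i,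
      aeval (C8U.pt o v) (F i) = C8.qq Q o i - C8.ee v i)
    (hf : ∀ z : Fin 7 → ℂ, z ≠ 0 → z 4 = 0 → z 5 = 0 → z 6 = 0 → ∃ i, eval z (F i) ≠ 0) :
    C8.NoBase Q := by
  intro o ho
  by_contra hne
  have h1 : C8.ee (0 : Fin 3 → ℂ) = 0 := by
    funext i
    fin_cases i <;> simp [C8.ee, C8.eb]
  obtain ⟨i, hi⟩ := hf (C8U.pt o 0) (C8U.pt_ne_zero (Or.inl hne)) rfl rfl rfl
  apply hi
  have h3 := h0 o 0 i
  rw [ho, h1, sub_self] at h3
  exact h3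

theorem isoX_of (h0 : ∀ (o : Fin 4 → ℂ) (v : Fin 3 → ℂ) i,
      aeval (C8U.pt o v) (F i) = C8.qq Q o i - C8.ee v i)
    (h1 : ∀ (o : Fin 4 → ℂ) (v : Fin 3 → ℂ) i,
      (∀ j : Fin 4, eval (C8U.pt o v) (pderiv (Fin.castAdd 3 j) (F i)) =
        2 * C8.qb Q o (Pi.single j 1) i) ∧
      (∀ k : Fin 3, eval (C8U.pt o v) (pderiv (Fin.natAdd 4 k) (F i)) =
        -(2 * C8.eb v (Pi.single k 1) i)))
    (hs : Iso F) : C8.IsoX Q := by
  classical
  obtain ⟨Z, hZ⟩ := hs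
  refine ⟨Z.image fun w => (![w.1 0, w.1 1, w.1 2, w.1 3], ![w.1 4, w.1 5, w.1 6], w.2), ?_⟩
  intro o v l hov hne hl hl1 hl2
  have hz := C8U.pt_ne_zero hne
  have hF : ∀ i, eval (C8U.pt o v) (F i) = 0 := fun i => by
    have h3 := h0 o v i
    rw [hov, sub_self] at h3
    exact h3
  have hrel : ∀ j, ∑ i, l i * eval (C8U.pt o v) (pderiv j (F i)) = 0 :=
    (C8U.rel_iff h1 o v l).2 ⟨fun j => hl1 _, fun k => hl2 _⟩
  obtain ⟨w, hw, a, b, ha, hb⟩ := hZ _ l hF hz hl hrel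
  have a0 : a ≠ 0 := by
    intro h
    rw [h, zero_smul] at ha
    exact hz ha
  have b0 : b ≠ 0 := by
    intro h
    rw [h, zero_smul] at hb
    exact hl hb
  refine ⟨_, Finset.mem_image_of_mem _ hw, a, b, a0, b0, ?_, ?_, hb⟩
  · funext j
    fin_cases j
    · exact congrFun ha 0
    · exact congrFun ha 1
    · exact congrFun ha 2
    · exact congrFun ha 3
  · funext j
    fin_cases j
    · exact congrFun ha 4
    · exact congrFun ha 5
    · exact congrFun ha 6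

end web

section main

variable {E : Type} [Field E] [Algebra ℂ E] {t : Fin 7 → E}
  {F : Fin 4 → MvPolynomial (Fin 7) ℂ}

theorem IsFF.toU (h : IsFF F t) : C8U.IsFF F t := ⟨h.one, h.zero, h.top, h.trdeg⟩

/-- **The group `ℤ/8`, all canonical models.** -/
theorem bloch8 {m : Fin 10 → ℂ} (hF : C8U.F8 m F)
    (hf : ∀ z : Fin 7 → ℂ, z ≠ 0 → z 4 = 0 → z 5 = 0 → z 6 = 0 → ∃ i, eval z (F i) ≠ 0)
    (hs : Iso F) (h : IsFF F t) {ε : ℂ} (hε : ε ^ 2 = -Complex.I) :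
    ∃ G : E ≃ₐ[ℂ] E,
      Acts t ![1, -1, Complex.I, -Complex.I, -ε, ε, ε] ![0, 1, 2, 3, 5, 4, 6] G ∧
      BlochSub (Subgroup.zpowers G) := by
  have hg : C8U.Gen F t := h.gen
  have h' := h.toU
  rw [hF.eq] at hs h' hg hf
  have hX := C8U.isX_of (C8U.aeval_P8 m) h'
  have hfin := noBase_of (C8U.aeval_P8 m) hf
  have hiso := isoX_of (C8U.aeval_P8 m) (C8U.grad_P8 m) hs
  have hirr := C8U.irreducible_of (zweb_symm m) (C8U.aeval_P8 m) hfin hiso hX hg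
  obtain ⟨G, hG, hB⟩ := H55.Nd.bloch_Z8_canonical hfin hirr hiso hX hε
  refine ⟨G, fun j => ?_, hB⟩
  have h1 := C8U.acts8 h'.one hG j
  have h2 : algebraMap ℂ E (![1, -1, Complex.I, -Complex.I, -ε, ε, ε] 0) = 1 := map_one _
  rw [h2, one_mul]
  exact h1

/-- **The group `Q₈`, all canonical models.** -/
theorem blochQ {a : ℂ} {x y z : Fin 3 → ℂ} (hF : C8U.FQ a x y z F)
    (hf : ∀ z : Fin 7 → ℂ, z ≠ 0 → z 4 = 0 → z 5 = 0 → z 6 = 0 → ∃ i, eval z (F i) ≠ 0)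
    (hs : Iso F) (h : IsFF F t) :
    ∃ G₁ G₂ : E ≃ₐ[ℂ] E,
      Acts t ![1, -1, 1, -1, -Complex.I, Complex.I, Complex.I] ![0, 1, 2, 3, 4, 5, 6] G₁ ∧
      Acts t ![1, -1, 1, -1, -1, 1, -1] ![1, 0, 3, 2, 4, 5, 6] G₂ ∧
      BlochSub (Subgroup.closure {G₁, G₂}) := by
  have hg : C8U.Gen F t := h.gen
  have h' := h.toU
  have hFU := hF
  rw [hF.eq] at hs h' hg hf
  have hX := C8U.isX_of (C8U.aeval_PQ a x y z) h'
  have hfin := noBase_of (C8U.aeval_PQ a x y z) hf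
  have hiso := isoX_of (C8U.aeval_PQ a x y z) (C8U.grad_PQ a x y z) hs
  have hirr := C8U.irreducible_of (H10.webQ_symm a x y z) (C8U.aeval_PQ a x y z) hfin hiso hX hg
  obtain ⟨G₁, G₂, hG, hB⟩ := H55.Nd.bloch_Q8_canonical hfin hirr hiso hX
  obtain ⟨a1, a2⟩ := C8U.actsQ hirr hX h'.one hG
  refine ⟨G₁, G₂, fun j => ?_, fun j => ?_, hB⟩
  · have h1 := a1 j
    have h2 : algebraMap ℂ E (![1, -1, 1, -1, -Complex.I, Complex.I, Complex.I] 0) = 1 :=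
      map_one _
    rw [h2, one_mul]
    exact h1
  · have h1 := a2 j
    have h2 : algebraMap ℂ E (![1, -1, 1, -1, -1, 1, -1] 0) = 1 := map_one _
    rw [h2, one_mul]
    exact h1

end main

end Vale.Agent.P297.C8V
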