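import Vale.Agent.P297.H55.Maps
import Vale.Agent.P297.H160.Rat4

/-!
For the general numerical Godeaux surface with torsion `ℤ/4`: a pencil of quartics with the
invariants of the surface.
-/

namespace Vale.Agent.P297.H55

open Vale.Agent.P297.G4

section Det

open MvPolynomial

theorem det_phi : (Matrix.of fun i j => eval (fun k => (xPhi k : ℂ))
    (pderiv (ePhi j) (phi (X : Fin 5 × Fin 3 → MvPolynomial (Fin 5 × Fin 3) ℂ) i))).det ≠ 0 := by
  have : Fact (Nat.Prime 101) := ⟨by norm_num⟩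
  have h := det_ne_zero_of_cert
    (fun i => phi (X : Fin 5 × Fin 3 → MvPolynomial (Fin 5 × Fin 3) ℤ) i) ePhi xPhi 101
    (look nPhi) (by
      intro i j
      have h1 := cert_phi i j
      have h2 : ∀ y : Fin 5 × Fin 3 → ℤ, eval y (phi
          (X : Fin 5 × Fin 3 → MvPolynomial (Fin 5 × Fin 3) ℤ) i) = phi y i := by
        intro y
        rw [map_phi]
        simp only [eval_X]
      simp only [h2]
      exact h1)
  have h3 : ∀ i, map (Int.castRingHom ℂ) (phi
      (X : Fin 5 × Fin 3 → MvPolynomial (Fin 5 × Fin 3) ℤ) i) = phi X i := by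
    intro i
    rw [map_phi]
    simp only [map_X]
  simp only [h3] at h
  exact h

theorem det_psi : (Matrix.of fun i j => eval (fun k => (xPsi k : ℂ))
    (pderiv (ePsi j) (psi (X : Fin 11 ⊕ Fin 4 → MvPolynomial (Fin 11 ⊕ Fin 4) ℂ) i))).det ≠ 0 := by
  have : Fact (Nat.Prime 101) := ⟨by norm_num⟩
  have h := det_ne_zero_of_cert
    (fun i => psi (X : Fin 11 ⊕ Fin 4 → MvPolynomial (Fin 11 ⊕ Fin 4) ℤ) i) ePsi xPsi 101
    (look nPsi) (by
      intro i j
      have h1 := cert_psi i j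
      have h2 : ∀ y : Fin 11 ⊕ Fin 4 → ℤ, eval y (psi
          (X : Fin 11 ⊕ Fin 4 → MvPolynomial (Fin 11 ⊕ Fin 4) ℤ) i) = psi y i := by
        intro y
        rw [map_psi]
        simp only [eval_X]
      simp only [h2]
      exact h1)
  have h3 : ∀ i, map (Int.castRingHom ℂ) (psi
      (X : Fin 11 ⊕ Fin 4 → MvPolynomial (Fin 11 ⊕ Fin 4) ℤ) i) = psi X i := by
    intro i
    rw [map_psi]
    simp only [map_X]
  simp only [h3] at h
  exact h

end Det

section Forms

open Polynomial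

theorem natDegree_dh (D : Fin 5 × Fin 3 → ℂ) (i : Fin 5) :
    (dh (fun k => (C (D k) : ℂ[X])) X 1 i).natDegree ≤ 2 := by
  unfold dh
  compute_degree

theorem natDegree_qI (c : Fin 5 → ℂ[X]) (h : ∀ i, (c i).natDegree ≤ 2) :
    (qI c).natDegree ≤ 4 := by
  have h0 := h 0
  have h1 := h 1
  have h2 := h 2
  have h3 := h 3
  have h4 := h 4
  unfold qI
  compute_degree
  all_goals omega

theorem natDegree_qJ (c : Fin 5 → ℂ[X]) (h : ∀ i, (c i).natDegree ≤ 2) :
    (qJ c).natDegree ≤ 6 := by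
  have h0 := h 0
  have h1 := h 1
  have h2 := h 2
  have h3 := h 3
  have h4 := h 4
  unfold qJ
  compute_degree
  all_goals omega

theorem natDegree_ID (m : Fin 11 → ℂ) (x y : ℂ[X]) (hx : x.natDegree ≤ 1) (hy : y.natDegree ≤ 1) :
    (ID (fun i => (C (m i) : ℂ[X])) x y).natDegree ≤ 4 := by
  unfold ID gD gI gA gB gC gE
  compute_degree
  all_goals omega

theorem natDegree_JD (m : Fin 11 → ℂ) (x y : ℂ[X]) (hx : x.natDegree ≤ 1) (hy : y.natDegree ≤ 1) :
    (JD (fun i => (C (m i) : ℂ[X])) x y).natDegree ≤ 6 := by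
  unfold JD gD gI gJ gA gB gC gE
  compute_degree
  all_goals omega

theorem dh_smul (D : Fin 5 × Fin 3 → ℂ) (t x y : ℂ) :
    qI (dh D (t * x) (t * y)) = t ^ 4 * qI (dh D x y) ∧
      qJ (dh D (t * x) (t * y)) = t ^ 6 * qJ (dh D x y) := by
  constructor
  · simp only [qI, dh]
    ring
  · simp only [qJ, dh]
    ring

theorem ID_smul (m : Fin 11 → ℂ) (t x y : ℂ) : ID m (t * x) (t * y) = t ^ 4 * ID m x y := by
  simp only [ID, gD, gI, gA, gB, gC, gE]
  ring

theorem JD_smul (m : Fin 11 → ℂ) (t x y : ℂ) : JD m (t * x) (t * y) = t ^ 6 * JD m x y := by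
  simp only [JD, gD, gI, gJ, gA, gB, gC, gE]
  ring

theorem natCast_inj (n : ℕ) : Function.Injective fun k : Fin n => ((k : ℕ) : ℂ) := by
  intro i j h
  have h1 : ((i : ℕ) : ℂ) = ((j : ℕ) : ℂ) := h
  exact Fin.ext (by exact_mod_cast h1)

/-- From the values to the forms. -/
theorem forms_eq (D : Fin 5 × Fin 3 → ℂ) (m : Fin 11 → ℂ) (c : Fin 4 → ℂ)
    (h : ∀ i, phi D i = psi (Sum.elim m c) i) (l : ℂ) :
    qI (dh D l 1) = ID m (c 0 * l + c 1) (c 2 * l + c 3) ∧
      qJ (dh D l 1) = JD m (c 0 * l + c 1) (c 2 * l + c 3) := by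
  have hx : (C (c 0) * X + C (c 1) : ℂ[X]).natDegree ≤ 1 := by compute_degree
  have hy : (C (c 2) * X + C (c 3) : ℂ[X]).natDegree ≤ 1 := by compute_degree
  have hD : ∀ z : ℂ, (fun i => (Polynomial.evalRingHom z)
      (dh (fun k => (C (D k) : ℂ[X])) X 1 i)) = dh D z 1 := by
    intro z
    rw [map_dh]
    simp
  constructor
  · have h1 : qI (dh (fun k => (C (D k) : ℂ[X])) X 1) - ID (fun i => (C (m i) : ℂ[X]))
        (C (c 0) * X + C (c 1)) (C (c 2) * X + C (c 3)) = 0 := by
      refine Polynomial.eq_zero_of_natDegree_lt_card_of_eval_eq_zero _ (natCast_inj 5) ?_ ?_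
      · intro k
        have h2 := h (Sum.inl k)
        simp only [phi, psi, Sum.elim_inl, Sum.elim_inr] at h2
        rw [Polynomial.eval_sub, sub_eq_zero, ← Polynomial.coe_evalRingHom, map_qI, hD, map_ID]
        simpa using h2
      · rw [Fintype.card_fin]
        refine lt_of_le_of_lt (Polynomial.natDegree_sub_le_of_le
          (natDegree_qI _ (natDegree_dh D)) (natDegree_ID m _ _ hx hy)) ?_
        decide
    have h2 := congrArg (Polynomial.evalRingHom l) h1
    rw [map_sub, map_zero, sub_eq_zero, map_qI, hD, map_ID] at h2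
    simpa using h2
  · have h1 : qJ (dh (fun k => (C (D k) : ℂ[X])) X 1) - JD (fun i => (C (m i) : ℂ[X]))
        (C (c 0) * X + C (c 1)) (C (c 2) * X + C (c 3)) = 0 := by
      refine Polynomial.eq_zero_of_natDegree_lt_card_of_eval_eq_zero _ (natCast_inj 7) ?_ ?_
      · intro k
        have h2 := h (Sum.inr k)
        simp only [phi, psi, Sum.elim_inl, Sum.elim_inr] at h2
        rw [Polynomial.eval_sub, sub_eq_zero, ← Polynomial.coe_evalRingHom, map_qJ, hD, map_JD]
        simpa using h2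
      · rw [Fintype.card_fin]
        refine lt_of_le_of_lt (Polynomial.natDegree_sub_le_of_le
          (natDegree_qJ _ (natDegree_dh D)) (natDegree_JD m _ _ hx hy)) ?_
        decide
    have h2 := congrArg (Polynomial.evalRingHom l) h1
    rw [map_sub, map_zero, sub_eq_zero, map_qJ, hD, map_JD] at h2
    simpa using h2

/-- The forms, without coordinates on the line. -/
theorem forms_eq' (D : Fin 5 × Fin 3 → ℂ) (m : Fin 11 → ℂ) (c : Fin 4 → ℂ)
    (h : ∀ i, phi D i = psi (Sum.elim m c) i) (x y : ℂ) (hy : y ≠ 0) :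
    qI (dh D x y) = ID m (c 0 * x + c 1 * y) (c 2 * x + c 3 * y) ∧
      qJ (dh D x y) = JD m (c 0 * x + c 1 * y) (c 2 * x + c 3 * y) := by
  obtain ⟨h1, h2⟩ := forms_eq D m c h (x / y)
  obtain ⟨h3, h4⟩ := dh_smul D y (x / y) 1
  have h5 : y * (x / y) = x := by field_simp
  rw [h5, mul_one] at h3 h4
  have h6 : c 0 * x + c 1 * y = y * (c 0 * (x / y) + c 1) := by field_simp
  have h7 : c 2 * x + c 3 * y = y * (c 2 * (x / y) + c 3) := by field_simp
  rw [h3, h4, h1, h2, h6, h7, ID_smul, JD_smul]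
  exact ⟨rfl, rfl⟩

/-- The change of coordinates. -/
theorem exists_dq (D' : Fin 5 × Fin 3 → ℂ) (m : Fin 11 → ℂ) (c : Fin 4 → ℂ)
    (hc : c 0 * c 3 - c 1 * c 2 ≠ 0) (h : ∀ i, phi D' i = psi (Sum.elim m c) i) :
    ∃ D : Fin 5 → Fin 3 → ℂ, ∀ l : ℂ, qI (H160.dq D l) = ID m l 1 ∧ qJ (H160.dq D l) = JD m l 1 := by
  set Δ := c 0 * c 3 - c 1 * c 2 with hΔ
  set a := c 3 / Δ with ha
  set b := -c 1 / Δ with hb
  set e := -c 2 / Δ with he
  set f := c 0 / Δ with hf
  set D : Fin 5 → Fin 3 → ℂ := fun i => ![D' (i, 0) * f ^ 2 + D' (i, 1) * (b * f) + D' (i, 2) * b ^ 2,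
    2 * D' (i, 0) * (e * f) + D' (i, 1) * (a * f + b * e) + 2 * D' (i, 2) * (a * b),
    D' (i, 0) * e ^ 2 + D' (i, 1) * (a * e) + D' (i, 2) * a ^ 2] with hD
  have hdq : ∀ l, H160.dq D l = dh D' (a * l + b) (e * l + f) := by
    intro l
    funext i
    simp only [H160.dq, dh, hD, Matrix.cons_val_zero, Matrix.cons_val_one, Matrix.cons_val]
    ring
  -- away from one point
  have hgen : ∀ l : ℂ, e * l + f ≠ 0 → qI (H160.dq D l) = ID m l 1 ∧
      qJ (H160.dq D l) = JD m l 1 := by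
    intro l hl
    obtain ⟨h1, h2⟩ := forms_eq' D' m c h (a * l + b) (e * l + f) hl
    have h3 : c 0 * (a * l + b) + c 1 * (e * l + f) = l := by
      rw [ha, hb, he, hf]
      field_simp
      rw [hΔ]
      ring
    have h4 : c 2 * (a * l + b) + c 3 * (e * l + f) = 1 := by
      rw [ha, hb, he, hf]
      field_simp
      rw [hΔ]
      ring
    rw [h3, h4] at h1 h2
    rw [hdq]
    exact ⟨h1, h2⟩
  have hinf : Set.Infinite {l : ℂ | e * l + f ≠ 0} := by
    have h1 : {l : ℂ | e * l + f = 0}.Finite := by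
      by_cases he0 : e = 0
      · have hf0 : f ≠ 0 := by
          intro hf0
          have h2 : c 2 = 0 := by
            have := he0
            rw [he, div_eq_zero_iff, neg_eq_zero] at this
            exact this.resolve_right hc
          have h3 : c 0 = 0 := by
            have := hf0
            rw [hf, div_eq_zero_iff] at this
            exact this.resolve_right hc
          apply hc
          rw [hΔ, h2, h3]
          ring
        refine Set.Finite.subset Set.finite_empty ?_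
        intro l hl
        have hl' : e * l + f = 0 := hl
        rw [he0, zero_mul, zero_add] at hl'
        exact absurd hl' hf0
      · refine Set.Finite.subset (Set.finite_singleton (-f / e)) ?_
        intro l hl
        have hl' : e * l + f = 0 := hl
        rw [Set.mem_singleton_iff, eq_div_iff he0]
        linear_combination hl'
    exact h1.infinite_compl
  refine ⟨D, fun l => ?_⟩
  have hDe : ∀ z : ℂ, (fun i => (Polynomial.evalRingHom z)
      (H160.dq (fun i j => (C (D i j) : ℂ[X])) X i)) = H160.dq D z := by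
    intro z
    funext i
    simp [H160.dq]
  constructor
  · have h1 : qI (H160.dq (fun i j => (C (D i j) : ℂ[X])) X) =
        ID (fun i => (C (m i) : ℂ[X])) X 1 := by
      refine Polynomial.eq_of_infinite_eval_eq _ _ (Set.Infinite.mono ?_ hinf)
      intro z hz
      have h2 := (hgen z hz).1
      change Polynomial.eval z _ = Polynomial.eval z _
      rw [← Polynomial.coe_evalRingHom, map_qI, hDe, map_ID]
      simpa using h2
    have h2 := congrArg (Polynomial.evalRingHom l) h1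
    rw [map_qI, hDe, map_ID] at h2
    simpa using h2
  · have h1 : qJ (H160.dq (fun i j => (C (D i j) : ℂ[X])) X) =
        JD (fun i => (C (m i) : ℂ[X])) X 1 := by
      refine Polynomial.eq_of_infinite_eval_eq _ _ (Set.Infinite.mono ?_ hinf)
      intro z hz
      have h2 := (hgen z hz).2
      change Polynomial.eval z _ = Polynomial.eval z _
      rw [← Polynomial.coe_evalRingHom, map_qJ, hDe, map_JD]
      simpa using h2
    have h2 := congrArg (Polynomial.evalRingHom l) h1
    rw [map_qJ, hDe, map_JD] at h2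
    simpa using h2

end Forms

section Final

open MvPolynomial

/-- the minor of `(I³, J²)` at two points -/
def thetaJ {R : Type} [CommRing R] (m : Fin 11 → R) : R :=
  ID m 0 1 ^ 3 * JD m 1 1 ^ 2 - ID m 1 1 ^ 3 * JD m 0 1 ^ 2

theorem map_thetaJ {R S : Type} [CommRing R] [CommRing S] (φ : R →+* S) (m : Fin 11 → R) :
    φ (thetaJ m) = thetaJ fun i => φ (m i) := by
  simp only [thetaJ, map_sub, map_mul, map_pow, map_ID, map_JD, map_zero, map_one]

theorem thetaJ_ne_zero : thetaJ (X : Fin 11 → MvPolynomial (Fin 11) ℂ) ≠ 0 := by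
  intro h0
  have h1 := congrArg (eval (fun i => ((![0, 1, 1, 0, 1, 1, 0, 1, 0, 1, 0] : Fin 11 → ℤ) i : ℂ))) h0
  rw [map_thetaJ, map_zero] at h1
  simp only [eval_X] at h1
  have h2' : (Int.castRingHom ℂ) (thetaJ (![0, 1, 1, 0, 1, 1, 0, 1, 0, 1, 0] : Fin 11 → ℤ)) =
      0 := by
    rw [map_thetaJ]
    exact h1
  have h2 : ((thetaJ (![0, 1, 1, 0, 1, 1, 0, 1, 0, 1, 0] : Fin 11 → ℤ) : ℤ) : ℂ) = 0 := h2'
  have h3 : thetaJ (![0, 1, 1, 0, 1, 1, 0, 1, 0, 1, 0] : Fin 11 → ℤ) ≠ 0 := by
    decide +kernel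
  exact h3 (by exact_mod_cast h2)

theorem indep_of_thetaJ (m : Fin 11 → ℂ) (hm : thetaJ m ≠ 0) (D : Fin 5 → Fin 3 → ℂ)
    (hD : ∀ l : ℂ, qI (H160.dq D l) = ID m l 1 ∧ qJ (H160.dq D l) = JD m l 1) (α β : ℂ)
    (h : α ≠ 0 ∨ β ≠ 0) :
    Polynomial.C α * qI (H160.dq (fun i j => (Polynomial.C (D i j) : Polynomial ℂ))
      Polynomial.X) ^ 3 ≠
    Polynomial.C β * qJ (H160.dq (fun i j => (Polynomial.C (D i j) : Polynomial ℂ))
      Polynomial.X) ^ 2 := by
  intro he
  have hDe : ∀ z : ℂ, (fun i => (Polynomial.evalRingHom z)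
      (H160.dq (fun i j => (Polynomial.C (D i j) : Polynomial ℂ)) Polynomial.X i)) =
      H160.dq D z := by
    intro z
    funext i
    simp [H160.dq]
  have h1 : ∀ z : ℂ, α * ID m z 1 ^ 3 = β * JD m z 1 ^ 2 := by
    intro z
    have h2 := congrArg (Polynomial.evalRingHom z) he
    rw [map_mul, map_mul, map_pow, map_pow, map_qI, map_qJ, hDe, (hD z).1, (hD z).2] at h2
    simpa using h2
  have h0 := h1 0
  have h2 := h1 1
  have h3 : α * thetaJ m = 0 := by
    unfold thetaJ
    linear_combination (JD m 1 1 ^ 2) * h0 - (JD m 0 1 ^ 2) * h2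
  have h4 : β * thetaJ m = 0 := by
    unfold thetaJ
    linear_combination (ID m 1 1 ^ 3) * h0 - (ID m 0 1 ^ 3) * h2
  rcases h with h | h
  · exact hm ((mul_eq_zero.1 h3).resolve_left h)
  · exact hm ((mul_eq_zero.1 h4).resolve_left h)

/-- **[G3]** For a general member of the family there is a pencil of quartics with the invariants
of the surface, with coefficients of degree two in the parameter. -/
theorem exists_quartic : ∃ Θ : MvPolynomial (Fin 11) ℂ, Θ ≠ 0 ∧ ∀ m : Fin 11 → ℂ, eval m Θ ≠ 0 →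
    ∃ D : Fin 5 → Fin 3 → ℂ,
      (∀ l : ℂ, qI (H160.dq D l) = ID m l 1 ∧ qJ (H160.dq D l) = JD m l 1) ∧
      ∀ α β : ℂ, (α ≠ 0 ∨ β ≠ 0) →
        Polynomial.C α * qI (H160.dq (fun i j => (Polynomial.C (D i j) : Polynomial ℂ))
          Polynomial.X) ^ 3 ≠
        Polynomial.C β * qJ (H160.dq (fun i j => (Polynomial.C (D i j) : Polynomial ℂ))
          Polynomial.X) ^ 2 := by
  have hq : (X 0 * X 3 - X 1 * X 2 : MvPolynomial (Fin 4) ℂ) ≠ 0 := by
    intro h0
    have h1 := congrArg (eval ![1, 0, 0, 1]) h0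
    simp at h1
  obtain ⟨c, hc, P, hP0, hP⟩ := exists_param_open (K := ℂ)
    (fun i => phi (X : Fin 5 × Fin 3 → MvPolynomial (Fin 5 × Fin 3) ℂ) i) ePhi
    (fun k => (xPhi k : ℂ)) det_phi
    (fun i => psi (X : Fin 11 ⊕ Fin 4 → MvPolynomial (Fin 11 ⊕ Fin 4) ℂ) i) ePsi
    (fun k => (xPsi k : ℂ)) det_psi (X 0 * X 3 - X 1 * X 2) hq
  refine ⟨P * thetaJ X, mul_ne_zero hP0 thetaJ_ne_zero, fun m hm => ?_⟩
  rw [map_mul] at hm
  obtain ⟨z, hz⟩ := hP m (left_ne_zero_of_mul hm)
  have hm2 : thetaJ m ≠ 0 := by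
    have h1 := right_ne_zero_of_mul hm
    rw [map_thetaJ] at h1
    simpa only [eval_X] using h1
  have hz' : ∀ i, phi z i = psi (Sum.elim m c) i := by
    intro i
    have h1 := hz i
    rw [map_phi, map_psi] at h1
    simpa only [eval_X] using h1
  have hc' : c 0 * c 3 - c 1 * c 2 ≠ 0 := by
    simpa only [map_sub, map_mul, eval_X] using hc
  obtain ⟨D, hD⟩ := exists_dq z m c hc' hz'
  exact ⟨D, hD, indep_of_thetaJ m hm2 D hD⟩

end Final

end Vale.Agent.P297.H55
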