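import Vale.Agent.P297.H55.Null
import Vale.Agent.P297.H55.Quart

/-!
Every pair of binary forms of degree four and six is the pair of invariants of a pencil of
quartics with coefficients of degree two.
-/

namespace Vale.Agent.P297.H55

open Vale.Agent.P297.G4 Filter Topology

/-- the space of pencils -/
abbrev Pen : Type := Fin 5 × Fin 3 → ℂ

/-- a column -/
def pcol (D : Pen) (j : Fin 3) : Fin 5 → ℂ := fun i => D (i, j)

theorem dh_eq (D : Pen) (x y : ℂ) : dh D x y =
    y ^ 2 • pcol D 0 + (x * y) • pcol D 1 + x ^ 2 • pcol D 2 := by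
  funext i
  simp only [dh, pcol, Pi.add_apply, Pi.smul_apply, smul_eq_mul]
  ring

/-- the action of an operation on pencils -/
def lift (A : Op) : Pen →ₗ[ℂ] Pen where
  toFun D := fun k => A.map (pcol D k.2) k.1
  map_add' D E := by
    funext k
    have h : pcol (D + E) k.2 = pcol D k.2 + pcol E k.2 := rfl
    simp only [h, map_add, Pi.add_apply]
  map_smul' z D := by
    funext k
    have h : pcol (z • D) k.2 = z • pcol D k.2 := rfl
    simp only [h, map_smul, Pi.smul_apply, RingHom.id_apply]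

theorem pcol_lift (A : Op) (D : Pen) (j : Fin 3) : pcol (lift A D) j = A.map (pcol D j) := rfl

theorem dh_lift (A : Op) (D : Pen) (x y : ℂ) : dh (lift A D) x y = A.map (dh D x y) := by
  rw [dh_eq, dh_eq, map_add, map_add, map_smul, map_smul, map_smul]
  rfl

theorem lift_comp (A B : Op) (D : Pen) : lift (A.comp B) D = lift A (lift B D) := rfl

theorem phi_lift (A : Op) (D : Pen) : phi (lift A D) = phi D := by
  funext i
  rcases i with k | k
  · simp only [phi, Sum.elim_inl, dh_lift, A.hI]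
  · simp only [phi, Sum.elim_inr, dh_lift, A.hJ]

theorem continuous_lift (A : Op) : Continuous (lift A) :=
  LinearMap.continuous_of_finiteDimensional _

theorem continuous_phi : Continuous (phi : Pen → (Fin 5 ⊕ Fin 7 → ℂ)) := by
  apply continuous_pi
  rintro (k | k)
  · simp only [phi, Sum.elim_inl, qI, dh]
    fun_prop
  · simp only [phi, Sum.elim_inr, qJ, dh]
    fun_prop

/-- weights -/
def wt : Fin 5 ⊕ Fin 7 → ℕ
  | Sum.inl _ => 2
  | Sum.inr _ => 3

theorem phi_smul (z : ℂ) (D : Pen) (i : Fin 5 ⊕ Fin 7) : phi (z • D) i = z ^ wt i * phi D i := by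
  rcases i with k | k
  · simp only [phi, Sum.elim_inl, qI, dh, wt, Pi.smul_apply, smul_eq_mul]
    ring
  · simp only [phi, Sum.elim_inr, qJ, dh, wt, Pi.smul_apply, smul_eq_mul]
    ring

section

open Polynomial

/-- if the values vanish, then the forms vanish -/
theorem null_of_phi (D : Pen) (h : phi D = 0) (l : ℂ) : qI (dh D l 1) = 0 ∧ qJ (dh D l 1) = 0 := by
  have hD : ∀ z : ℂ, (fun i => (Polynomial.evalRingHom z)
      (dh (fun k => (C (D k) : ℂ[X])) X 1 i)) = dh D z 1 := by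
    intro z
    rw [map_dh]
    simp
  constructor
  · have h1 : qI (dh (fun k => (C (D k) : ℂ[X])) X 1) = 0 := by
      refine Polynomial.eq_zero_of_natDegree_lt_card_of_eval_eq_zero _ (natCast_inj 5) ?_ ?_
      · intro k
        have h2 := congrFun h (Sum.inl k)
        simp only [phi, Sum.elim_inl, Pi.zero_apply] at h2
        rw [← Polynomial.coe_evalRingHom, map_qI, hD]
        exact h2
      · rw [Fintype.card_fin]
        exact lt_of_le_of_lt (natDegree_qI _ (natDegree_dh D)) (by decide)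
    have h2 := congrArg (Polynomial.evalRingHom l) h1
    rwa [map_zero, map_qI, hD] at h2
  · have h1 : qJ (dh (fun k => (C (D k) : ℂ[X])) X 1) = 0 := by
      refine Polynomial.eq_zero_of_natDegree_lt_card_of_eval_eq_zero _ (natCast_inj 7) ?_ ?_
      · intro k
        have h2 := congrFun h (Sum.inr k)
        simp only [phi, Sum.elim_inr, Pi.zero_apply] at h2
        rw [← Polynomial.coe_evalRingHom, map_qJ, hD]
        exact h2
      · rw [Fintype.card_fin]
        exact lt_of_le_of_lt (natDegree_qJ _ (natDegree_dh D)) (by decide)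
    have h2 := congrArg (Polynomial.evalRingHom l) h1
    rwa [map_zero, map_qJ, hD] at h2

end

/-- a point where the quartic is not zero -/
theorem exists_ne (D : Pen) (hD : D ≠ 0) : ∃ l : ℂ, dh D l 1 ≠ 0 := by
  by_contra hcon
  push Not at hcon
  apply hD
  have h0 := hcon 0
  have h1 := hcon 1
  have h2 := hcon (-1)
  rw [dh_eq] at h0 h1 h2
  funext ⟨i, j⟩
  have e0 := congrFun h0 i
  have e1 := congrFun h1 i
  have e2 := congrFun h2 i
  simp only [Pi.add_apply, Pi.smul_apply, smul_eq_mul, Pi.zero_apply, pcol] at e0 e1 e2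
  fin_cases j
  · change D (i, 0) = 0
    linear_combination e0
  · change D (i, 1) = 0
    linear_combination (1 / 2 : ℂ) * e1 - (1 / 2 : ℂ) * e2
  · change D (i, 2) = 0
    linear_combination (1 / 2 : ℂ) * e1 + (1 / 2 : ℂ) * e2 - e0

/-- A null pencil can be moved to one with a constant triple root at `0`. -/
theorem exists_lift (D : Pen) (hD : D ≠ 0)
    (hn : ∀ l : ℂ, qI (dh D l 1) = 0 ∧ qJ (dh D l 1) = 0) :
    ∃ A : Op, ∀ j, lift A D (0, j) = 0 ∧ lift A D (1, j) = 0 ∧ lift A D (2, j) = 0 := by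
  obtain ⟨l, hl⟩ := exists_ne D hD
  obtain ⟨A, hA0, hA1, hA2⟩ := exists_op (dh D l 1) (hn l).1 (hn l).2
  refine ⟨A, ?_⟩
  obtain ⟨E, hE⟩ : ∃ E, E = lift A D := ⟨_, rfl⟩
  have hE1 : dh E l 1 = A.map (dh D l 1) := by rw [hE, dh_lift]
  rw [← hE1] at hA0 hA1 hA2
  have hEne : dh E l 1 ≠ 0 := by
    rw [hE1]
    exact fun h => hl (A.inj _ h)
  have hnE : ∀ x : ℂ, qI (dh E x 1) = 0 ∧ qJ (dh E x 1) = 0 := by
    intro x
    rw [hE, dh_lift, A.hI, A.hJ]
    exact hn x
  rw [← hE]
  simp only [dh] at hA0 hA1 hA2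
  have key := const_root (dh E l 1 4) (E (4, 1) + 2 * l * E (4, 2)) (E (4, 2))
    (dh E l 1 3) (E (3, 1) + 2 * l * E (3, 2)) (E (3, 2))
    (E (0, 1) + 2 * l * E (0, 2)) (E (0, 2)) (E (1, 1) + 2 * l * E (1, 2)) (E (1, 2))
    (E (2, 1) + 2 * l * E (2, 2)) (E (2, 2)) (by
      by_contra hcon
      push Not at hcon
      apply hEne
      funext i
      fin_cases i
      · exact hA0
      · exact hA1
      · exact hA2
      · exact hcon.1
      · exact hcon.2) (by
      intro x
      have h1 := (hnE (l + x)).1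
      simp only [qI, dh] at h1 ⊢
      have f0 : E (0, 0) * 1 ^ 2 + E (0, 1) * ((l + x) * 1) + E (0, 2) * (l + x) ^ 2 =
          (E (0, 1) + 2 * l * E (0, 2)) * x + E (0, 2) * x ^ 2 := by
        linear_combination hA0
      have f1 : E (1, 0) * 1 ^ 2 + E (1, 1) * ((l + x) * 1) + E (1, 2) * (l + x) ^ 2 =
          (E (1, 1) + 2 * l * E (1, 2)) * x + E (1, 2) * x ^ 2 := by
        linear_combination hA1
      have f2 : E (2, 0) * 1 ^ 2 + E (2, 1) * ((l + x) * 1) + E (2, 2) * (l + x) ^ 2 =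
          (E (2, 1) + 2 * l * E (2, 2)) * x + E (2, 2) * x ^ 2 := by
        linear_combination hA2
      rw [f0, f1, f2] at h1
      linear_combination h1) (by
      intro x
      have h1 := (hnE (l + x)).2
      simp only [qJ, dh] at h1 ⊢
      have f0 : E (0, 0) * 1 ^ 2 + E (0, 1) * ((l + x) * 1) + E (0, 2) * (l + x) ^ 2 =
          (E (0, 1) + 2 * l * E (0, 2)) * x + E (0, 2) * x ^ 2 := by
        linear_combination hA0
      have f1 : E (1, 0) * 1 ^ 2 + E (1, 1) * ((l + x) * 1) + E (1, 2) * (l + x) ^ 2 =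
          (E (1, 1) + 2 * l * E (1, 2)) * x + E (1, 2) * x ^ 2 := by
        linear_combination hA1
      have f2 : E (2, 0) * 1 ^ 2 + E (2, 1) * ((l + x) * 1) + E (2, 2) * (l + x) ^ 2 =
          (E (2, 1) + 2 * l * E (2, 2)) * x + E (2, 2) * x ^ 2 := by
        linear_combination hA2
      rw [f0, f1, f2] at h1
      linear_combination h1)
  obtain ⟨k1, k2, k3, k4, k5, k6⟩ := key
  intro j
  rw [k2] at k1
  rw [k4] at k3
  rw [k6] at k5
  rw [k2] at hA0
  rw [k4] at hA1
  rw [k6] at hA2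
  simp only [mul_zero, add_zero] at k1 k3 k5
  rw [k1] at hA0
  rw [k3] at hA1
  rw [k5] at hA2
  fin_cases j
  · refine ⟨?_, ?_, ?_⟩
    · change E (0, 0) = 0
      linear_combination hA0
    · change E (1, 0) = 0
      linear_combination hA1
    · change E (2, 0) = 0
      linear_combination hA2
  · exact ⟨k1, k3, k5⟩
  · exact ⟨k2, k4, k6⟩

/-- A null pencil can be made small. -/
theorem exists_small (D : Pen) (hD : D ≠ 0)
    (hn : ∀ l : ℂ, qI (dh D l 1) = 0 ∧ qJ (dh D l 1) = 0) : ∃ A : Op, ‖lift A D‖ < 1 := by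
  obtain ⟨A, hA⟩ := exists_lift D hD hn
  obtain ⟨E, hE⟩ : ∃ E, E = lift A D := ⟨_, rfl⟩
  rw [← hE] at hA
  have ht0 : (0 : ℝ) < 1 + ‖E‖ := by positivity
  have ht : ((1 + ‖E‖ : ℝ) : ℂ) ≠ 0 := by
    exact_mod_cast ht0.ne'
  refine ⟨(opS _ ht).comp A, ?_⟩
  rw [lift_comp, ← hE, pi_norm_lt_iff one_pos]
  have hEk : ∀ k, ‖E k‖ ≤ ‖E‖ := norm_le_pi_norm E
  have hT : 1 ≤ 1 + ‖E‖ := by
    have := norm_nonneg E
    linarith
  have hT2 : ‖(((1 + ‖E‖ : ℝ) : ℂ) ^ 2)⁻¹‖ * ‖E‖ < 1 := by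
    rw [norm_inv, norm_pow, Complex.norm_real, Real.norm_of_nonneg ht0.le,
      inv_mul_lt_iff₀ (by positivity)]
    nlinarith [norm_nonneg E]
  have hT4 : ‖(((1 + ‖E‖ : ℝ) : ℂ) ^ 4)⁻¹‖ * ‖E‖ < 1 := by
    rw [norm_inv, norm_pow, Complex.norm_real, Real.norm_of_nonneg ht0.le,
      inv_mul_lt_iff₀ (by positivity)]
    nlinarith [norm_nonneg E, pow_nonneg (norm_nonneg E) 2, pow_nonneg (norm_nonneg E) 3,
      pow_nonneg (norm_nonneg E) 4]
  rintro ⟨i, j⟩
  obtain ⟨h0, h1', h2⟩ := hA j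
  fin_cases i
  · change ‖((1 + ‖E‖ : ℝ) : ℂ) ^ 4 * E (0, j)‖ < 1
    rw [h0, mul_zero, norm_zero]
    exact one_pos
  · change ‖((1 + ‖E‖ : ℝ) : ℂ) ^ 2 * E (1, j)‖ < 1
    rw [h1', mul_zero, norm_zero]
    exact one_pos
  · change ‖E (2, j)‖ < 1
    rw [h2, norm_zero]
    exact one_pos
  · change ‖(((1 + ‖E‖ : ℝ) : ℂ) ^ 2)⁻¹ * E (3, j)‖ < 1
    rw [norm_mul]
    exact lt_of_le_of_lt (mul_le_mul_of_nonneg_left (hEk _) (norm_nonneg _)) hT2
  · change ‖(((1 + ‖E‖ : ℝ) : ℂ) ^ 4)⁻¹ * E (4, j)‖ < 1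
    rw [norm_mul]
    exact lt_of_le_of_lt (mul_le_mul_of_nonneg_left (hEk _) (norm_nonneg _)) hT4

/-- The image is closed. -/
theorem isClosed_range_phi : IsClosed (Set.range (phi : Pen → (Fin 5 ⊕ Fin 7 → ℂ))) := by
  rw [← isSeqClosed_iff_isClosed]
  intro y y0 hy hlim
  have hmin : ∀ n, ∃ D : Pen, phi D = y n ∧ ∀ E : Pen, phi E = y n → ‖D‖ ≤ ‖E‖ := by
    intro n
    have hcl : IsClosed {D : Pen | phi D = y n} := isClosed_singleton.preimage continuous_phi
    obtain ⟨D, hD, hd⟩ := hcl.exists_infDist_eq_dist (hy n) 0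
    refine ⟨D, hD, fun E hE => ?_⟩
    have h1 : Metric.infDist 0 {D : Pen | phi D = y n} ≤ dist 0 E := Metric.infDist_le_dist_of_mem hE
    rw [hd, dist_zero_left, dist_zero_left] at h1
    exact h1
  choose D hD hDmin using hmin
  by_cases hb : ∃ R, ∃ᶠ n in atTop, ‖D n‖ ≤ R
  · obtain ⟨R, hR⟩ := hb
    obtain ⟨a, _, ψ, hψ, hlimψ⟩ := tendsto_subseq_of_frequently_bounded
      (Metric.isBounded_closedBall (x := (0 : Pen)) (r := R)) (x := D)
      (hR.mono fun n hn => by rwa [mem_closedBall_zero_iff])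
    refine ⟨a, ?_⟩
    have h1 : Tendsto (fun n => phi (D (ψ n))) atTop (𝓝 (phi a)) :=
      (continuous_phi.tendsto a).comp hlimψ
    have h2 : Tendsto (fun n => y (ψ n)) atTop (𝓝 y0) := hlim.comp hψ.tendsto_atTop
    simp only [hD] at h1
    exact tendsto_nhds_unique h1 h2
  · push Not at hb
    exfalso
    have hinf : Tendsto (fun n => ‖D n‖) atTop atTop := by
      rw [tendsto_atTop]
      intro R
      exact (hb R).mono fun n hn => le_of_lt hn
    obtain ⟨E, hEdef⟩ : ∃ E : ℕ → Pen, ∀ n, E n = ((‖D n‖ : ℂ)⁻¹) • D n := ⟨_, fun _ => rfl⟩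
    have hE1 : ∀ n, 0 < ‖D n‖ → ‖E n‖ = 1 := by
      intro n hn
      rw [hEdef, norm_smul, norm_inv, Complex.norm_real, norm_norm]
      exact inv_mul_cancel₀ hn.ne'
    have hEle : ∀ n, E n ∈ Metric.closedBall (0 : Pen) 1 := by
      intro n
      rw [mem_closedBall_zero_iff]
      rcases (norm_nonneg (D n)).eq_or_lt with h | h
      · rw [hEdef, ← h]
        simp
      · exact (hE1 n h).le
    obtain ⟨a, _, ψ, hψ, hlimψ⟩ := tendsto_subseq_of_bounded
      (Metric.isBounded_closedBall (x := (0 : Pen)) (r := 1)) hEle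
    have hinfψ : Tendsto (fun n => ‖D (ψ n)‖) atTop atTop := hinf.comp hψ.tendsto_atTop
    have hpos : ∀ᶠ n in atTop, 0 < ‖D (ψ n)‖ := hinfψ.eventually_gt_atTop 0
    have ha1 : ‖a‖ = 1 := by
      have h1 : Tendsto (fun n => ‖E (ψ n)‖) atTop (𝓝 ‖a‖) := hlimψ.norm
      have h2 : Tendsto (fun n => ‖E (ψ n)‖) atTop (𝓝 1) := by
        refine tendsto_const_nhds.congr' (hpos.mono fun n hn => ?_)
        exact (hE1 _ hn).symm
      exact tendsto_nhds_unique h1 h2
    have ha0 : a ≠ 0 := by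
      rintro rfl
      rw [norm_zero] at ha1
      exact zero_ne_one ha1
    have hphi : phi a = 0 := by
      funext i
      have h1 : Tendsto (fun n => phi (E (ψ n)) i) atTop (𝓝 (phi a i)) :=
        ((continuous_apply i).tendsto _).comp ((continuous_phi.tendsto a).comp hlimψ)
      have h2 : ∀ n, phi (E (ψ n)) i = ((‖D (ψ n)‖ : ℂ)⁻¹) ^ wt i * y (ψ n) i := by
        intro n
        rw [hEdef, phi_smul, hD]
      have h3 : Tendsto (fun n => ((‖D (ψ n)‖ : ℂ)⁻¹) ^ wt i) atTop (𝓝 0) := by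
        have h4 : Tendsto (fun n => ((‖D (ψ n)‖ : ℂ)⁻¹)) atTop (𝓝 0) := by
          have h5 : Tendsto (fun n => (‖D (ψ n)‖)⁻¹) atTop (𝓝 0) := tendsto_inv_atTop_zero.comp hinfψ
          have h6 := (Complex.continuous_ofReal.tendsto 0).comp h5
          refine (h6.congr fun n => ?_)
          simp
        have h5 := h4.pow (wt i)
        rw [zero_pow (by rcases i with k | k <;> simp [wt])] at h5
        exact h5
      have h4 : Tendsto (fun n => y (ψ n) i) atTop (𝓝 (y0 i)) :=
        ((continuous_apply i).tendsto _).comp (hlim.comp hψ.tendsto_atTop)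
      have h5 := h3.mul h4
      rw [zero_mul] at h5
      simp only [h2] at h1
      exact tendsto_nhds_unique h1 h5
    obtain ⟨A, hA⟩ := exists_small a ha0 (null_of_phi a hphi)
    have hev : ∀ᶠ n in atTop, ‖lift A (E (ψ n))‖ < 1 := by
      have h1 : Tendsto (fun n => ‖lift A (E (ψ n))‖) atTop (𝓝 ‖lift A a‖) :=
        (((continuous_lift A).tendsto a).comp hlimψ).norm
      exact h1.eventually_lt_const hA
    obtain ⟨n, hn1, hn2⟩ := (hev.and hpos).exists
    have h1 : ‖lift A (D (ψ n))‖ < ‖D (ψ n)‖ := by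
      rw [hEdef, map_smul, norm_smul, norm_inv, Complex.norm_real, norm_norm,
        inv_mul_lt_iff₀ hn2, mul_one] at hn1
      exact hn1
    exact absurd (hDmin (ψ n) (lift A (D (ψ n))) (by rw [phi_lift, hD])) (not_le.2 h1)

/-- A nonempty Zariski open set is dense. -/
theorem dense_open {ι : Type*} [Finite ι] (P : MvPolynomial ι ℂ) (hP : P ≠ 0) :
    Dense {y : ι → ℂ | MvPolynomial.eval y P ≠ 0} := by
  intro y
  obtain ⟨v, hv⟩ : ∃ v : ι → ℂ, MvPolynomial.eval v P ≠ 0 := by
    by_contra hcon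
    push Not at hcon
    exact hP (MvPolynomial.funext fun w => by rw [hcon w, map_zero])
  obtain ⟨p, hp⟩ : ∃ p : Polynomial ℂ, ∀ x : ℂ, p.eval x =
      MvPolynomial.eval (fun i => y i + x * (v i - y i)) P := by
    refine ⟨MvPolynomial.aeval (fun i => Polynomial.C (y i) + Polynomial.X *
      Polynomial.C (v i - y i)) P, fun x => ?_⟩
    have h1 : (Polynomial.evalRingHom x).comp (MvPolynomial.aeval (fun i => Polynomial.C (y i) +
        Polynomial.X * Polynomial.C (v i - y i)) :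
        MvPolynomial ι ℂ →ₐ[ℂ] Polynomial ℂ).toRingHom =
        MvPolynomial.eval (fun i => y i + x * (v i - y i)) := by
      apply MvPolynomial.ringHom_ext
      · intro r
        simp
      · intro i
        simp
    exact congrArg (fun φ => φ P) h1
  have hp0 : p ≠ 0 := by
    rintro rfl
    have h1 := hp 1
    rw [Polynomial.eval_zero] at h1
    apply hv
    rw [h1]
    congr 2
    funext i
    ring
  have hseq : Tendsto (fun n : ℕ => (1 / ((n : ℝ) + 1) : ℝ)) atTop (𝓝 0) :=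
    tendsto_one_div_add_atTop_nhds_zero_nat
  have hseqC : Tendsto (fun n : ℕ => (((1 / ((n : ℝ) + 1) : ℝ)) : ℂ)) atTop (𝓝 0) := by
    have h1 := (Complex.continuous_ofReal.tendsto 0).comp hseq
    rw [Complex.ofReal_zero] at h1
    exact h1
  have hev : ∀ᶠ n : ℕ in atTop, p.eval (((1 / ((n : ℝ) + 1) : ℝ)) : ℂ) ≠ 0 := by
    have hfin : {x : ℂ | p.eval x = 0}.Finite := by
      refine Set.Finite.subset (p.roots.toFinset.finite_toSet) ?_
      intro x hx
      have hx' : p.eval x = 0 := hx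
      simp [hp0, hx']
    have hinj : Function.Injective (fun n : ℕ => (((1 / ((n : ℝ) + 1) : ℝ)) : ℂ)) := by
      intro i j hij
      have h1 : (1 / ((i : ℝ) + 1) : ℝ) = 1 / ((j : ℝ) + 1) := Complex.ofReal_injective hij
      have h2 : ((i : ℝ) + 1) = (j : ℝ) + 1 := by
        have hi : ((i : ℝ) + 1) ≠ 0 := by positivity
        have hj : ((j : ℝ) + 1) ≠ 0 := by positivity
        field_simp at h1
        linarith
      exact_mod_cast (add_right_cancel h2)
    have h3 := hfin.preimage (hinj.injOn)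
    have h4 := h3.compl_mem_cofinite
    rw [Nat.cofinite_eq_atTop] at h4
    exact h4
  refine mem_closure_of_tendsto (f := fun n : ℕ => fun i =>
    y i + (((1 / ((n : ℝ) + 1) : ℝ)) : ℂ) * (v i - y i)) ?_ (hev.mono fun n hn => ?_)
  · rw [tendsto_pi_nhds]
    intro i
    have h1 := (hseqC.mul_const (v i - y i)).const_add (y i)
    rwa [zero_mul, add_zero] at h1
  · rw [hp] at hn
    exact hn

/-- **Surjectivity.** -/
theorem phi_surjective (y : Fin 5 ⊕ Fin 7 → ℂ) : ∃ D : Pen, phi D = y := by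
  obtain ⟨P, hP0, hP⟩ := exists_open_image (K := ℂ)
    (fun i => phi (MvPolynomial.X : Fin 5 × Fin 3 → MvPolynomial (Fin 5 × Fin 3) ℂ) i) ePhi
    (fun k => (xPhi k : ℂ)) det_phi
  have h1 : Dense (Set.range (phi : Pen → (Fin 5 ⊕ Fin 7 → ℂ))) := by
    refine (dense_open P hP0).mono ?_
    intro z hz
    obtain ⟨D, hD⟩ := hP z hz
    refine ⟨D, ?_⟩
    funext i
    have h2 := hD i
    rw [map_phi] at h2
    simpa only [MvPolynomial.eval_X] using h2
  have h2 : y ∈ closure (Set.range (phi : Pen → (Fin 5 ⊕ Fin 7 → ℂ))) := h1 y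
  rw [isClosed_range_phi.closure_eq] at h2
  exact h2

/-- **[G3]**, for every member of the family. -/
theorem exists_quartic_all (m : Fin 11 → ℂ) : ∃ D : Fin 5 → Fin 3 → ℂ,
    ∀ l : ℂ, qI (H160.dq D l) = ID m l 1 ∧ qJ (H160.dq D l) = JD m l 1 := by
  obtain ⟨D, hD⟩ := phi_surjective (psi (Sum.elim m ![1, 0, 0, 1]))
  refine ⟨fun i j => D (i, j), fun l => ?_⟩
  have h1 : H160.dq (fun i j => D (i, j)) l = dh D l 1 := by
    funext i
    simp only [H160.dq, dh]
    ring
  obtain ⟨h2, h3⟩ := forms_eq D m ![1, 0, 0, 1] (fun i => congrFun hD i) l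
  simp only [Matrix.cons_val_zero, Matrix.cons_val_one, Matrix.cons_val, one_mul, zero_mul,
    zero_add, add_zero] at h2 h3
  rw [h1]
  exact ⟨h2, h3⟩

end Vale.Agent.P297.H55
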