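import Mathlib

/-!
Dominant polynomial maps: the Jacobian criterion, the image of a dominant polynomial map contains
a nonempty open set, and a form with parameters.
-/

namespace Vale.Agent.P297.H55

open MvPolynomial

section Chain

variable {R : Type*} [CommRing R] {ι σ : Type*} [Fintype ι]

/-- The chain rule. -/
theorem pderiv_aeval (f : ι → MvPolynomial σ R) (P : MvPolynomial ι R) (j : σ) :
    pderiv j (aeval f P) = ∑ i, aeval f (pderiv i P) * pderiv j (f i) := by
  classical
  induction P using MvPolynomial.induction_on with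
  | C a => simp
  | add p q hp hq => simp only [map_add, hp, hq, add_mul, Finset.sum_add_distrib]
  | mul_X p i hp =>
    rw [map_mul, pderiv_mul, hp, aeval_X]
    simp only [pderiv_mul, pderiv_X, map_add, map_mul, aeval_X, add_mul, Finset.sum_add_distrib]
    congr 1
    · rw [Finset.sum_mul]
      exact Finset.sum_congr rfl fun k _ => by ring
    · rw [Finset.sum_eq_single i]
      · simp
      · intro k _ hk
        simp [hk]
      · simp

end Chain

section Deg

variable {K : Type*} [Field K] [CharZero K] {ι : Type*}

theorem eq_C_of_pderiv (P : MvPolynomial ι K) (h : ∀ i, pderiv i P = 0) :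
    P = C (coeff 0 P) := by
  classical
  ext m
  rw [coeff_C]
  split_ifs with hm
  · rw [hm]
  · obtain ⟨i, hi⟩ : ∃ i, m i ≠ 0 := by
      by_contra hcon
      push Not at hcon
      exact hm (Finsupp.ext fun i => (hcon i).symm)
    have h1 := congrArg (coeff (m - Finsupp.single i 1)) (h i)
    rw [coeff_pderiv, coeff_zero] at h1
    have h2 : m - Finsupp.single i 1 + Finsupp.single i 1 = m := by
      ext k
      by_cases hk : i = k
      · subst hk
        simp only [Finsupp.coe_add, Finsupp.coe_tsub, Pi.add_apply, Pi.sub_apply,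
          Finsupp.single_eq_same]
        omega
      · simp [hk]
    rw [h2] at h1
    rcases mul_eq_zero.1 h1 with h3 | h3
    · exact h3
    · exfalso
      exact Nat.cast_add_one_ne_zero _ h3

omit [CharZero K] in
theorem totalDegree_pderiv_le (P : MvPolynomial ι K) (i : ι) (n : ℕ)
    (h : P.totalDegree ≤ n + 1) : (pderiv i P).totalDegree ≤ n := by
  classical
  refine Finset.sup_le fun m hm => ?_
  rw [mem_support_iff, coeff_pderiv] at hm
  have h1 : coeff (m + Finsupp.single i 1) P ≠ 0 := fun h0 => hm (by rw [h0, zero_mul])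
  have h2 := le_totalDegree (mem_support_iff.2 h1)
  have h3 : (m + Finsupp.single i 1).sum (fun _ e => e) = m.sum (fun _ e => e) + 1 := by
    rw [Finsupp.sum_add_index' (fun _ => rfl) (fun _ _ _ => rfl)]
    simp
  omega

end Deg

section Lying

/-- Lying over, in the form of an equation. -/
theorem mem_of_integral {R S : Type*} [CommRing R] [CommRing S] [IsDomain S] [Algebra R S]
    (hinj : Function.Injective (algebraMap R S)) (P : Ideal R) [P.IsPrime] {ι : Type*}
    (t : Finset ι) (c : ι → S) (hc : ∀ i, IsIntegral R (c i)) (r : ι → R) (hr : ∀ i, r i ∈ P)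
    (s : R) (hs : algebraMap R S s = ∑ i ∈ t, c i * algebraMap R S (r i)) : s ∈ P := by
  have hker : RingHom.ker (algebraMap R (integralClosure R S)) ≤ P := by
    intro z hz
    rw [RingHom.mem_ker] at hz
    have h3 : algebraMap R S z = 0 := congrArg Subtype.val hz
    have h5 : z = 0 := hinj (by rw [h3, map_zero])
    rw [h5]
    exact Ideal.zero_mem _
  obtain ⟨Q, hQp, hQc⟩ := Ideal.exists_ideal_over_prime_of_isIntegral_of_isDomain
    (S := integralClosure R S) P hker
  have h5 : algebraMap R (integralClosure R S) s ∈ Q := by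
    have h6 : algebraMap R (integralClosure R S) s =
        ∑ i ∈ t, (⟨c i, hc i⟩ : integralClosure R S) *
          algebraMap R (integralClosure R S) (r i) := by
      apply Subtype.ext
      rw [AddSubmonoidClass.coe_finsetSum]
      exact hs
    rw [h6]
    refine Ideal.sum_mem _ fun i _ => Ideal.mul_mem_left _ _ ?_
    have h8 : r i ∈ P := hr i
    rw [← hQc] at h8
    exact h8
  rw [← hQc]
  exact h5

end Lying

section Main

variable {K : Type*} [Field K] [CharZero K] {ι σ : Type*} [Fintype ι] [DecidableEq ι]

/-- The Jacobian criterion. -/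
theorem algInd_of_jacobian (f : ι → MvPolynomial σ K) (e : ι → σ) (x : σ → K)
    (h : (Matrix.of fun i j => eval x (pderiv (e j) (f i))).det ≠ 0) :
    AlgebraicIndependent K f := by
  classical
  have hdet : (Matrix.of fun i j => pderiv (e j) (f i)).det ≠ 0 := by
    intro h0
    apply h
    have h1 := RingHom.map_det (eval x) (Matrix.of fun i j => pderiv (e j) (f i))
    rw [h0, map_zero] at h1
    rw [h1]
    congr 1
  have key : ∀ n : ℕ, ∀ P : MvPolynomial ι K, P.totalDegree ≤ n → aeval f P = 0 → P = 0 := by
    intro n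
    induction n with
    | zero =>
      intro P hP h0
      have h1 : P = C (coeff 0 P) := totalDegree_eq_zero_iff_eq_C.1 (Nat.le_zero.1 hP)
      rw [h1, algHom_C] at h0
      have h2 : coeff 0 P = 0 := by
        have h3 : (C (coeff 0 P) : MvPolynomial σ K) = C 0 := by rw [C_0]; exact h0
        exact C_injective _ _ h3
      rw [h1, h2, C_0]
    | succ n ih =>
      intro P hP h0
      have h1 : ∀ i, aeval f (pderiv i P) = 0 := by
        have h2 : (Matrix.of fun i j => pderiv (e j) (f i)).transpose.mulVec
            (fun i => aeval f (pderiv i P)) = 0 := by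
          ext1 j
          have h3 := pderiv_aeval f P (e j)
          rw [h0, map_zero] at h3
          simp only [Matrix.mulVec, dotProduct, Matrix.transpose_apply, Matrix.of_apply,
            Pi.zero_apply]
          rw [h3]
          exact Finset.sum_congr rfl fun k _ => mul_comm _ _
        have h4 := Matrix.eq_zero_of_mulVec_eq_zero (by rw [Matrix.det_transpose]; exact hdet) h2
        exact fun i => congrFun h4 i
      have h2 : ∀ i, pderiv i P = 0 := fun i => ih _ (totalDegree_pderiv_le P i n hP) (h1 i)
      have h3 := eq_C_of_pderiv P h2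
      rw [h3, algHom_C] at h0
      have h5 : coeff 0 P = 0 := by
        have h3 : (C (coeff 0 P) : MvPolynomial σ K) = C 0 := by rw [C_0]; exact h0
        exact C_injective _ _ h3
      rw [h3, h5, C_0]
  rw [algebraicIndependent_iff]
  exact fun P hP => key _ P le_rfl hP

omit [CharZero K] in
/-- A dominant polynomial map: the image contains a nonempty open set. -/
theorem exists_open_image_of_algInd [IsAlgClosed K] {F : ι → MvPolynomial ι K}
    (hF : AlgebraicIndependent K F) :
    ∃ P : MvPolynomial ι K, P ≠ 0 ∧
      ∀ y : ι → K, eval y P ≠ 0 → ∃ x : ι → K, ∀ i, eval x (F i) = y i := by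
  classical
  have htr : IsTranscendenceBasis K F := by
    refine hF.isTranscendenceBasis_of_lift_trdeg_le_of_finite ?_
    rw [MvPolynomial.trdeg_of_isDomain]
    simp
  set B := Algebra.adjoin K (Set.range F) with hB
  have halg : Algebra.IsAlgebraic B (MvPolynomial ι K) := htr.isAlgebraic
  have h1 : ∀ i : ι, ∃ b : B, b ≠ 0 ∧ IsIntegral B (b • (X i : MvPolynomial ι K)) := fun i =>
    (halg.isAlgebraic (X i)).exists_integral_multiple
  choose b hb0 hbi using h1
  set a : B := ∏ i, b i with ha
  have ha0 : a ≠ 0 := Finset.prod_ne_zero_iff.2 fun i _ => hb0 i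
  have hai : ∀ i, IsIntegral B (a • (X i : MvPolynomial ι K)) := by
    intro i
    have h2 : a = (∏ j ∈ Finset.univ.erase i, b j) * b i := by
      rw [ha, Finset.prod_erase_mul _ _ (Finset.mem_univ i)]
    rw [h2, mul_smul]
    exact (hbi i).smul _
  have hN : ∀ g : MvPolynomial ι K, ∃ N : ℕ, ∀ M, N ≤ M → IsIntegral B (a ^ M • g) := by
    intro g
    induction g using MvPolynomial.induction_on with
    | C c =>
      refine ⟨0, fun M _ => ?_⟩
      have h3 : (C c : MvPolynomial ι K) = algebraMap B _ (algebraMap K B c) := rfl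
      rw [h3]
      exact (isIntegral_algebraMap).smul _
    | add p q hp hq =>
      obtain ⟨N1, h1⟩ := hp
      obtain ⟨N2, h2⟩ := hq
      refine ⟨max N1 N2, fun M hM => ?_⟩
      rw [smul_add]
      exact (h1 M (le_trans (le_max_left _ _) hM)).add (h2 M (le_trans (le_max_right _ _) hM))
    | mul_X p i hp =>
      obtain ⟨N, h1⟩ := hp
      refine ⟨N + 1, fun M hM => ?_⟩
      obtain ⟨M', rfl⟩ : ∃ M', M = M' + 1 := ⟨M - 1, by omega⟩
      have h2 : a ^ (M' + 1) • (p * X i) = (a ^ M' • p) * (a • (X i : MvPolynomial ι K)) := by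
        rw [pow_succ, smul_mul_smul_comm]
      rw [h2]
      exact (h1 M' (by omega)).mul (hai i)
  obtain ⟨P, hP⟩ : ∃ P : MvPolynomial ι K, aeval F P = (a : MvPolynomial ι K) := by
    have h3 : B = (aeval F : MvPolynomial ι K →ₐ[K] MvPolynomial ι K).range :=
      Algebra.adjoin_range_eq_range_aeval K F
    have h2 : ((a : B) : MvPolynomial ι K) ∈
        (aeval F : MvPolynomial ι K →ₐ[K] MvPolynomial ι K).range := by
      rw [← h3]
      exact a.2
    exact h2
  refine ⟨P, ?_, ?_⟩
  · rintro rfl
    apply ha0
    rw [map_zero] at hP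
    exact Subtype.ext hP.symm
  · intro y hy
    by_contra hcon
    -- the evaluation at `y`
    set ε : B →ₐ[K] K := (aeval y).comp (hF.aevalEquiv.symm : B →ₐ[K] MvPolynomial ι K) with hε
    have hεF : ∀ Q : MvPolynomial ι K, ∀ hQ : aeval F Q ∈ B, ε ⟨aeval F Q, hQ⟩ = eval y Q := by
      intro Q hQ
      have h3 : (⟨aeval F Q, hQ⟩ : B) = hF.aevalEquiv Q := Subtype.ext (by simp)
      rw [h3, hε, AlgHom.comp_apply]
      simp [aeval_eq_eval]
    have hεa : ε a ≠ 0 := by
      have h3 : a = ⟨aeval F P, by rw [hP]; exact a.2⟩ := Subtype.ext hP.symm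
      rw [h3, hεF]
      exact hy
    -- the empty zero locus
    set I : Ideal (MvPolynomial ι K) := Ideal.span (Set.range fun i => F i - C (y i)) with hI
    have hz : zeroLocus K I = ∅ := by
      ext x
      simp only [mem_zeroLocus_iff, Set.mem_empty_iff_false, iff_false]
      intro hx
      apply hcon
      refine ⟨x, fun i => ?_⟩
      have h3 := hx (F i - C (y i)) (Ideal.subset_span ⟨i, rfl⟩)
      rw [map_sub, aeval_C, sub_eq_zero] at h3
      rw [← aeval_eq_eval]
      exact h3
    have h1 : (1 : MvPolynomial ι K) ∈ I := by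
      have h3 := vanishingIdeal_zeroLocus_eq_radical (K := K) (k := K) I
      rw [hz, vanishingIdeal_empty] at h3
      have h4 : (1 : MvPolynomial ι K) ∈ I.radical := by rw [← h3]; trivial
      obtain ⟨n, hn⟩ := h4
      simpa using hn
    rw [hI, Ideal.mem_span_range_iff_exists_fun] at h1
    obtain ⟨c, hc⟩ := h1
    choose N hNi using fun i => hN (c i)
    set M := Finset.univ.sup N with hM
    have hint : ∀ i, IsIntegral B (a ^ M • c i) := fun i =>
      hNi i M (Finset.le_sup (Finset.mem_univ i))
    -- lying over
    have : (RingHom.ker (ε : B →+* K)).IsPrime := RingHom.ker_isPrime _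
    have hmem : ∀ i, F i - C (y i) ∈ B := fun i =>
      B.sub_mem (Algebra.subset_adjoin ⟨i, rfl⟩) (B.algebraMap_mem (y i))
    have h7 : a ^ M ∈ RingHom.ker (ε : B →+* K) := by
      refine mem_of_integral (R := B) (S := MvPolynomial ι K) Subtype.val_injective _
        Finset.univ (fun i => a ^ M • c i) hint (fun i => ⟨F i - C (y i), hmem i⟩) ?_ _ ?_
      · intro i
        rw [RingHom.mem_ker]
        have h9 : aeval F (X i - C (y i) : MvPolynomial ι K) = F i - C (y i) := by
          rw [map_sub, aeval_X, aeval_C]
          rfl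
        have h10 := hεF (X i - C (y i)) (by rw [h9]; exact hmem i)
        have h11 : (⟨F i - C (y i), hmem i⟩ : B) =
            ⟨aeval F (X i - C (y i)), by rw [h9]; exact hmem i⟩ := Subtype.ext h9.symm
        rw [h11]
        change ε _ = 0
        rw [h10]
        simp
      · calc (algebraMap B (MvPolynomial ι K)) (a ^ M) = (a : MvPolynomial ι K) ^ M *
              ∑ i, c i * (F i - C (y i)) := by rw [hc, mul_one]; rfl
          _ = ∑ i, ((a : MvPolynomial ι K) ^ M * c i) * (F i - C (y i)) := by
              rw [Finset.mul_sum]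
              exact Finset.sum_congr rfl fun i _ => by ring
          _ = _ := rfl
    apply hεa
    have h8 : ε (a ^ M) = 0 := h7
    rw [map_pow] at h8
    exact eq_zero_of_pow_eq_zero h8

/-- A polynomial map with a nonzero minor of its Jacobian matrix at a point: the image contains
a nonempty open set. -/
theorem exists_open_image [IsAlgClosed K] [Fintype σ] (f : ι → MvPolynomial σ K) (e : ι → σ)
    (x : σ → K) (h : (Matrix.of fun i j => eval x (pderiv (e j) (f i))).det ≠ 0) :
    ∃ P : MvPolynomial ι K, P ≠ 0 ∧
      ∀ y : ι → K, eval y P ≠ 0 → ∃ x : σ → K, ∀ i, eval x (f i) = y i := by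
  classical
  have hinj : Function.Injective e := by
    intro j k hjk
    by_contra hne
    exact h (Matrix.det_zero_of_column_eq hne fun i => by simp only [Matrix.of_apply, hjk])
  -- the restriction to a coordinate subspace through `x`
  set s : σ → MvPolynomial ι K := fun k =>
    if hk : ∃ j, e j = k then X hk.choose else C (x k) with hs
  have hse : ∀ j, s (e j) = X j := by
    intro j
    have hk : ∃ j', e j' = e j := ⟨j, rfl⟩
    rw [hs]
    simp only [hk, dite_true]
    rw [hinj hk.choose_spec]
  have hsn : ∀ k, (¬ ∃ j, e j = k) → s k = C (x k) := by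
    intro k hk
    rw [hs]
    simp only [hk, dite_false]
  set F : ι → MvPolynomial ι K := fun i => aeval s (f i) with hF
  have hev : ∀ (y : ι → K) (p : MvPolynomial σ K),
      eval y (aeval s p) = eval (fun k => eval y (s k)) p := by
    intro y p
    have h1 : (eval y).comp (aeval s : MvPolynomial σ K →ₐ[K] MvPolynomial ι K).toRingHom =
        eval (fun k => eval y (s k)) := by
      apply MvPolynomial.ringHom_ext
      · intro r; simp
      · intro i; simp
    exact congrArg (fun φ => φ p) h1
  have hsx : (fun k => eval (fun j => x (e j)) (s k)) = x := by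
    funext k
    by_cases hk : ∃ j, e j = k
    · obtain ⟨j, rfl⟩ := hk
      rw [hse]
      simp
    · rw [hsn k hk]
      simp
  have hFind : AlgebraicIndependent K F := by
    refine algInd_of_jacobian F id (fun j => x (e j)) ?_
    have h1 : (Matrix.of fun i j => eval (fun j => x (e j)) (pderiv (id j) (F i))) =
        Matrix.of fun i j => eval x (pderiv (e j) (f i)) := by
      ext i j
      simp only [Matrix.of_apply, id, hF]
      rw [pderiv_aeval, map_sum, Finset.sum_eq_single (e j)]
      · rw [hse, pderiv_X_self, mul_one, hev, hsx]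
      · intro k _ hk
        by_cases hk' : ∃ j', e j' = k
        · obtain ⟨j', rfl⟩ := hk'
          have h2 : j' ≠ j := fun h3 => hk (by rw [h3])
          rw [hse, pderiv_X_of_ne h2, mul_zero, map_zero]
        · rw [hsn k hk', pderiv_C, mul_zero, map_zero]
      · intro h2
        exact absurd (Finset.mem_univ _) h2
    rw [h1]
    exact h
  obtain ⟨P, hP0, hP⟩ := exists_open_image_of_algInd hFind
  refine ⟨P, hP0, fun y hy => ?_⟩
  obtain ⟨z, hz⟩ := hP y hy
  refine ⟨fun k => eval z (s k), fun i => ?_⟩
  rw [← hev]
  exact hz i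

/-- The form with parameters: for a general value `m` of the parameters, some member of the
family `g (m, ·)` lies in the image of `f`. -/
theorem exists_param_open [IsAlgClosed K] [Fintype σ] {τ ρ : Type*}
    (f : ι → MvPolynomial σ K) (e : ι → σ) (x : σ → K)
    (h : (Matrix.of fun i j => eval x (pderiv (e j) (f i))).det ≠ 0)
    (g : ι → MvPolynomial (τ ⊕ ρ) K) (e' : ι → τ ⊕ ρ) (x' : τ ⊕ ρ → K)
    (h' : (Matrix.of fun i j => eval x' (pderiv (e' j) (g i))).det ≠ 0)
    (q : MvPolynomial ρ K) (hq : q ≠ 0) :
    ∃ c : ρ → K, eval c q ≠ 0 ∧ ∃ P : MvPolynomial τ K, P ≠ 0 ∧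
      ∀ m : τ → K, eval m P ≠ 0 → ∃ z : σ → K, ∀ i, eval z (f i) = eval (Sum.elim m c) (g i) := by
  classical
  obtain ⟨P, hP0, hP⟩ := exists_open_image f e x h
  have hg := algInd_of_jacobian g e' x' h'
  have h1 : aeval g P ≠ 0 := fun h0 => hP0 (algebraicIndependent_iff.1 hg P h0)
  have h2 : rename Sum.inr q ≠ (0 : MvPolynomial (τ ⊕ ρ) K) := by
    intro h0
    apply hq
    apply rename_injective _ (Sum.inr_injective (α := τ) (β := ρ))
    rw [h0, map_zero]
  have h3 : aeval g P * rename Sum.inr q ≠ 0 := mul_ne_zero h1 h2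
  obtain ⟨w, hw⟩ : ∃ w : τ ⊕ ρ → K, eval w (aeval g P * rename Sum.inr q) ≠ 0 := by
    by_contra hcon
    push Not at hcon
    exact h3 (MvPolynomial.funext fun w => by rw [hcon w, map_zero])
  rw [map_mul] at hw
  have hw1 := left_ne_zero_of_mul hw
  have hw2 := right_ne_zero_of_mul hw
  rw [eval_rename] at hw2
  refine ⟨w ∘ Sum.inr, hw2, aeval (Sum.elim X fun k => C (w (Sum.inr k))) (aeval g P), ?_, ?_⟩
  · intro h0
    apply hw1
    have h4 : eval (w ∘ Sum.inl) (aeval (Sum.elim X fun k => C (w (Sum.inr k)))
        (aeval g P) : MvPolynomial τ K) = eval w (aeval g P) := by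
      have h5 : (eval (w ∘ Sum.inl)).comp (aeval (Sum.elim X fun k => C (w (Sum.inr k))) :
          MvPolynomial (τ ⊕ ρ) K →ₐ[K] MvPolynomial τ K).toRingHom = eval w := by
        apply MvPolynomial.ringHom_ext
        · intro r; simp
        · rintro (i | i) <;> simp
      exact congrArg (fun φ => φ (aeval g P)) h5
    rw [← h4, h0, map_zero]
  · intro m hm
    have h4 : eval m (aeval (Sum.elim X fun k => C (w (Sum.inr k)))
        (aeval g P) : MvPolynomial τ K) =
        eval (fun i => eval (Sum.elim m (w ∘ Sum.inr)) (g i)) P := by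
      have h5 : ((eval m).comp (aeval (Sum.elim X fun k => C (w (Sum.inr k))) :
          MvPolynomial (τ ⊕ ρ) K →ₐ[K] MvPolynomial τ K).toRingHom).comp
          (aeval g : MvPolynomial ι K →ₐ[K] MvPolynomial (τ ⊕ ρ) K).toRingHom =
          eval (fun i => eval (Sum.elim m (w ∘ Sum.inr)) (g i)) := by
        apply MvPolynomial.ringHom_ext
        · intro r; simp
        · intro i
          have h6 : (eval m).comp (aeval (Sum.elim X fun k => C (w (Sum.inr k))) :
              MvPolynomial (τ ⊕ ρ) K →ₐ[K] MvPolynomial τ K).toRingHom =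
              eval (Sum.elim m (w ∘ Sum.inr)) := by
            apply MvPolynomial.ringHom_ext
            · intro r; simp
            · rintro (i | i) <;> simp
          rw [h6]
          simp
      exact congrArg (fun φ => φ P) h5
    rw [h4] at hm
    exact hP _ hm

end Main

end Vale.Agent.P297.H55
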