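import Vale.Agent.P297.H600.C8Main
import Vale.Agent.P297.H55.Iso.Fin
import Vale.Agent.P297.H55.Iso.Irr

/-!
Bloch's conjecture for all canonical models: the intersection of the four quadrics may have
isolated double points.
-/

set_option linter.unusedSectionVars false

open MvPolynomial

namespace Vale.Agent.P297.C8U

open Vale.Agent.P297 Vale.Agent.P297.H839 Vale.Agent.P297.H10 Vale.Agent.P297.H55.T8

/-- The Jacobian matrix. -/
noncomputable def jac (F : Fin 4 → MvPolynomial (Fin 7) ℂ) (z : Fin 7 → ℂ) :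
    Matrix (Fin 4) (Fin 7) ℂ :=
  Matrix.of fun i j => eval z (pderiv j (F i))

/-- The surface `F i = 0` has no point with `z 4 = z 5 = z 6 = 0` (no fixed points of the
involution), and only finitely many singular points, where the Jacobian matrix has rank three. -/
structure Canon (F : Fin 4 → MvPolynomial (Fin 7) ℂ) : Prop where
  free : ∀ z, z ≠ 0 → (∀ i, eval z (F i) = 0) → z 4 ≠ 0 ∨ z 5 ≠ 0 ∨ z 6 ≠ 0
  double : ∀ z, z ≠ 0 → (∀ i, eval z (F i) = 0) → 3 ≤ (jac F z).rank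
  fin : ∃ Z : Finset (Fin 7 → ℂ), ∀ z, z ≠ 0 → (∀ i, eval z (F i) = 0) → (jac F z).rank ≤ 3 →
    ∃ w ∈ Z, ∃ c : ℂ, z = c • w

/-- Every form which vanishes at `t` vanishes on the surface `F i = 0`: the surface is irreducible,
and `t` is a generic point. -/
def Gen (F : Fin 4 → MvPolynomial (Fin 7) ℂ) {E : Type} [Field E] [Algebra ℂ E]
    (t : Fin 7 → E) : Prop :=
  ∀ (n : ℕ) (P : MvPolynomial (Fin 7) ℂ), P.IsHomogeneous n → aeval t P = 0 →
    ∀ z : Fin 7 → ℂ, (∀ i, eval z (F i) = 0) → eval z P = 0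

section rank

open Matrix

variable {M : Matrix (Fin 4) (Fin 7) ℂ} {l l' : Fin 4 → ℂ}

theorem finrank_ker (M : Matrix (Fin 4) (Fin 7) ℂ) :
    M.rank + Module.finrank ℂ (LinearMap.ker Mᵀ.mulVecLin) = 4 := by
  rw [← Matrix.rank_transpose]
  have h := LinearMap.finrank_range_add_finrank_ker Mᵀ.mulVecLin
  rw [Module.finrank_fintype_fun_eq_card, Fintype.card_fin] at h
  exact h

theorem rank_le_three (hl : l ≠ 0) (h : ∀ j, ∑ i, l i * M i j = 0) : M.rank ≤ 3 := by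
  have h1 := finrank_ker M
  have h2 : 0 < Module.finrank ℂ (LinearMap.ker Mᵀ.mulVecLin) := by
    rw [Module.finrank_pos_iff_exists_ne_zero]
    refine ⟨⟨l, ?_⟩, fun h3 => hl (congrArg Subtype.val h3)⟩
    rw [LinearMap.mem_ker, Matrix.mulVecLin_apply]
    funext j
    rw [Matrix.mulVec, dotProduct, Pi.zero_apply, ← h j]
    exact Finset.sum_congr rfl fun i _ => mul_comm _ _
  omega

theorem exists_smul_of_rank (h3 : 3 ≤ M.rank) (hl : l ≠ 0) (h : ∀ j, ∑ i, l i * M i j = 0)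
    (h' : ∀ j, ∑ i, l' i * M i j = 0) : ∃ t : ℂ, l' = t • l := by
  have h1 := finrank_ker M
  have mem : ∀ {u : Fin 4 → ℂ}, (∀ j, ∑ i, u i * M i j = 0) →
      u ∈ LinearMap.ker Mᵀ.mulVecLin := by
    intro u hu
    rw [LinearMap.mem_ker, Matrix.mulVecLin_apply]
    funext j
    rw [Matrix.mulVec, dotProduct, Pi.zero_apply, ← hu j]
    exact Finset.sum_congr rfl fun i _ => mul_comm _ _
  have h2 : Module.finrank ℂ (LinearMap.ker Mᵀ.mulVecLin) ≤ 1 := by omega
  obtain ⟨w, hw⟩ := finrank_le_one_iff.1 h2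
  obtain ⟨a, ha⟩ := hw ⟨l, mem h⟩
  obtain ⟨b, hb⟩ := hw ⟨l', mem h'⟩
  have ha' : a • (w : Fin 4 → ℂ) = l := congrArg Subtype.val ha
  have hb' : b • (w : Fin 4 → ℂ) = l' := congrArg Subtype.val hb
  have a0 : a ≠ 0 := by
    intro h0
    rw [h0, zero_smul] at ha'
    exact hl ha'.symm
  refine ⟨b * a⁻¹, ?_⟩
  rw [← ha', smul_smul, inv_mul_cancel_right₀ a0, hb']

end rank

section web

variable {F : Fin 4 → MvPolynomial (Fin 7) ℂ} {Q : C8.Web}

theorem pt_ne_zero {o : Fin 4 → ℂ} {v : Fin 3 → ℂ} (hne : o ≠ 0 ∨ v ≠ 0) : pt o v ≠ 0 := by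
  intro h
  have h' : ∀ j, pt o v j = 0 := fun j => congrFun h j
  rcases hne with h2 | h2
  · apply h2
    funext j
    fin_cases j
    · exact h' 0
    · exact h' 1
    · exact h' 2
    · exact h' 3
  · apply h2
    funext j
    fin_cases j
    · exact h' 4
    · exact h' 5
    · exact h' 6

theorem pt_split (z : Fin 7 → ℂ) : pt ![z 0, z 1, z 2, z 3] ![z 4, z 5, z 6] = z := by
  funext j
  fin_cases j <;> rfl

theorem noBase_of (h0 : ∀ (o : Fin 4 → ℂ) (v : Fin 3 → ℂ) i,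
      aeval (pt o v) (F i) = C8.qq Q o i - C8.ee v i) (hs : Canon F) : C8.NoBase Q := by
  intro o ho
  by_contra hne
  have h1 : C8.ee (0 : Fin 3 → ℂ) = 0 := by
    funext i
    fin_cases i <;> simp [C8.ee, C8.eb]
  have h2 := hs.free (pt o 0) (pt_ne_zero (Or.inl hne)) (fun i => by
    have h3 := h0 o 0 i
    rw [ho, h1, sub_self] at h3
    exact h3)
  rcases h2 with h2 | h2 | h2 <;> exact h2 rfl

/-- The relation between the gradients. -/
theorem rel_iff (h1 : ∀ (o : Fin 4 → ℂ) (v : Fin 3 → ℂ) i,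
      (∀ j : Fin 4, eval (pt o v) (pderiv (Fin.castAdd 3 j) (F i)) =
        2 * C8.qb Q o (Pi.single j 1) i) ∧
      (∀ k : Fin 3, eval (pt o v) (pderiv (Fin.natAdd 4 k) (F i)) =
        -(2 * C8.eb v (Pi.single k 1) i))) (o : Fin 4 → ℂ) (v : Fin 3 → ℂ) (l : Fin 4 → ℂ) :
    (∀ j, ∑ i, l i * jac F (pt o v) i j = 0) ↔
      (∀ j : Fin 4, ∑ i, l i * C8.qb Q o (Pi.single j 1) i = 0) ∧
      ∀ k : Fin 3, ∑ i, l i * C8.eb v (Pi.single k 1) i = 0 := by
  have e1 : ∀ j : Fin 4, ∑ i, l i * jac F (pt o v) i (Fin.castAdd 3 j) =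
      2 * ∑ i, l i * C8.qb Q o (Pi.single j 1) i := by
    intro j
    rw [Finset.mul_sum]
    refine Finset.sum_congr rfl fun i _ => ?_
    rw [jac, Matrix.of_apply, (h1 o v i).1 j]
    ring
  have e2 : ∀ k : Fin 3, ∑ i, l i * jac F (pt o v) i (Fin.natAdd 4 k) =
      -2 * ∑ i, l i * C8.eb v (Pi.single k 1) i := by
    intro k
    rw [Finset.mul_sum]
    refine Finset.sum_congr rfl fun i _ => ?_
    rw [jac, Matrix.of_apply, (h1 o v i).2 k]
    ring
  constructor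
  · intro h
    constructor
    · intro j
      have h2 := h (Fin.castAdd 3 j)
      rw [e1] at h2
      exact (mul_eq_zero.1 h2).resolve_left two_ne_zero
    · intro k
      have h2 := h (Fin.natAdd 4 k)
      rw [e2] at h2
      exact (mul_eq_zero.1 h2).resolve_left (by norm_num)
  · rintro ⟨h2, h3⟩ j
    refine Fin.addCases (m := 4) (n := 3) (fun j => ?_) (fun k => ?_) j
    · rw [e1, h2, mul_zero]
    · rw [e2, h3, mul_zero]

theorem isoX_of (h0 : ∀ (o : Fin 4 → ℂ) (v : Fin 3 → ℂ) i,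
      aeval (pt o v) (F i) = C8.qq Q o i - C8.ee v i)
    (h1 : ∀ (o : Fin 4 → ℂ) (v : Fin 3 → ℂ) i,
      (∀ j : Fin 4, eval (pt o v) (pderiv (Fin.castAdd 3 j) (F i)) =
        2 * C8.qb Q o (Pi.single j 1) i) ∧
      (∀ k : Fin 3, eval (pt o v) (pderiv (Fin.natAdd 4 k) (F i)) =
        -(2 * C8.eb v (Pi.single k 1) i)))
    (hs : Canon F) : C8.IsoX Q := by
  classical
  obtain ⟨Z, hZ⟩ := hs.fin
  let L : (Fin 7 → ℂ) → (Fin 4 → ℂ) := fun w =>
    if h : ∃ l : Fin 4 → ℂ, l ≠ 0 ∧ ∀ j, ∑ i, l i * jac F w i j = 0 then h.choose else 0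
  refine ⟨Z.image fun w => (![w 0, w 1, w 2, w 3], ![w 4, w 5, w 6], L w), ?_⟩
  intro o v l hov hne hl hl1 hl2
  have hz := pt_ne_zero hne
  have hF : ∀ i, eval (pt o v) (F i) = 0 := fun i => by
    have h3 := h0 o v i
    rw [hov, sub_self] at h3
    exact h3
  have hrel := (rel_iff h1 o v l).2 ⟨fun j => hl1 _, fun k => hl2 _⟩
  obtain ⟨w, hw, c, hc⟩ := hZ _ hz hF (rank_le_three hl hrel)
  have c0 : c ≠ 0 := by
    intro h
    rw [h, zero_smul] at hc
    exact hz hc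
  have ho : o = c • ![w 0, w 1, w 2, w 3] := by
    funext j
    fin_cases j
    · exact congrFun hc 0
    · exact congrFun hc 1
    · exact congrFun hc 2
    · exact congrFun hc 3
  have hv : v = c • ![w 4, w 5, w 6] := by
    funext j
    fin_cases j
    · exact congrFun hc 4
    · exact congrFun hc 5
    · exact congrFun hc 6
  have ho' : ![w 0, w 1, w 2, w 3] = c⁻¹ • o := by
    rw [ho, inv_smul_smul₀ c0]
  have hv' : ![w 4, w 5, w 6] = c⁻¹ • v := by
    rw [hv, inv_smul_smul₀ c0]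
  have hw0 : w ≠ 0 := by
    intro h
    rw [h, smul_zero] at hc
    exact hz hc
  have hFw : ∀ i, eval w (F i) = 0 := by
    intro i
    have h3 := h0 ![w 0, w 1, w 2, w 3] ![w 4, w 5, w 6] i
    rw [pt_split, ho', hv', C8.qq_smul, C8.ee_smul, hov, sub_self] at h3
    exact h3
  have hrw : ∀ j, ∑ i, l i * jac F w i j = 0 := by
    rw [← pt_split w]
    rw [rel_iff h1, ho', hv']
    constructor
    · intro j
      rw [C8.qb_smul_left]
      have h3 : ∀ i, l i * (c⁻¹ • C8.qb Q o (Pi.single j 1)) i =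
          c⁻¹ * (l i * C8.qb Q o (Pi.single j 1) i) := by
        intro i
        rw [Pi.smul_apply, smul_eq_mul]
        ring
      rw [Finset.sum_congr rfl fun i _ => h3 i, ← Finset.mul_sum, hl1, mul_zero]
    · intro k
      have h3 : ∀ i, l i * C8.eb (c⁻¹ • v) (Pi.single k 1) i =
          c⁻¹ * (l i * C8.eb v (Pi.single k 1) i) := by
        intro i
        fin_cases i <;> simp [C8.eb] <;> ring
      rw [Finset.sum_congr rfl fun i _ => h3 i, ← Finset.mul_sum, hl2, mul_zero]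
  have hL : L w ≠ 0 ∧ ∀ j, ∑ i, L w i * jac F w i j = 0 := by
    have hex : ∃ l : Fin 4 → ℂ, l ≠ 0 ∧ ∀ j, ∑ i, l i * jac F w i j = 0 := ⟨l, hl, hrw⟩
    have h3 : L w = hex.choose := dif_pos hex
    rw [h3]
    exact hex.choose_spec
  obtain ⟨t, ht⟩ := exists_smul_of_rank (hs.double w hw0 hFw) hL.1 hL.2 hrw
  have t0 : t ≠ 0 := by
    intro h
    rw [h, zero_smul] at ht
    exact hl ht
  exact ⟨_, Finset.mem_image_of_mem _ hw, c, t, c0, t0, ho, hv, ht⟩

theorem irreducible_of {E : Type} [Field E] [Algebra ℂ E] {t : Fin 7 → E}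
    (hQ : ∀ i, (Q i).IsSymm)
    (h0 : ∀ (o : Fin 4 → ℂ) (v : Fin 3 → ℂ) i, aeval (pt o v) (F i) = C8.qq Q o i - C8.ee v i)
    (hfin : C8.NoBase Q) (hs : C8.IsoX Q)
    (hX : C8.IsX Q ![t 0, t 1, t 2, t 3] ![t 4, t 5, t 6]) (hg : Gen F t) :
    Irreducible (C8.octic Q) := by
  refine hs.irreducible_of_gen hQ hfin hX ?_
  intro n P hP hP0 o ho
  obtain ⟨v, hv⟩ := C8.exists_ee_all ho
  have h2 := hg n (rename (Fin.castAdd 3) P) hP.rename_isHomogeneous (by
    rw [aeval_rename]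
    have h3 : t ∘ Fin.castAdd 3 = ![t 0, t 1, t 2, t 3] := by
      funext j
      fin_cases j <;> rfl
    rw [h3]
    exact hP0) (pt o v) (fun i => by
      have h3 := h0 o v i
      rw [hv, sub_self] at h3
      exact h3)
  have h3 : pt o v ∘ Fin.castAdd 3 = o := by
    funext j
    fin_cases j <;> rfl
  rw [eval_rename, h3] at h2
  exact h2

end web

section main

variable {E : Type} [Field E] [Algebra ℂ E] {t : Fin 7 → E}
  {F : Fin 4 → MvPolynomial (Fin 7) ℂ}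

theorem acts8 {ε : ℂ} {G : E ≃ₐ[ℂ] E} (h1 : t 0 = 1)
    (hG : C8.ActZ ε ![t 0, t 1, t 2, t 3] ![t 4, t 5, t 6] G) :
    Acts t ![1, -1, Complex.I, -Complex.I, -ε, ε, ε] ![0, 1, 2, 3, 5, 4, 6] G := by
  intro j
  change G (t j) * t 0 = _
  rw [h1, mul_one]
  fin_cases j
  · change G (t 0) = algebraMap ℂ E 1 * t 0
    rw [h1, map_one, map_one, one_mul]
  · change _ = algebraMap ℂ E (-1) * t 1
    rw [map_neg, map_one, neg_one_mul]
    exact hG.a1
  · exact hG.a2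
  · change _ = algebraMap ℂ E (-Complex.I) * t 3
    rw [map_neg, neg_mul]
    exact hG.a3
  · change _ = algebraMap ℂ E (-ε) * t 5
    rw [map_neg, neg_mul]
    exact hG.a4
  · exact hG.a5
  · exact hG.a6

/-- **The group `ℤ/8`, all canonical models.** -/
theorem bloch8' {m : Fin 10 → ℂ} (hF : F8 m F) (hs : Canon F) (h : IsFF F t) (hg : Gen F t)
    {ε : ℂ} (hε : ε ^ 2 = -Complex.I) :
    ∃ G : E ≃ₐ[ℂ] E,
      Acts t ![1, -1, Complex.I, -Complex.I, -ε, ε, ε] ![0, 1, 2, 3, 5, 4, 6] G ∧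
      BlochSub (Subgroup.zpowers G) := by
  rw [hF.eq] at hs h hg
  have hX := isX_of (aeval_P8 m) h
  have hfin := noBase_of (aeval_P8 m) hs
  have hiso := isoX_of (aeval_P8 m) (grad_P8 m) hs
  have hirr := irreducible_of (zweb_symm m) (aeval_P8 m) hfin hiso hX hg
  obtain ⟨G, hG, hB⟩ := H55.Nd.bloch_Z8_canonical hfin hirr hiso hX hε
  exact ⟨G, acts8 h.one hG, hB⟩

theorem actsQ {a : ℂ} {x y z : Fin 3 → ℂ} (hirr : Irreducible (C8.octic (H10.webQ a x y z)))
    (hX : C8.IsX (H10.webQ a x y z) ![t 0, t 1, t 2, t 3] ![t 4, t 5, t 6]) (h0 : t 0 = 1)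
    {G₁ G₂ : E ≃ₐ[ℂ] E} (hG : ActX ![t 0, t 1, t 2, t 3] ![t 4, t 5, t 6] G₁ G₂) :
    Acts t ![1, -1, 1, -1, -Complex.I, Complex.I, Complex.I] ![0, 1, 2, 3, 4, 5, 6] G₁ ∧
      Acts t ![1, -1, 1, -1, -1, 1, -1] ![1, 0, 3, 2, 4, 5, 6] G₂ := by
  have h1 : ∀ G : E ≃ₐ[ℂ] E, G (t 0) = 1 := fun G => by rw [h0, map_one]
  have hFF := hX.isFF hirr
  have hgen : C8.GenW (H10.webQ a x y z) (C8.cx ![t 0, t 1, t 2, t 3]) :=
    C8.GenW.of_phi hFF (AlgHom.id ℂ (C8.K1 ![t 0, t 1, t 2, t 3]))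
  have t1 : t 1 ≠ 0 := fun h0 => H10.coord_ne hirr hgen 1 (Subtype.ext h0)
  have m1 : ∀ s : E, algebraMap ℂ E (-1) * s = -s := fun s => by
    rw [map_neg, map_one, neg_one_mul]
  have m2 : ∀ s : E, algebraMap ℂ E 1 * s = s := fun s => by rw [map_one, one_mul]
  refine ⟨?_, ?_⟩
  · intro j
    change G₁ (t j) * t 0 = _
    rw [h0, mul_one]
    fin_cases j
    · change G₁ (t 0) = algebraMap ℂ E 1 * t 0
      rw [h1, m2, h0]
    · change _ = algebraMap ℂ E (-1) * t 1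
      rw [m1]
      exact hG.a1
    · change _ = algebraMap ℂ E 1 * t 2
      rw [m2]
      exact hG.a2
    · change _ = algebraMap ℂ E (-1) * t 3
      rw [m1]
      exact hG.a3
    · change _ = algebraMap ℂ E (-Complex.I) * t 4
      rw [map_neg, neg_mul]
      exact hG.a4
    · exact hG.a5
    · exact hG.a6
  · have b1 : G₂ (t 1) = -(t 1)⁻¹ := hG.b1
    have b2 : G₂ (t 2) = t 3 / t 1 := hG.b2
    have b3 : G₂ (t 3) = -(t 2 / t 1) := hG.b3
    have b4 : G₂ (t 4) = -(t 4 / t 1) := hG.b4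
    have b5 : G₂ (t 5) = t 5 / t 1 := hG.b5
    have b6 : G₂ (t 6) = -(t 6 / t 1) := hG.b6
    intro j
    change G₂ (t j) * t 1 = _
    fin_cases j
    · change G₂ (t 0) * t 1 = algebraMap ℂ E 1 * t 1
      rw [h1, m2, one_mul]
    · change G₂ (t 1) * t 1 = algebraMap ℂ E (-1) * t 0
      rw [b1, h0, m1]
      field_simp
    · change G₂ (t 2) * t 1 = algebraMap ℂ E 1 * t 3
      rw [b2, m2]
      field_simp
    · change G₂ (t 3) * t 1 = algebraMap ℂ E (-1) * t 2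
      rw [b3, m1]
      field_simp
    · change G₂ (t 4) * t 1 = algebraMap ℂ E (-1) * t 4
      rw [b4, m1]
      field_simp
    · change G₂ (t 5) * t 1 = algebraMap ℂ E 1 * t 5
      rw [b5, m2]
      field_simp
    · change G₂ (t 6) * t 1 = algebraMap ℂ E (-1) * t 6
      rw [b6, m1]
      field_simp

/-- **The group `Q₈`, all canonical models.** -/
theorem blochQ' {a : ℂ} {x y z : Fin 3 → ℂ} (hF : FQ a x y z F) (hs : Canon F)
    (h : IsFF F t) (hg : Gen F t) :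
    ∃ G₁ G₂ : E ≃ₐ[ℂ] E,
      Acts t ![1, -1, 1, -1, -Complex.I, Complex.I, Complex.I] ![0, 1, 2, 3, 4, 5, 6] G₁ ∧
      Acts t ![1, -1, 1, -1, -1, 1, -1] ![1, 0, 3, 2, 4, 5, 6] G₂ ∧
      BlochSub (Subgroup.closure {G₁, G₂}) := by
  rw [hF.eq] at hs h hg
  have hX := isX_of (aeval_PQ a x y z) h
  have hfin := noBase_of (aeval_PQ a x y z) hs
  have hiso := isoX_of (aeval_PQ a x y z) (grad_PQ a x y z) hs
  have hirr := irreducible_of (H10.webQ_symm a x y z) (aeval_PQ a x y z) hfin hiso hX hg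
  obtain ⟨G₁, G₂, hG, hB⟩ := H55.Nd.bloch_Q8_canonical hfin hirr hiso hX
  obtain ⟨a1, a2⟩ := actsQ hirr hX h.one hG
  exact ⟨G₁, G₂, a1, a2, hB⟩

end main

end Vale.Agent.P297.C8U
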