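import Vale.Agent.P297.H55.Dom

/-!
A certificate for a nonzero minor of the Jacobian matrix: only integer values of the map.
-/

namespace Vale.Agent.P297.H55

open MvPolynomial

/-- The Taylor expansion in one variable direction. -/
theorem eval_add_single {σ : Type*} [DecidableEq σ] (f : MvPolynomial σ ℤ) (x : σ → ℤ) (j : σ)
    (p : ℤ) : ∃ r : ℤ, eval (x + Pi.single j p) f =
      eval x f + p * eval x (pderiv j f) + p ^ 2 * r := by
  induction f using MvPolynomial.induction_on with
  | C a => exact ⟨0, by simp⟩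
  | add f g hf hg =>
    obtain ⟨r, hr⟩ := hf
    obtain ⟨s, hs⟩ := hg
    exact ⟨r + s, by simp only [map_add, hr, hs]; ring⟩
  | mul_X f i hf =>
    obtain ⟨r, hr⟩ := hf
    by_cases h : i = j
    · subst h
      refine ⟨r * x i + eval x (pderiv i f) + p * r, ?_⟩
      simp only [map_mul, map_add, hr, eval_X, pderiv_mul, pderiv_X_self, Pi.add_apply,
        Pi.single_eq_same, mul_one]
      ring
    · refine ⟨r * x i, ?_⟩
      simp only [map_mul, map_add, hr, eval_X, pderiv_mul, pderiv_X_of_ne h, Pi.add_apply,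
        Pi.single_eq_of_ne h, mul_zero, add_zero]
      ring

/-- The certificate: `N` is the inverse modulo `p` of the Jacobian matrix. -/
theorem det_ne_zero_of_cert {ι σ : Type*} [Fintype ι] [DecidableEq ι] [DecidableEq σ]
    (f : ι → MvPolynomial σ ℤ) (e : ι → σ) (x : σ → ℤ) (p : ℕ) [hp : Fact p.Prime]
    (N : ι → ι → ℤ)
    (h : ∀ i j, (p : ℤ) ^ 2 ∣ (∑ k, (eval (x + Pi.single (e k) (p : ℤ)) (f i) - eval x (f i)) *
      N k j) - if i = j then (p : ℤ) else 0) :
    (Matrix.of fun i j => eval (fun k => (x k : ℂ))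
      (pderiv (e j) (map (Int.castRingHom ℂ) (f i)))).det ≠ 0 := by
  classical
  set A : Matrix ι ι ℤ := Matrix.of fun i j => eval x (pderiv (e j) (f i)) with hA
  have hp0 : (p : ℤ) ≠ 0 := by
    have := hp.out.ne_zero
    exact_mod_cast this
  have h1 : ∀ i j, (p : ℤ) ∣ (∑ k, A i k * N k j) - if i = j then 1 else 0 := by
    intro i j
    choose r hr using fun k => eval_add_single (f i) x (e k) (p : ℤ)
    have h2 : (∑ k, (eval (x + Pi.single (e k) (p : ℤ)) (f i) - eval x (f i)) * N k j) -
        (if i = j then (p : ℤ) else 0) = (p : ℤ) * ((∑ k, A i k * N k j) -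
          if i = j then 1 else 0) + (p : ℤ) ^ 2 * ∑ k, r k * N k j := by
      have h3 : ∀ k, (eval (x + Pi.single (e k) (p : ℤ)) (f i) - eval x (f i)) * N k j =
          p * (A i k * N k j) + p ^ 2 * (r k * N k j) := by
        intro k
        rw [hr k, hA]
        simp only [Matrix.of_apply]
        ring
      rw [Finset.sum_congr rfl fun k _ => h3 k, Finset.sum_add_distrib, ← Finset.mul_sum,
        ← Finset.mul_sum]
      split_ifs <;> ring
    have h4 := h i j
    rw [h2] at h4
    have h5 : (p : ℤ) ^ 2 ∣ (p : ℤ) * ((∑ k, A i k * N k j) - if i = j then 1 else 0) :=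
      (dvd_add_left (dvd_mul_right _ _)).1 h4
    rw [pow_two] at h5
    exact (mul_dvd_mul_iff_left hp0).1 h5
  have h2 : (A.map (Int.castRingHom (ZMod p))) * ((Matrix.of N).map (Int.castRingHom (ZMod p))) =
      1 := by
    ext i j
    have h3 := (ZMod.intCast_zmod_eq_zero_iff_dvd _ p).2 (h1 i j)
    rw [Int.cast_sub, sub_eq_zero] at h3
    rw [Matrix.mul_apply, Matrix.one_apply]
    simp only [Matrix.map_apply, Matrix.of_apply, Int.coe_castRingHom]
    push_cast at h3
    rw [h3]
  have h3 : A.det ≠ 0 := by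
    intro h0
    have h4 := congrArg Matrix.det h2
    rw [Matrix.det_mul, Matrix.det_one] at h4
    have h5 : (A.map (Int.castRingHom (ZMod p))).det = 0 := by
      have h6 := RingHom.map_det (Int.castRingHom (ZMod p)) A
      rw [h0, map_zero] at h6
      rw [h6]
      rfl
    rw [h5, zero_mul] at h4
    exact zero_ne_one h4
  have h4 : (Matrix.of fun i j => eval (fun k => (x k : ℂ))
      (pderiv (e j) (map (Int.castRingHom ℂ) (f i)))) = A.map (Int.castRingHom ℂ) := by
    ext i j
    simp only [Matrix.of_apply, Matrix.map_apply, hA]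
    rw [pderiv_map, eval_map]
    have h5 : eval₂ (Int.castRingHom ℂ) (fun k => (x k : ℂ)) (pderiv (e j) (f i)) =
        Int.castRingHom ℂ (eval x (pderiv (e j) (f i))) := by
      rw [← eval₂_id, MvPolynomial.hom_eval₂]
      rfl
    exact h5
  rw [h4]
  have h5 := RingHom.map_det (Int.castRingHom ℂ) A
  have h6 : (A.map (Int.castRingHom ℂ)).det = ((A.det : ℤ) : ℂ) := h5.symm
  rw [h6]
  exact_mod_cast h3

end Vale.Agent.P297.H55
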