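import Vale.Agent.P297.H55.Quart
import Vale.Agent.P297.H424.G4.TSide
import Vale.Agent.P297.H600.JRel
import Vale.Agent.P297.H600.BigOf
import Vale.Agent.P297.H160.FourK

/-!
The general numerical Godeaux surface with torsion `ℤ/4`: assembly.
-/

set_option linter.unusedSectionVars false

open IntermediateField Polynomial CategoryTheory AlgebraicGeometry

namespace Vale.Agent.P297.H55

open Vale.Agent.P297 Vale.Agent.P297.Gen Vale.Agent.P297.H839 Vale.Agent.P297.H600
open Vale.Agent.P297.H729 Vale.Agent.P297.G4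

/-- **[TS]** -/
theorem tside {K N : Type} [Field K] [Algebra ℂ K] [Field N] [Algebra ℂ N] [CharZero N]
    [IsAlgClosed N] {m : Fin 11 → ℂ} {D : Fin 5 → Fin 3 → ℂ}
    (hD : ∀ l : ℂ, qI (H160.dq D l) = ID m l 1 ∧ qJ (H160.dq D l) = JD m l 1)
    (hj : ∀ α β : ℂ, (α ≠ 0 ∨ β ≠ 0) →
      C α * qI (H160.dq (fun i j => (C (D i j) : ℂ[X])) X) ^ 3 ≠
        C β * qJ (H160.dq (fun i j => (C (D i j) : ℂ[X])) X) ^ 2)
    (h4 : Algebra.trdeg ℂ N = 4) (B : N → N → N → ((K →ₐ[ℂ] N) →₀ ℤ))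
    (hB : ∀ (g : N ≃ₐ[ℂ] N) (e X Y : N), act g.toAlgHom (B e X Y) = B (g e) (g X) (g Y))
    {s X Y : N} (hg : Gen m s X Y) :
    (8 : ℤ) • (B s X Y - B s⁻¹ X Y) ∈ stableRelations K N := by
  classical
  exact tside_aux hD hj h4 B hB (fun s ε T P hP => T.jac_rel hD hj hP) hg

/-- the transcendence basis of the big field -/
theorem big_basis {K : Type} [Field K] [Algebra ℂ K] {u w : K}
    (hind : AlgebraicIndependent ℂ ![u, w])
    (halg : ∀ z : K, IsAlgebraic (IntermediateField.adjoin ℂ {u, w}) z) :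
    IsTranscendenceBasis ℂ (![algebraMap K (BigField K 2) u, algebraMap K (BigField K 2) w,
      bigVar K 2 0, bigVar K 2 1]) := by
  have h1 := (basis_pair hind halg).sumElim_comp (bigVar_basis K 2)
  let e : Fin 4 ≃ Fin 2 ⊕ Fin 2 := (finSumFinEquiv (m := 2) (n := 2)).symm.trans (Equiv.sumComm _ _)
  have h2 := (isTranscendenceBasis_equiv e).2 h1
  have h3 : (Sum.elim (bigVar K 2) (algebraMap K (BigField K 2) ∘ ![u, w])) ∘ e =
      ![algebraMap K (BigField K 2) u, algebraMap K (BigField K 2) w,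
      bigVar K 2 0, bigVar K 2 1] := by
    funext i
    fin_cases i <;> rfl
  rw [h3] at h2
  exact h2

/-- The torsion form: thirty-two times the difference of two points is rationally equivalent to
zero. -/
theorem four_torsion {m : Fin 11 → ℂ} (m0 : m 0 ≠ 0) (m1 : m 1 ≠ 0) (m7 : m 7 ≠ 0) (m9 : m 9 ≠ 0)
    {D : Fin 5 → Fin 3 → ℂ}
    (hD : ∀ l : ℂ, qI (H160.dq D l) = ID m l 1 ∧ qJ (H160.dq D l) = JD m l 1)
    (hj : ∀ α β : ℂ, (α ≠ 0 ∨ β ≠ 0) →
      C α * qI (H160.dq (fun i j => (C (D i j) : ℂ[X])) X) ^ 3 ≠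
        C β * qJ (H160.dq (fun i j => (C (D i j) : ℂ[X])) X) ^ 2)
    {K : Type} [Field K] [Algebra ℂ K] {u w p q : K}
    (hs : OnSurf (fun i => algebraMap ℂ K (m i)) u w p q) (hind : AlgebraicIndependent ℂ ![u, w])
    (htop : IntermediateField.adjoin ℂ {u, w, p, q} = ⊤)
    {S : Scheme.{0}} [IsIntegral S] (f : S ⟶ Spec (.of ℂ)) [IsProper f]
    (hS : IsFunctionFieldOf f K) (x y : ClosedPt S) :
    (32 : ℤ) • (Finsupp.single x (1 : ℤ) - Finsupp.single y 1) ∈ Rat f := by
  have h4 : Module.finrank (IntermediateField.adjoin ℂ ({u, w} : Set K)) K = 4 :=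
    H160.finrank_four m m0 hind htop hs
  haveI : FiniteDimensional (IntermediateField.adjoin ℂ ({u, w} : Set K)) K :=
    Module.finite_of_finrank_pos (by rw [h4]; norm_num)
  have hb := big_basis hind (fun z => Algebra.IsAlgebraic.isAlgebraic z)
  haveI : CharZero (BigField K 2) := charZero_of_injective_algebraMap
    (algebraMap ℂ (BigField K 2)).injective
  have htr : Algebra.trdeg ℂ (BigField K 2) = 4 := by
    rw [← hb.cardinalMk_eq_trdeg]
    simp
  have h1 := H160.kside (N := BigField K 2) m m0 m1 m7 m9 hs hind htop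
    (IsScalarTower.toAlgHom ℂ K (BigField K 2)) (bigVar K 2 0) (bigVar K 2 1) hb.1
    hb.isAlgebraic_field (fun s X Y hg => tside hD hj htr
      (fun e X Y => G4.Bs u w p q m e X Y) (fun g e X Y => act_Bs g u w p q m e X Y) hg)
  exact criterion_big _ 32 h1 f hS x y

end Vale.Agent.P297.H55
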