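import Vale.Agent.P297.H55.Maps

/-!
Pencils of quartics (of degree two in the parameter) all of whose members have a triple root: the
triple root is constant.
-/

namespace Vale.Agent.P297.H55

open Vale.Agent.P297.G4

/-- A linear change of the coefficients of a quartic that preserves the invariants. -/
structure Op where
  /-- the linear map -/
  map : (Fin 5 → ℂ) →ₗ[ℂ] (Fin 5 → ℂ)
  inj : ∀ c, map c = 0 → c = 0
  hI : ∀ c, qI (map c) = qI c
  hJ : ∀ c, qJ (map c) = qJ c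

/-- the composition -/
def Op.comp (A B : Op) : Op where
  map := A.map.comp B.map
  inj c h := B.inj c (A.inj _ h)
  hI c := by rw [LinearMap.comp_apply, A.hI, B.hI]
  hJ c := by rw [LinearMap.comp_apply, A.hJ, B.hJ]

/-- `X ↦ X + r` -/
def opT (r : ℂ) : Op where
  map :=
    { toFun := fun c => ![c 0 + c 1 * r + c 2 * r ^ 2 + c 3 * r ^ 3 + c 4 * r ^ 4,
        c 1 + 2 * c 2 * r + 3 * c 3 * r ^ 2 + 4 * c 4 * r ^ 3,
        c 2 + 3 * c 3 * r + 6 * c 4 * r ^ 2, c 3 + 4 * c 4 * r, c 4]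
      map_add' := by
        intro c d
        funext i
        fin_cases i <;> simp <;> ring
      map_smul' := by
        intro z c
        funext i
        fin_cases i <;> simp <;> ring }
  inj := by
    intro c h
    have h0 := congrFun h 0
    have h1 := congrFun h 1
    have h2 := congrFun h 2
    have h3 := congrFun h 3
    have h4 := congrFun h 4
    simp at h0 h1 h2 h3 h4
    rw [h4] at h0 h1 h2 h3
    simp at h0 h1 h2 h3
    rw [h3] at h0 h1 h2
    simp at h0 h1 h2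
    rw [h2] at h0 h1
    simp at h0 h1
    rw [h1] at h0
    simp at h0
    funext i
    fin_cases i <;> simp [h0, h1, h2, h3, h4]
  hI := by
    intro c
    change 12 * (c 4 * (c 0 + c 1 * r + c 2 * r ^ 2 + c 3 * r ^ 3 + c 4 * r ^ 4)) -
      3 * ((c 3 + 4 * c 4 * r) * (c 1 + 2 * c 2 * r + 3 * c 3 * r ^ 2 + 4 * c 4 * r ^ 3)) +
      (c 2 + 3 * c 3 * r + 6 * c 4 * r ^ 2) ^ 2 = _
    unfold qI
    ring
  hJ := by
    intro c
    change 72 * (c 4 * (c 2 + 3 * c 3 * r + 6 * c 4 * r ^ 2) *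
        (c 0 + c 1 * r + c 2 * r ^ 2 + c 3 * r ^ 3 + c 4 * r ^ 4)) +
      9 * ((c 3 + 4 * c 4 * r) * (c 2 + 3 * c 3 * r + 6 * c 4 * r ^ 2) *
        (c 1 + 2 * c 2 * r + 3 * c 3 * r ^ 2 + 4 * c 4 * r ^ 3)) -
      27 * (c 4 * (c 1 + 2 * c 2 * r + 3 * c 3 * r ^ 2 + 4 * c 4 * r ^ 3) ^ 2) -
      27 * ((c 3 + 4 * c 4 * r) ^ 2 *
        (c 0 + c 1 * r + c 2 * r ^ 2 + c 3 * r ^ 3 + c 4 * r ^ 4)) -
      2 * (c 2 + 3 * c 3 * r + 6 * c 4 * r ^ 2) ^ 3 = _
    unfold qJ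
    ring

/-- the reversal -/
def opR : Op where
  map :=
    { toFun := fun c => ![c 4, c 3, c 2, c 1, c 0]
      map_add' := by
        intro c d
        funext i
        fin_cases i <;> simp
      map_smul' := by
        intro z c
        funext i
        fin_cases i <;> simp }
  inj := by
    intro c h
    have h0 := congrFun h 0
    have h1 := congrFun h 1
    have h2 := congrFun h 2
    have h3 := congrFun h 3
    have h4 := congrFun h 4
    simp at h0 h1 h2 h3 h4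
    funext i
    fin_cases i <;> simp [h0, h1, h2, h3, h4]
  hI := by
    intro c
    change 12 * (c 0 * c 4) - 3 * (c 1 * c 3) + c 2 ^ 2 = _
    unfold qI
    ring
  hJ := by
    intro c
    change 72 * (c 0 * c 2 * c 4) + 9 * (c 1 * c 2 * c 3) - 27 * (c 0 * c 3 ^ 2) -
      27 * (c 1 ^ 2 * c 4) - 2 * c 2 ^ 3 = _
    unfold qJ
    ring

/-- the torus -/
noncomputable def opS (t : ℂ) (ht : t ≠ 0) : Op where
  map :=
    { toFun := fun c => ![t ^ 4 * c 0, t ^ 2 * c 1, c 2, (t ^ 2)⁻¹ * c 3, (t ^ 4)⁻¹ * c 4]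
      map_add' := by
        intro c d
        funext i
        fin_cases i <;> simp <;> ring
      map_smul' := by
        intro z c
        funext i
        fin_cases i <;> simp <;> ring }
  inj := by
    intro c h
    have h0 := congrFun h 0
    have h1 := congrFun h 1
    have h2 := congrFun h 2
    have h3 := congrFun h 3
    have h4 := congrFun h 4
    simp [ht] at h0 h1 h2 h3 h4
    funext i
    fin_cases i <;> simp [h0, h1, h2, h3, h4]
  hI := by
    intro c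
    change 12 * ((t ^ 4)⁻¹ * c 4 * (t ^ 4 * c 0)) - 3 * ((t ^ 2)⁻¹ * c 3 * (t ^ 2 * c 1)) +
      c 2 ^ 2 = _
    unfold qI
    field_simp
  hJ := by
    intro c
    change 72 * ((t ^ 4)⁻¹ * c 4 * c 2 * (t ^ 4 * c 0)) +
      9 * ((t ^ 2)⁻¹ * c 3 * c 2 * (t ^ 2 * c 1)) - 27 * ((t ^ 4)⁻¹ * c 4 * (t ^ 2 * c 1) ^ 2) -
      27 * (((t ^ 2)⁻¹ * c 3) ^ 2 * (t ^ 4 * c 0)) - 2 * c 2 ^ 3 = _
    unfold qJ
    field_simp

/-- A quartic with vanishing invariants has a triple root, which can be moved to `0`. -/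
theorem exists_op (c : Fin 5 → ℂ) (hI : qI c = 0) (hJ : qJ c = 0) :
    ∃ A : Op, A.map c 0 = 0 ∧ A.map c 1 = 0 ∧ A.map c 2 = 0 := by
  by_cases h4 : c 4 = 0
  · by_cases h3 : c 3 = 0
    · refine ⟨opR, h4, h3, ?_⟩
      change c 2 = 0
      unfold qI at hI
      rw [h4, h3] at hI
      have h1 : c 2 ^ 2 = 0 := by linear_combination hI
      exact pow_eq_zero_iff (two_ne_zero) |>.1 h1
    · unfold qI at hI
      unfold qJ at hJ
      rw [h4] at hI hJ
      have e1 : c 1 = c 2 ^ 2 / (3 * c 3) := by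
        field_simp
        linear_combination (-1 : ℂ) * hI
      have e0 : c 0 = c 2 ^ 3 / (27 * c 3 ^ 2) := by
        rw [eq_div_iff (mul_ne_zero (by norm_num) (pow_ne_zero 2 h3))]
        linear_combination (-1 : ℂ) * hJ - 3 * c 2 * hI
      refine ⟨opT (-c 2 / (3 * c 3)), ?_, ?_, ?_⟩
      · change c 0 + c 1 * (-c 2 / (3 * c 3)) + c 2 * (-c 2 / (3 * c 3)) ^ 2 +
          c 3 * (-c 2 / (3 * c 3)) ^ 3 + c 4 * (-c 2 / (3 * c 3)) ^ 4 = 0
        rw [h4, e0, e1]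
        field_simp
        ring
      · change c 1 + 2 * c 2 * (-c 2 / (3 * c 3)) + 3 * c 3 * (-c 2 / (3 * c 3)) ^ 2 +
          4 * c 4 * (-c 2 / (3 * c 3)) ^ 3 = 0
        rw [h4, e1]
        field_simp
        ring
      · change c 2 + 3 * c 3 * (-c 2 / (3 * c 3)) + 6 * c 4 * (-c 2 / (3 * c 3)) ^ 2 = 0
        rw [h4]
        field_simp
        ring
  · -- the depressed quartic
    obtain ⟨d, hd⟩ : ∃ d, d = (opT (-c 3 / (4 * c 4))).map c := ⟨_, rfl⟩
    have d3 : d 3 = 0 := by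
      rw [hd]
      change c 3 + 4 * c 4 * (-c 3 / (4 * c 4)) = 0
      field_simp
      ring
    have d4 : d 4 ≠ 0 := by
      rw [hd]
      exact h4
    have hI' : qI d = 0 := by rw [hd, (opT _).hI, hI]
    have hJ' : qJ d = 0 := by rw [hd, (opT _).hJ, hJ]
    unfold qI at hI'
    unfold qJ at hJ'
    rw [d3] at hI' hJ'
    have k1 : 12 * d 4 * d 0 = -d 2 ^ 2 := by linear_combination hI'
    have k2 : 27 * d 4 * d 1 ^ 2 = -8 * d 2 ^ 3 := by
      linear_combination (-1 : ℂ) * hJ' + 6 * d 2 * k1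
    obtain ⟨ρ, r2, r1, r0⟩ : ∃ ρ : ℂ, d 2 = -6 * d 4 * ρ ^ 2 ∧ d 1 = 8 * d 4 * ρ ^ 3 ∧
        d 0 = -3 * d 4 * ρ ^ 4 := by
      by_cases h2 : d 2 = 0
      · refine ⟨0, by rw [h2]; ring, ?_, ?_⟩
        · rw [h2] at k2
          have k3 : d 4 * d 1 ^ 2 = 0 := by linear_combination (1 / 27 : ℂ) * k2
          rcases mul_eq_zero.1 k3 with h | h
          · exact absurd h d4
          · rw [pow_eq_zero_iff (two_ne_zero)] at h
            rw [h]
            ring
        · rw [h2] at k1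
          have k3 : d 4 * d 0 = 0 := by linear_combination (1 / 12 : ℂ) * k1
          rcases mul_eq_zero.1 k3 with h | h
          · exact absurd h d4
          · rw [h]
            ring
      · have m1 : d 2 * (-3 * d 1 / (4 * d 2)) = -3 * d 1 / 4 := by
          field_simp
        obtain ⟨ρ, hρ⟩ : ∃ ρ, ρ = -3 * d 1 / (4 * d 2) := ⟨_, rfl⟩
        rw [← hρ] at m1
        have n2 : d 2 = -6 * d 4 * ρ ^ 2 := by
          have h5 : d 2 ^ 2 * (d 2 + 6 * d 4 * ρ ^ 2) = 0 := by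
            linear_combination (6 * d 4 * (d 2 * ρ - 3 * d 1 / 4)) * m1 + (1 / 8 : ℂ) * k2
          rcases mul_eq_zero.1 h5 with h | h
          · exact absurd (pow_eq_zero_iff (two_ne_zero) |>.1 h) h2
          · linear_combination h
        have n1 : d 1 = 8 * d 4 * ρ ^ 3 := by
          linear_combination (4 / 3 : ℂ) * m1 - (4 / 3 : ℂ) * ρ * n2
        refine ⟨ρ, n2, n1, ?_⟩
        have h5 : d 4 * (d 0 + 3 * d 4 * ρ ^ 4) = 0 := by
          linear_combination (1 / 12 : ℂ) * k1 - (1 / 12 : ℂ) * (d 2 - 6 * d 4 * ρ ^ 2) * n2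
        rcases mul_eq_zero.1 h5 with h | h
        · exact absurd h d4
        · linear_combination h
    refine ⟨(opT ρ).comp (opT (-c 3 / (4 * c 4))), ?_, ?_, ?_⟩
    · change (opT ρ).map ((opT (-c 3 / (4 * c 4))).map c) 0 = 0
      rw [← hd]
      change d 0 + d 1 * ρ + d 2 * ρ ^ 2 + d 3 * ρ ^ 3 + d 4 * ρ ^ 4 = 0
      rw [d3, r0, r1, r2]
      ring
    · change (opT ρ).map ((opT (-c 3 / (4 * c 4))).map c) 1 = 0
      rw [← hd]
      change d 1 + 2 * d 2 * ρ + 3 * d 3 * ρ ^ 2 + 4 * d 4 * ρ ^ 3 = 0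
      rw [d3, r1, r2]
      ring
    · change (opT ρ).map ((opT (-c 3 / (4 * c 4))).map c) 2 = 0
      rw [← hd]
      change d 2 + 3 * d 3 * ρ + 6 * d 4 * ρ ^ 2 = 0
      rw [d3, r2]
      ring

section Const

open Polynomial

/-- comparison of coefficients -/
theorem coeffs_zero (a : Fin 7 → ℂ) (h : ∀ x : ℂ, a 0 + a 1 * x + a 2 * x ^ 2 + a 3 * x ^ 3 +
    a 4 * x ^ 4 + a 5 * x ^ 5 + a 6 * x ^ 6 = 0) : ∀ i, a i = 0 := by
  have h1 : (C (a 0) + C (a 1) * X + C (a 2) * X ^ 2 + C (a 3) * X ^ 3 + C (a 4) * X ^ 4 +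
      C (a 5) * X ^ 5 + C (a 6) * X ^ 6 : ℂ[X]) = 0 := by
    apply Polynomial.funext
    intro x
    simp only [eval_add, eval_mul, eval_C, eval_X, eval_pow, eval_zero]
    exact h x
  intro i
  have h2 := congrArg (fun p => coeff p (i : ℕ)) h1
  simp only [coeff_add, coeff_C_mul, coeff_X_pow, coeff_X, coeff_C, coeff_zero] at h2
  fin_cases i <;> simpa using h2

/-- The triple root is constant. -/
theorem const_root (a a1 a2 b b1 b2 p1 p2 q1 q2 r1 r2 : ℂ) (hab : b ≠ 0 ∨ a ≠ 0)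
    (hI : ∀ x : ℂ, 12 * ((a + a1 * x + a2 * x ^ 2) * (p1 * x + p2 * x ^ 2)) -
      3 * ((b + b1 * x + b2 * x ^ 2) * (q1 * x + q2 * x ^ 2)) + (r1 * x + r2 * x ^ 2) ^ 2 = 0)
    (hJ : ∀ x : ℂ, 72 * ((a + a1 * x + a2 * x ^ 2) * (r1 * x + r2 * x ^ 2) *
        (p1 * x + p2 * x ^ 2)) +
      9 * ((b + b1 * x + b2 * x ^ 2) * (r1 * x + r2 * x ^ 2) * (q1 * x + q2 * x ^ 2)) -
      27 * ((a + a1 * x + a2 * x ^ 2) * (q1 * x + q2 * x ^ 2) ^ 2) -
      27 * ((b + b1 * x + b2 * x ^ 2) ^ 2 * (p1 * x + p2 * x ^ 2)) -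
      2 * (r1 * x + r2 * x ^ 2) ^ 3 = 0) :
    p1 = 0 ∧ p2 = 0 ∧ q1 = 0 ∧ q2 = 0 ∧ r1 = 0 ∧ r2 = 0 := by
  have cI := coeffs_zero ![0, 12 * a * p1 - 3 * b * q1,
    12 * (a * p2 + a1 * p1) - 3 * (b * q2 + b1 * q1) + r1 ^ 2,
    12 * (a1 * p2 + a2 * p1) - 3 * (b1 * q2 + b2 * q1) + 2 * r1 * r2,
    12 * a2 * p2 - 3 * b2 * q2 + r2 ^ 2, 0, 0] (by
      intro x
      simp
      linear_combination hI x)
  have i1 := cI 1
  have i2 := cI 2
  have i4 := cI 4
  simp at i1 i2 i4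
  have cJ := coeffs_zero ![0, -27 * b * b * p1, 72 * a * p1 * r1 - 27 * a * q1 * q1 - 27 * b * b * p2 - 54 * b * b1 * p1 + 9 * b * q1 * r1, 72 * a * p1 * r2 + 72 * a * p2 * r1 - 54 * a * q1 * q2 + 72 * a1 * p1 * r1 - 27 * a1 * q1 * q1 - 54 * b * b1 * p2 - 54 * b * b2 * p1 + 9 * b * q1 * r2 + 9 * b * q2 * r1 - 27 * b1 * b1 * p1 + 9 * b1 * q1 * r1 - 2 * r1 * r1 * r1, 72 * a * p2 * r2 - 27 * a * q2 * q2 + 72 * a1 * p1 * r2 + 72 * a1 * p2 * r1 - 54 * a1 * q1 * q2 + 72 * a2 * p1 * r1 - 27 * a2 * q1 * q1 - 54 * b * b2 * p2 + 9 * b * q2 * r2 - 27 * b1 * b1 * p2 - 54 * b1 * b2 * p1 + 9 * b1 * q1 * r2 + 9 * b1 * q2 * r1 + 9 * b2 * q1 * r1 - 6 * r1 * r1 * r2, 72 * a1 * p2 * r2 - 27 * a1 * q2 * q2 + 72 * a2 * p1 * r2 + 72 * a2 * p2 * r1 - 54 * a2 * q1 * q2 - 54 * b1 * b2 * p2 + 9 * b1 * q2 * r2 - 27 * b2 * b2 * p1 + 9 * b2 * q1 * r2 + 9 * b2 * q2 * r1 - 6 * r1 * r2 * r2, 72 * a2 * p2 * r2 - 27 * a2 * q2 * q2 - 27 * b2 * b2 * p2 + 9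 * b2 * q2 * r2 - 2 * r2 * r2 * r2] (by
      intro x
      simp
      linear_combination hJ x)
  have j1 := cJ 1
  have j2 := cJ 2
  have j3 := cJ 3
  have j4 := cJ 4
  simp only [Matrix.cons_val] at j1 j2 j3 j4
  by_cases hb : b = 0
  · have ha : a ≠ 0 := by
      rcases hab with h | h
      · exact absurd hb h
      · exact h
    subst hb
    have e1 : p1 = 0 := by
      have : a * p1 = 0 := by linear_combination (1 / 12 : ℂ) * i1
      exact (mul_eq_zero.1 this).resolve_left ha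
    subst e1
    have e2 : q1 = 0 := by
      have : a * q1 ^ 2 = 0 := by linear_combination (-1 / 27 : ℂ) * j2
      exact pow_eq_zero_iff two_ne_zero |>.1 ((mul_eq_zero.1 this).resolve_left ha)
    subst e2
    have e3 : r1 = 0 := by
      have : r1 ^ 3 = 0 := by linear_combination (-1 / 8 : ℂ) * j3 + (6 / 8 : ℂ) * r1 * i2
      exact pow_eq_zero_iff (by norm_num) |>.1 this
    subst e3
    have e4 : p2 = 0 := by
      have : a * p2 = 0 := by linear_combination (1 / 12 : ℂ) * i2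
      exact (mul_eq_zero.1 this).resolve_left ha
    subst e4
    have e5 : q2 = 0 := by
      have : a * q2 ^ 2 = 0 := by linear_combination (-1 / 27 : ℂ) * j4
      exact pow_eq_zero_iff two_ne_zero |>.1 ((mul_eq_zero.1 this).resolve_left ha)
    subst e5
    have e6 : r2 = 0 := by
      have : r2 ^ 2 = 0 := by linear_combination i4
      exact pow_eq_zero_iff two_ne_zero |>.1 this
    exact ⟨rfl, rfl, rfl, rfl, rfl, e6⟩
  · have e1 : p1 = 0 := by
      have : b ^ 2 * p1 = 0 := by linear_combination (-1 / 27 : ℂ) * j1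
      exact (mul_eq_zero.1 this).resolve_left (pow_ne_zero 2 hb)
    subst e1
    have e2 : q1 = 0 := by
      have : b * q1 = 0 := by linear_combination (-1 / 3 : ℂ) * i1
      exact (mul_eq_zero.1 this).resolve_left hb
    subst e2
    have e3 : p2 = 0 := by
      have : b ^ 2 * p2 = 0 := by linear_combination (-1 / 27 : ℂ) * j2
      exact (mul_eq_zero.1 this).resolve_left (pow_ne_zero 2 hb)
    subst e3
    have e4 : r1 = 0 := by
      have : r1 ^ 3 = 0 := by linear_combination j3 + 3 * r1 * i2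
      exact pow_eq_zero_iff (by norm_num) |>.1 this
    subst e4
    have e5 : q2 = 0 := by
      have : b * q2 = 0 := by linear_combination (-1 / 3 : ℂ) * i2
      exact (mul_eq_zero.1 this).resolve_left hb
    subst e5
    have e6 : r2 = 0 := by
      have : r2 ^ 2 = 0 := by linear_combination i4
      exact pow_eq_zero_iff two_ne_zero |>.1 this
    exact ⟨rfl, rfl, rfl, rfl, rfl, e6⟩

end Const

end Vale.Agent.P297.H55
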