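import Vale.Agent.P297.H10.TQ
import Vale.Agent.P297.H637.T8

/-!
The twin of the numerical Campedelli surfaces with fundamental group `ℤ/8`: the determinant of the
web of quadrics on the Cayley cubic, the quartic over the `l`-line, the coordinates.

The web is `Q₀ = a₁ o₀ o₃ + a₂ o₁ o₂`, `Q₁ = R + S`, `Q₂ = i (R - S)`, `Q₃ = c₁ o₀ o₂ + c₂ o₁ o₃` with
`R = b₁ o₀² + b₂ o₁² + b₃ o₂ o₃`, `S = d₁ o₂² + d₂ o₃² + d₃ o₀ o₁`, and
`m = (a₁, a₂, b₁, b₂, b₃, c₁, c₂, d₁, d₂, d₃)`.
-/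

set_option linter.unusedSectionVars false

open IntermediateField Polynomial

namespace Vale.Agent.P297.H55.T8

open Vale.Agent.P297 Vale.Agent.P297.Gen Vale.Agent.P297.G4 Vale.Agent.P297.H10
open Vale.Agent.P297.Z3

section Ring

variable {R : Type} [CommRing R]

/-- the coefficient of `λ₀⁴` -/
def e00 (m : Fin 10 → R) : R := m 0 ^ 2 * m 1 ^ 2

/-- the coefficient of `λ₀² λ₃²` -/
def e01 (m : Fin 10 → R) : R := -(2 * m 0 * m 1 * m 5 * m 6)

/-- the coefficient of `λ₃⁴` -/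
def e11 (m : Fin 10 → R) : R := m 5 ^ 2 * m 6 ^ 2

/-- the coefficient of `λ₀² μ ν` -/
def e02 (m : Fin 10 → R) : R :=
  -(4 * m 8 * m 2 * m 1 ^ 2 + 2 * m 4 * m 9 * m 0 * m 1 + 4 * m 7 * m 3 * m 0 ^ 2)

/-- the coefficient of `λ₃² μ ν` -/
def e12 (m : Fin 10 → R) : R :=
  -(4 * m 8 * m 3 * m 5 ^ 2 + 2 * m 4 * m 9 * m 5 * m 6 + 4 * m 7 * m 2 * m 6 ^ 2)

/-- the coefficient of `μ² ν²` -/
def e22 (m : Fin 10 → R) : R := 16 * m 2 * m 3 * m 7 * m 8 + m 4 ^ 2 * m 9 ^ 2

/-- the coefficient of `μ⁴` -/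
def f00 (m : Fin 10 → R) : R := -(4 * m 2 * m 3 * m 4 ^ 2)

/-- the coefficient of `ν⁴` -/
def f11 (m : Fin 10 → R) : R := -(4 * m 7 * m 8 * m 9 ^ 2)

/-- the coefficient of `λ₀ λ₃ μ²` -/
def f02 (m : Fin 10 → R) : R := 4 * m 4 * (m 3 * m 5 * m 0 + m 2 * m 1 * m 6)

/-- the coefficient of `λ₀ λ₃ ν²` -/
def f12 (m : Fin 10 → R) : R := 4 * m 9 * (m 8 * m 5 * m 1 + m 7 * m 0 * m 6)

/-- Twice the matrix of `λ₀ Q₀ + μ R + ν S + λ₃ Q₃`. -/
def zmat (m : Fin 10 → R) (l0 mu nu l3 : R) : Matrix (Fin 4) (Fin 4) R :=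
  !![2 * m 2 * mu, m 9 * nu, m 5 * l3, m 0 * l0;
     m 9 * nu, 2 * m 3 * mu, m 1 * l0, m 6 * l3;
     m 5 * l3, m 1 * l0, 2 * m 7 * nu, m 4 * mu;
     m 0 * l0, m 6 * l3, m 4 * mu, 2 * m 8 * nu]

/-- Its determinant. -/
def zdet (m : Fin 10 → R) (l0 mu nu l3 : R) : R :=
  e00 m * l0 ^ 4 + e01 m * (l0 ^ 2 * l3 ^ 2) + e11 m * l3 ^ 4 + e02 m * (l0 ^ 2 * (mu * nu)) +
    e12 m * (l3 ^ 2 * (mu * nu)) + e22 m * (mu * nu) ^ 2 + f00 m * mu ^ 4 + f11 m * nu ^ 4 +
    f02 m * (l0 * l3 * mu ^ 2) + f12 m * (l0 * l3 * nu ^ 2)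

theorem det_zmat (m : Fin 10 → R) (l0 mu nu l3 : R) :
    (zmat m l0 mu nu l3).det = zdet m l0 mu nu l3 := by
  unfold zmat zdet e00 e01 e11 e02 e12 e22 f00 f11 f02 f12
  simp [Matrix.det_succ_row_zero, Fin.sum_univ_succ, Fin.succAbove]
  ring

/-- The coefficients of the quadratic form on the pencil of conics (`j ^ 2 = -1`). -/
def dz (j : R) (m : Fin 10 → R) (l : R) : Fin 10 → R :=
  ![e11 m - e12 m, e01 m - e02 m + e12 m, e00 m + e02 m, e12 m, e02 m + 2 * j * f02 m,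
    e12 m, e02 m - 2 * j * f12 m, -(f00 m * l), e22 m * l, -(f11 m * l)]

theorem curve_aux (m : Fin 10 → R) {q X P M mu nu l3 j : R} (hj : j ^ 2 = -1)
    (hP : P = q ^ 2 - (q ^ 2 - 4) * X ^ 2) (hM : M = q ^ 2 + (q ^ 2 - 4) * X)
    (h1 : l3 * q = 2) (h2 : mu * nu * P = 2 * M) (h3 : mu ^ 2 * P = 4 * j * q)
    (h4 : nu ^ 2 * (q * P) = -(j * M ^ 2)) :
    (q ^ 2 * P) ^ 2 * zdet m 1 mu nu l3 = qf (dz j m (q ^ 2)) (uq (q ^ 2) X) := by
  have e : (q ^ 2 * P) ^ 2 * zdet m 1 mu nu l3 = e00 m * (q ^ 2 * P) ^ 2 +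
      e01 m * ((l3 * q) ^ 2 * (q ^ 2 * P ^ 2)) + e11 m * ((l3 * q) ^ 4 * P ^ 2) +
      (e02 m * q ^ 2 + e12 m * (l3 * q) ^ 2) * (q ^ 2 * P * (mu * nu * P)) +
      e22 m * (q ^ 4 * (mu * nu * P) ^ 2) + f00 m * (q ^ 4 * (mu ^ 2 * P) ^ 2) +
      f11 m * (q ^ 2 * (nu ^ 2 * (q * P)) ^ 2) +
      (l3 * q) * (q ^ 2 * P) * (f02 m * (q * (mu ^ 2 * P)) + f12 m * (nu ^ 2 * (q * P))) := by
    unfold zdet
    ring
  rw [e, h1, h2, h3, h4, hM, hP]
  change _ = (e11 m - e12 m) * (4 * (q ^ 2 - (q ^ 2 - 4) * X ^ 2)) ^ 2 +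
    (e01 m - e02 m + e12 m) * (4 * (q ^ 2 - (q ^ 2 - 4) * X ^ 2) *
      (q ^ 2 * (q ^ 2 - (q ^ 2 - 4) * X ^ 2))) +
    (e00 m + e02 m) * (q ^ 2 * (q ^ 2 - (q ^ 2 - 4) * X ^ 2)) ^ 2 +
    e12 m * (4 * (q ^ 2 - (q ^ 2 - 4) * X ^ 2) * (4 * q ^ 2)) +
    (e02 m + 2 * j * f02 m) * (q ^ 2 * (q ^ 2 - (q ^ 2 - 4) * X ^ 2) * (4 * q ^ 2)) +
    e12 m * (4 * (q ^ 2 - (q ^ 2 - 4) * X ^ 2) * (q ^ 2 + (q ^ 2 - 4) * X) ^ 2) +
    (e02 m - 2 * j * f12 m) * (q ^ 2 * (q ^ 2 - (q ^ 2 - 4) * X ^ 2) *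
      (q ^ 2 + (q ^ 2 - 4) * X) ^ 2) +
    -(f00 m * q ^ 2) * (4 * q ^ 2) ^ 2 +
    e22 m * q ^ 2 * (4 * q ^ 2 * (q ^ 2 + (q ^ 2 - 4) * X) ^ 2) +
    -(f11 m * q ^ 2) * ((q ^ 2 + (q ^ 2 - 4) * X) ^ 2) ^ 2
  linear_combination (16 * f00 m * q ^ 6 +
    f11 m * q ^ 2 * (q ^ 2 + (q ^ 2 - 4) * X) ^ 4) * hj

end Ring

/-- The coefficients of the quartics. -/
noncomputable def zP (m : Fin 10 → ℂ) : Fin 5 → ℂ[X] :=
  tq (dz (C Complex.I) (fun i => C (m i)) X) X

/-- The form of degree four. -/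
noncomputable def zp (m : Fin 10 → ℂ) : ℂ[X] := tI (dz (C Complex.I) (fun i => C (m i)) X) X

/-- The form of degree six. -/
noncomputable def zq (m : Fin 10 → ℂ) : ℂ[X] := tJ (dz (C Complex.I) (fun i => C (m i)) X) X

theorem qI_zP (m : Fin 10 → ℂ) : qI (zP m) = (X * (X - 4)) ^ 2 * zp m := qI_tq _ _

theorem qJ_zP (m : Fin 10 → ℂ) : qJ (zP m) = (X * (X - 4)) ^ 3 * zq m := qJ_tq _ _

theorem dz_C (m : Fin 10 → ℂ) : dz (C Complex.I) (fun i => (C (m i) : ℂ[X])) X =
    ![C (e11 m - e12 m), C (e01 m - e02 m + e12 m), C (e00 m + e02 m), C (e12 m),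
      C (e02 m + 2 * Complex.I * f02 m), C (e12 m), C (e02 m - 2 * Complex.I * f12 m),
      -(C (f00 m) * X), C (e22 m) * X, -(C (f11 m) * X)] := by
  unfold dz e00 e01 e11 e02 e12 e22 f00 f11 f02 f12
  simp only [map_add, map_sub, map_mul, map_pow, map_neg, map_ofNat]

theorem natDegree_zp (m : Fin 10 → ℂ) : (zp m).natDegree ≤ 4 := by
  unfold zp
  rw [dz_C]
  generalize e11 m - e12 m = k0
  generalize e01 m - e02 m + e12 m = k1
  generalize e00 m + e02 m = k2
  generalize e12 m = k3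
  generalize e02 m + 2 * Complex.I * f02 m = k4
  generalize e02 m - 2 * Complex.I * f12 m = k6
  generalize f00 m = k7
  generalize e22 m = k8
  generalize f11 m = k9
  unfold tI tTh tQ ta tb tg
  change natDegree (16 * ((16 * C k0 + 4 * X * C k1 + X ^ 2 * C k2 + 2 * (4 * C k3 + X * C k4) +
    2 * (4 * C k3 + X * C k6) - 2 * (X - 4) * (C k8 * X)) ^ 2 +
    3 * (4 * (X - 4) ^ 2 * (-(C k7 * X) * -(C k9 * X)) - (X - 4) ^ 2 * (C k8 * X) ^ 2 +
    (X - 4) * (-4 * (4 * C k3 + X * C k4) * -(C k9 * X) + 2 * (4 * C k3 + X * C k6) * (C k8 * X) +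
      2 * (4 * C k3 + X * C k4) * (C k8 * X) - 4 * -(C k7 * X) * (4 * C k3 + X * C k6)) +
    4 * (16 * C k0 + 4 * X * C k1 + X ^ 2 * C k2) * -(C k9 * X) - (4 * C k3 + X * C k6) ^ 2 +
    4 * (16 * C k0 + 4 * X * C k1 + X ^ 2 * C k2) * -(C k7 * X) - (4 * C k3 + X * C k4) ^ 2 +
    (2 - X) * ((4 * C k3 + X * C k4) * (4 * C k3 + X * C k6) -
      2 * (16 * C k0 + 4 * X * C k1 + X ^ 2 * C k2) * (C k8 * X))))) ≤ 4
  compute_degree

theorem natDegree_zq (m : Fin 10 → ℂ) : (zq m).natDegree ≤ 6 := by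
  unfold zq
  rw [dz_C]
  generalize e11 m - e12 m = k0
  generalize e01 m - e02 m + e12 m = k1
  generalize e00 m + e02 m = k2
  generalize e12 m = k3
  generalize e02 m + 2 * Complex.I * f02 m = k4
  generalize e02 m - 2 * Complex.I * f12 m = k6
  generalize f00 m = k7
  generalize e22 m = k8
  generalize f11 m = k9
  have hTh : natDegree (tTh ![C k0, C k1, C k2, C k3, C k4, C k3, C k6, -(C k7 * X), C k8 * X,
      -(C k9 * X)] (X : ℂ[X])) ≤ 2 := by
    unfold tTh ta tb tg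
    change natDegree (16 * C k0 + 4 * X * C k1 + X ^ 2 * C k2 + 2 * (4 * C k3 + X * C k4) +
      2 * (4 * C k3 + X * C k6) - 2 * (X - 4) * (C k8 * X)) ≤ 2
    compute_degree
  have hQ : natDegree (tQ ![C k0, C k1, C k2, C k3, C k4, C k3, C k6, -(C k7 * X), C k8 * X,
      -(C k9 * X)] (X : ℂ[X])) ≤ 4 := by
    unfold tQ ta tb tg
    change natDegree (4 * (X - 4) ^ 2 * (-(C k7 * X) * -(C k9 * X)) -
      (X - 4) ^ 2 * (C k8 * X) ^ 2 +
      (X - 4) * (-4 * (4 * C k3 + X * C k4) * -(C k9 * X) +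
        2 * (4 * C k3 + X * C k6) * (C k8 * X) +
        2 * (4 * C k3 + X * C k4) * (C k8 * X) - 4 * -(C k7 * X) * (4 * C k3 + X * C k6)) +
      4 * (16 * C k0 + 4 * X * C k1 + X ^ 2 * C k2) * -(C k9 * X) - (4 * C k3 + X * C k6) ^ 2 +
      4 * (16 * C k0 + 4 * X * C k1 + X ^ 2 * C k2) * -(C k7 * X) - (4 * C k3 + X * C k4) ^ 2 +
      (2 - X) * ((4 * C k3 + X * C k4) * (4 * C k3 + X * C k6) -
        2 * (16 * C k0 + 4 * X * C k1 + X ^ 2 * C k2) * (C k8 * X))) ≤ 4
    compute_degree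
  have hD : natDegree (tDe ![C k0, C k1, C k2, C k3, C k4, C k3, C k6, -(C k7 * X), C k8 * X,
      -(C k9 * X)] (X : ℂ[X])) ≤ 4 := by
    unfold tDe ta tb tg
    change natDegree (4 * (16 * C k0 + 4 * X * C k1 + X ^ 2 * C k2) * -(C k7 * X) *
      -(C k9 * X) - (16 * C k0 + 4 * X * C k1 + X ^ 2 * C k2) * (C k8 * X) ^ 2 -
      (4 * C k3 + X * C k4) ^ 2 * -(C k9 * X) +
      (4 * C k3 + X * C k4) * (4 * C k3 + X * C k6) * (C k8 * X) -
      (4 * C k3 + X * C k6) ^ 2 * -(C k7 * X)) ≤ 4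
    compute_degree
  unfold tJ
  generalize tTh ![C k0, C k1, C k2, C k3, C k4, C k3, C k6, -(C k7 * X), C k8 * X,
      -(C k9 * X)] (X : ℂ[X]) = U at hTh ⊢
  generalize tQ ![C k0, C k1, C k2, C k3, C k4, C k3, C k6, -(C k7 * X), C k8 * X,
      -(C k9 * X)] (X : ℂ[X]) = V at hQ ⊢
  generalize tDe ![C k0, C k1, C k2, C k3, C k4, C k3, C k6, -(C k7 * X), C k8 * X,
      -(C k9 * X)] (X : ℂ[X]) = W at hD ⊢
  have h1 : (2 * U ^ 3).natDegree ≤ 6 :=
    (natDegree_mul_le.trans (add_le_add (natDegree_C (2 : ℂ)).le (natDegree_pow_le.trans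
      (Nat.mul_le_mul_left 3 hTh)))).trans (by norm_num)
  have h2 : (9 * U * V).natDegree ≤ 6 :=
    (natDegree_mul_le.trans (add_le_add (natDegree_mul_le.trans
      (add_le_add (natDegree_C (9 : ℂ)).le hTh)) hQ)).trans (by norm_num)
  have h3 : (27 * X * (X - 4) * W).natDegree ≤ 6 :=
    (natDegree_mul_le.trans (add_le_add (show (27 * X * (X - 4) : ℂ[X]).natDegree ≤ 2 by
      compute_degree) hD)).trans (by norm_num)
  rw [natDegree_neg]
  refine natDegree_mul_le.trans (le_trans (add_le_add (natDegree_C (64 : ℂ)).le ?_)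
    (by norm_num : 0 + 6 ≤ 6))
  exact (natDegree_sub_le _ _).trans (max_le ((natDegree_add_le _ _).trans (max_le h1 h2)) h3)

section Field

variable {N : Type} [Field N] [Algebra ℂ N]

/-- the imaginary unit -/
noncomputable def im (N : Type) [Field N] [Algebra ℂ N] : N := algebraMap ℂ N Complex.I

theorem im_sq : im N ^ 2 = -1 := by
  unfold im
  rw [← map_pow, Complex.I_sq, map_neg, map_one]

theorem map_im (g : N →ₐ[ℂ] N) : g (im N) = im N := g.commutes _

/-- The parameters, in a field. -/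
def zm (N : Type) [Field N] [Algebra ℂ N] (m : Fin 10 → ℂ) : Fin 10 → N :=
  fun i => algebraMap ℂ N (m i)

/-- `λ₁ = (x + x⁻¹) / 2`, and `λ₂`, `λ₃` -/
def lam (x : N) : N := (x + x⁻¹) / 2

/-- `16 det Q_λ` for the line with coordinates `x = m₂ / m₃`, `y = m₃ / m₁`. -/
noncomputable def zD (m : Fin 10 → ℂ) (x y : N) : N :=
  zdet (zm N m) 1 (lam x + im N * lam y) (lam x - im N * lam y) (lam (x * y))

/-- `ω` -/
noncomputable def om (x y : N) : N := (x * y + im N) / (1 + im N * (x * y))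

/-- `s` -/
noncomputable def zS (x y : N) : N := om x y ^ 2

/-- `X` -/
noncomputable def zX (x y : N) : N :=
  (y - x * om x y) / (y + x * om x y) * ((zS x y + 1) / (zS x y - 1))

/-- `Y / w` -/
noncomputable def zF (x y : N) : N :=
  lv (zS x y) * (lv (zS x y) - (lv (zS x y) - 4) * zX x y ^ 2)

/-- The conditions of non-degeneracy. -/
structure NZ (x y : N) : Prop where
  x0 : x ≠ 0
  y0 : y ≠ 0
  k0 : 1 + im N * (x * y) ≠ 0
  o0 : x * y + im N ≠ 0
  e0 : (x * y) ^ 2 ≠ 1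
  m0 : lam x + im N * lam y ≠ 0

variable {x y w : N}

theorem NZ.om_k (h : NZ x y) : om x y * (1 + im N * (x * y)) = x * y + im N :=
  div_mul_cancel₀ _ h.k0

theorem NZ.om_ne (h : NZ x y) : om x y ≠ 0 := div_ne_zero h.o0 h.k0

variable [CharZero N]

theorem NZ.lam_mu (h : NZ x y) : 2 * (x * y) * (lam x + im N * lam y) =
    x ^ 2 * y + y + im N * (x * y ^ 2 + x) := by
  have hx := h.x0
  have hy := h.y0
  unfold lam
  field_simp

theorem NZ.lam_nu (h : NZ x y) : 2 * (x * y) * (lam x - im N * lam y) =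
    x ^ 2 * y + y - im N * (x * y ^ 2 + x) := by
  have hx := h.x0
  have hy := h.y0
  unfold lam
  field_simp

theorem NZ.one_add (h : NZ x y) : (1 + zS x y) * (1 + im N * (x * y)) ^ 2 =
    4 * im N * (x * y) := by
  unfold zS
  have h1 := h.om_k
  have h2 := im_sq (N := N)
  linear_combination (om x y * (1 + im N * (x * y)) + x * y + im N) * h1 +
    (1 + (x * y) ^ 2) * h2

theorem NZ.mu_k (h : NZ x y) : (y + x * om x y) * (1 + im N * (x * y)) =
    2 * (x * y) * (lam x + im N * lam y) := by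
  have h1 := h.om_k
  rw [h.lam_mu]
  linear_combination x * h1

theorem NZ.nu_k (h : NZ x y) : (x + y * om x y) * (1 + im N * (x * y)) =
    2 * im N * (x * y) * (lam x - im N * lam y) := by
  have h1 := h.om_k
  have h2 := h.lam_nu
  have h3 := im_sq (N := N)
  linear_combination y * h1 - im N * h2 + (x * y ^ 2 + x) * h3

theorem NZ.den (h : NZ x y) : y + x * om x y ≠ 0 := by
  intro h0
  have h1 := h.mu_k
  rw [h0, zero_mul] at h1
  exact mul_ne_zero (mul_ne_zero two_ne_zero (mul_ne_zero h.x0 h.y0)) h.m0 h1.symm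

theorem im_ne : im N ≠ 0 := by
  intro h
  have h1 := im_sq (N := N)
  rw [h] at h1
  norm_num at h1

theorem NZ.s_add (h : NZ x y) : 1 + zS x y ≠ 0 := by
  intro h0
  have h1 := h.one_add
  rw [h0, zero_mul] at h1
  exact mul_ne_zero (mul_ne_zero (by norm_num) im_ne) (mul_ne_zero h.x0 h.y0) h1.symm

theorem NZ.s_sub (h : NZ x y) : zS x y - 1 ≠ 0 := by
  intro h0
  have h1 := h.om_k
  have h2 : om x y ^ 2 = 1 := by
    have := h0
    unfold zS at this
    linear_combination this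
  have h3 : (om x y * (1 + im N * (x * y))) ^ 2 = (1 + im N * (x * y)) ^ 2 := by
    rw [mul_pow, h2, one_mul]
  rw [h1] at h3
  apply h.e0
  have h4 := im_sq (N := N)
  have h5 : 2 * ((x * y) ^ 2 - 1) = 0 := by
    linear_combination h3 - (1 - (x * y) ^ 2) * h4
  have h6 := (mul_eq_zero.1 h5).resolve_left two_ne_zero
  linear_combination h6

theorem NZ.s_ne (h : NZ x y) : zS x y ≠ 0 := pow_ne_zero 2 h.om_ne

/-- The equation of the conic bundle. -/
theorem NZ.X_eq (h : NZ x y) : zX x y * ((y + x * om x y) * (om x y ^ 2 - 1)) =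
    (y - x * om x y) * (om x y ^ 2 + 1) := by
  have h1 := h.den
  have h2 := h.s_sub
  unfold zX zS at *
  rw [div_mul_div_comm, div_mul_cancel₀ _ (mul_ne_zero h1 h2)]

theorem NZ.l_eq (h : NZ x y) : lv (zS x y) * om x y ^ 2 = (1 + om x y ^ 2) ^ 2 :=
  div_mul_cancel₀ _ (pow_ne_zero 2 h.om_ne)

theorem NZ.P_eq (h : NZ x y) : (lv (zS x y) - (lv (zS x y) - 4) * zX x y ^ 2) *
    (y + x * om x y) ^ 2 = 4 * (x * y) * om x y * lv (zS x y) := by
  have h2 : om x y ^ 2 - 1 ≠ 0 := h.s_sub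
  have h3 := h.om_ne
  have hX := h.X_eq
  have hl := h.l_eq
  refine mul_left_cancel₀ (mul_ne_zero (pow_ne_zero 2 h3) (pow_ne_zero 2 h2)) ?_
  linear_combination ((om x y ^ 2 - 1) ^ 2 * (y + x * om x y) ^ 2 -
    (zX x y * ((y + x * om x y) * (om x y ^ 2 - 1))) ^ 2 -
    4 * (x * y) * om x y * (om x y ^ 2 - 1) ^ 2) * hl -
    ((1 - om x y ^ 2) ^ 2 * (zX x y * ((y + x * om x y) * (om x y ^ 2 - 1)) +
      (y - x * om x y) * (om x y ^ 2 + 1))) * hX

theorem NZ.M_eq (h : NZ x y) : (lv (zS x y) + (lv (zS x y) - 4) * zX x y) *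
    (y + x * om x y) * om x y = 2 * (1 + zS x y) * (x + y * om x y) := by
  have h2 : om x y ^ 2 - 1 ≠ 0 := h.s_sub
  have h3 := h.om_ne
  have hX := h.X_eq
  have hl := h.l_eq
  refine mul_left_cancel₀ (mul_ne_zero h3 h2) ?_
  change _ = om x y * (om x y ^ 2 - 1) * (2 * (1 + om x y ^ 2) * (x + y * om x y))
  linear_combination ((om x y ^ 2 - 1) * (y + x * om x y) +
    zX x y * ((y + x * om x y) * (om x y ^ 2 - 1))) * hl + (1 - om x y ^ 2) ^ 2 * hX

theorem NZ.curve_eq (h : NZ x y) (m : Fin 10 → ℂ) : zF x y ^ 2 * zD m x y =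
    qv (tq (dz (im N) (zm N m) (lv (zS x y))) (lv (zS x y))) (zX x y) := by
  rw [qv_tq]
  have h3 := h.om_ne
  have hk := h.k0
  have hd := h.den
  have hs := h.s_add
  set q : N := (1 + zS x y) / om x y with hq
  have hqo : q * om x y = 1 + zS x y := div_mul_cancel₀ _ h3
  have hl : lv (zS x y) = q ^ 2 := by
    rw [hq, lv, div_pow]
    rfl
  have hP := h.P_eq
  have hM := h.M_eq
  unfold zF zD
  rw [hl] at hP hM ⊢
  set P : N := q ^ 2 - (q ^ 2 - 4) * zX x y ^ 2 with hPd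
  set M : N := q ^ 2 + (q ^ 2 - 4) * zX x y with hMd
  have hmu := h.mu_k
  have hnu := h.nu_k
  have h1s := h.one_add
  set mu : N := lam x + im N * lam y with hmud
  set nu : N := lam x - im N * lam y with hnud
  have hj := im_sq (N := N)
  have hj0 := im_ne (N := N)
  have hxy : x * y ≠ 0 := mul_ne_zero h.x0 h.y0
  have hm0 : mu ≠ 0 := h.m0
  -- eliminate the denominators
  set k : N := 1 + im N * (x * y) with hkd
  have hq0 : q ≠ 0 := div_ne_zero hs h3
  refine curve_aux (zm N m) hj hPd hMd ?_ ?_ ?_ ?_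
  · -- `λ₃ q = 2`
    have e1 : om x y * k = x * y + im N := h.om_k
    have e2 : lam (x * y) * (2 * (x * y)) = (x * y) ^ 2 + 1 := by
      unfold lam
      linear_combination mul_inv_cancel₀ hxy
    have e3 : k * (x * y + im N) = im N * (1 + (x * y) ^ 2) := by
      rw [hkd]
      linear_combination (x * y) * hj
    have e4 : (x * y + im N) * k * q = 4 * im N * (x * y) := by
      rw [← h1s, ← hqo, ← e1]
      ring
    have e5 : (im N * (2 * (x * y))) * (lam (x * y) * q) = (im N * (2 * (x * y))) * 2 := by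
      linear_combination (im N * q) * e2 + e4 - q * e3
    exact mul_left_cancel₀ (mul_ne_zero hj0 (mul_ne_zero two_ne_zero hxy)) e5
  · have e1 : ((y + x * om x y) ^ 2 * om x y * k ^ 2) * (mu * nu * P) =
        ((y + x * om x y) ^ 2 * om x y * k ^ 2) * (2 * M) := by
      linear_combination (mu * nu * om x y * k ^ 2) * hP -
        (2 * (y + x * om x y) * k ^ 2) * hM +
        (mu * nu * 4 * (x * y) * k ^ 2 * (q * om x y + 1 + zS x y)) * hqo +
        (mu * nu * 4 * (x * y) * (1 + zS x y)) * h1s -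
        (4 * (1 + zS x y) * (x + y * om x y) * k) * hmu -
        (4 * (1 + zS x y) * 2 * (x * y) * mu) * hnu
    exact mul_left_cancel₀ (mul_ne_zero (mul_ne_zero (pow_ne_zero 2 hd) h3)
      (pow_ne_zero 2 hk)) e1
  · have e1 : ((y + x * om x y) ^ 2 * k ^ 2) * (mu ^ 2 * P) =
        ((y + x * om x y) ^ 2 * k ^ 2) * (4 * im N * q) := by
      linear_combination (mu ^ 2 * k ^ 2) * hP +
        (mu ^ 2 * 4 * (x * y) * k ^ 2 * q) * hqo + (mu ^ 2 * 4 * (x * y) * q) * h1s -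
        (4 * im N * q * ((y + x * om x y) * k + 2 * (x * y) * mu)) * hmu
    exact mul_left_cancel₀ (mul_ne_zero (pow_ne_zero 2 hd) (pow_ne_zero 2 hk)) e1
  · have e0 : (M * (y + x * om x y) * om x y) ^ 2 * k ^ 2 =
        4 * (1 + zS x y) ^ 2 * (2 * im N * (x * y) * nu) ^ 2 := by
      rw [hM, ← hnu]
      ring
    have e1 : ((y + x * om x y) ^ 2 * om x y ^ 2 * k ^ 2) * (nu ^ 2 * (q * P)) =
        ((y + x * om x y) ^ 2 * om x y ^ 2 * k ^ 2) * (-(im N * M ^ 2)) := by
      linear_combination (nu ^ 2 * q * om x y ^ 2 * k ^ 2) * hP + im N * e0 +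
        (nu ^ 2 * 4 * (x * y) * k ^ 2 * ((q * om x y) ^ 2 + (q * om x y) * (1 + zS x y) +
          (1 + zS x y) ^ 2)) * hqo +
        (nu ^ 2 * 4 * (x * y) * (1 + zS x y) ^ 2) * h1s +
        (16 * im N * (x * y) ^ 2 * nu ^ 2 * (1 + zS x y) ^ 2) * hj
    exact mul_left_cancel₀ (mul_ne_zero (mul_ne_zero (pow_ne_zero 2 hd) (pow_ne_zero 2 h3))
      (pow_ne_zero 2 hk)) e1

omit [CharZero N] in
theorem NZ.sS (h : NZ x y) : zS x⁻¹ y⁻¹ = (zS x y)⁻¹ ∧ om x⁻¹ y⁻¹ = (om x y)⁻¹ := by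
  have hx := h.x0
  have hy := h.y0
  have hk := h.k0
  have ho := h.o0
  have e : om x⁻¹ y⁻¹ = (om x y)⁻¹ := by
    unfold om
    rw [inv_div, ← mul_inv]
    have hxy : x * y ≠ 0 := mul_ne_zero hx hy
    have h1 : 1 + im N * (x * y)⁻¹ = (x * y + im N) / (x * y) := by
      rw [add_div, div_self hxy, div_eq_mul_inv]
    have h2 : (x * y)⁻¹ + im N = (1 + im N * (x * y)) / (x * y) := by
      rw [add_div, mul_div_assoc, div_self hxy, one_div, mul_one]
    rw [h1, h2, div_div_div_cancel_right₀ hxy]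
  refine ⟨?_, e⟩
  unfold zS
  rw [e, inv_pow]

/-- `ι` -/
theorem NZ.iX (h : NZ x y) : zX x⁻¹ y⁻¹ = zX x y := by
  obtain ⟨h1, h2⟩ := h.sS
  have hx := h.x0
  have hy := h.y0
  have ho := h.om_ne
  have hd := h.den
  have hs := h.s_ne
  have hs1 := h.s_sub
  have hs2 := h.s_add
  have e1 : (y⁻¹ - x⁻¹ * (om x y)⁻¹) / (y⁻¹ + x⁻¹ * (om x y)⁻¹) =
      -((y - x * om x y) / (y + x * om x y)) := by
    have k1 : y⁻¹ - x⁻¹ * (om x y)⁻¹ = -(y - x * om x y) / (x * y * om x y) := by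
      field_simp
      ring
    have k2 : y⁻¹ + x⁻¹ * (om x y)⁻¹ = (y + x * om x y) / (x * y * om x y) := by
      field_simp
      ring
    rw [k1, k2, div_div_div_cancel_right₀ (mul_ne_zero (mul_ne_zero hx hy) ho), neg_div]
  have e2 : ((zS x y)⁻¹ + 1) / ((zS x y)⁻¹ - 1) = -((zS x y + 1) / (zS x y - 1)) := by
    have k1 : (zS x y)⁻¹ + 1 = (zS x y + 1) / zS x y := by
      field_simp
      ring
    have k2 : (zS x y)⁻¹ - 1 = -(zS x y - 1) / zS x y := by
      field_simp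
      ring
    rw [k1, k2, div_div_div_cancel_right₀ hs, div_neg]
  unfold zX
  rw [h1, h2, e1, e2]
  ring

theorem NZ.iF (h : NZ x y) : zF x⁻¹ y⁻¹ = zF x y := by
  unfold zF
  rw [h.iX, h.sS.1, lv_inv h.s_ne]

omit [CharZero N] in
theorem lam_inv (x : N) : lam x⁻¹ = lam x := by
  unfold lam
  rw [inv_inv, add_comm]

omit [CharZero N] in
theorem lam_neg (x : N) : lam (-x) = -lam x := by
  unfold lam
  rw [inv_neg]
  ring

omit [CharZero N] in
theorem iD (m : Fin 10 → ℂ) (x y : N) : zD m x⁻¹ y⁻¹ = zD m x y := by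
  unfold zD
  rw [← mul_inv, lam_inv, lam_inv, lam_inv]

/-- the generator of the group -/
theorem NZ.gom (h : NZ x y) : om y⁻¹ (-x⁻¹) = -om x y := by
  have hx := h.x0
  have hy := h.y0
  have hxy : x * y ≠ 0 := mul_ne_zero h.x0 h.y0
  have hk := h.k0
  have ho := h.o0
  have hj := im_sq (N := N)
  have hj0 := im_ne (N := N)
  have h1 : y⁻¹ * -x⁻¹ = -(x * y)⁻¹ := by
    rw [mul_inv]
    ring
  unfold om
  rw [h1]
  have h2 : -(x * y)⁻¹ + im N = (im N * (x * y + im N)) / (x * y) := by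
    field_simp
    linear_combination -hj
  have h3 : 1 + im N * -(x * y)⁻¹ = (-im N * (1 + im N * (x * y))) / (x * y) := by
    field_simp
    linear_combination (x * y) * hj
  rw [h2, h3, div_div_div_cancel_right₀ hxy, neg_mul, div_neg, mul_div_mul_left _ _ hj0]

theorem NZ.gS (h : NZ x y) : zS y⁻¹ (-x⁻¹) = zS x y := by
  unfold zS
  rw [h.gom, neg_sq]

theorem NZ.gX (h : NZ x y) : zX y⁻¹ (-x⁻¹) = zX x y := by
  have hx := h.x0
  have hy := h.y0
  unfold zX
  rw [h.gS, h.gom]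
  congr 1
  have k1 : -x⁻¹ - y⁻¹ * -om x y = (y - x * om x y) / (-(x * y)) := by
    field_simp
    ring
  have k2 : -x⁻¹ + y⁻¹ * -om x y = (y + x * om x y) / (-(x * y)) := by
    field_simp
    ring
  rw [k1, k2, div_div_div_cancel_right₀ (neg_ne_zero.2 (mul_ne_zero hx hy))]

theorem NZ.gF (h : NZ x y) : zF y⁻¹ (-x⁻¹) = zF x y := by
  unfold zF
  rw [h.gX, h.gS]

omit [CharZero N] in
theorem gD (m : Fin 10 → ℂ) (x y : N) : zD m y⁻¹ (-x⁻¹) = zD m x y := by
  have h1 : y⁻¹ * -x⁻¹ = -(x * y)⁻¹ := by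
    rw [mul_inv]
    ring
  have hj := im_sq (N := N)
  unfold zD
  rw [h1, lam_inv, lam_neg, lam_inv, lam_neg, lam_inv]
  have h2 : lam y + im N * -lam x = -im N * (lam x + im N * lam y) := by
    linear_combination lam y * hj
  have h3 : lam y - im N * -lam x = im N * (lam x - im N * lam y) := by
    linear_combination lam y * hj
  rw [h2, h3]
  generalize lam x + im N * lam y = mu
  generalize lam x - im N * lam y = nu
  generalize lam (x * y) = l3
  generalize im N = j at *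
  have e1 : (-j * mu) * (j * nu) = mu * nu := by linear_combination (-mu * nu) * hj
  have e2 : (-j * mu) ^ 2 = -mu ^ 2 := by linear_combination mu ^ 2 * hj
  have e3 : (j * nu) ^ 2 = -nu ^ 2 := by linear_combination nu ^ 2 * hj
  have e4 : (-j * mu) ^ 4 = mu ^ 4 := by
    rw [show (-j * mu) ^ 4 = ((-j * mu) ^ 2) ^ 2 by ring, e2]
    ring
  have e5 : (j * nu) ^ 4 = nu ^ 4 := by
    rw [show (j * nu) ^ 4 = ((j * nu) ^ 2) ^ 2 by ring, e3]
    ring
  unfold zdet
  rw [e1, e2, e3, e4, e5]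
  ring

theorem NZ.g (h : NZ x y) : NZ y⁻¹ (-x⁻¹) where
  x0 := inv_ne_zero h.y0
  y0 := neg_ne_zero.2 (inv_ne_zero h.x0)
  k0 := by
    intro h0
    have hx := h.x0
    have hy := h.y0
    have hj := im_sq (N := N)
    apply h.k0
    have h1 : (x * y) * (1 + im N * (y⁻¹ * -x⁻¹)) = x * y - im N := by
      field_simp
      ring
    rw [h0, mul_zero] at h1
    linear_combination -im N * h1 + hj
  o0 := by
    intro h0
    have hx := h.x0
    have hy := h.y0
    have hj := im_sq (N := N)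
    apply h.o0
    have h1 : (x * y) * (y⁻¹ * -x⁻¹ + im N) = -1 + im N * (x * y) := by
      field_simp
    rw [h0, mul_zero] at h1
    linear_combination im N * h1 + (x * y) * hj
  e0 := by
    intro h0
    apply h.e0
    have hx := h.x0
    have hy := h.y0
    have h1 : (y⁻¹ * -x⁻¹) ^ 2 * (x * y) ^ 2 = 1 := by
      field_simp
    rw [h0, one_mul] at h1
    exact h1
  m0 := by
    intro h0
    apply h.m0
    have hj := im_sq (N := N)
    rw [lam_inv, lam_neg, lam_inv] at h0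
    linear_combination im N * h0 + lam x * hj

omit [CharZero N] in
theorem NZ.i (h : NZ x y) : NZ x⁻¹ y⁻¹ where
  x0 := inv_ne_zero h.x0
  y0 := inv_ne_zero h.y0
  k0 := by
    intro h0
    have hx := h.x0
    have hy := h.y0
    apply h.o0
    have h1 : (x * y) * (1 + im N * (x⁻¹ * y⁻¹)) = x * y + im N := by
      field_simp
    rw [h0, mul_zero] at h1
    exact h1.symm
  o0 := by
    intro h0
    have hx := h.x0
    have hy := h.y0
    apply h.k0
    have h1 : (x * y) * (x⁻¹ * y⁻¹ + im N) = 1 + im N * (x * y) := by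
      field_simp
    rw [h0, mul_zero] at h1
    exact h1.symm
  e0 := by
    intro h0
    apply h.e0
    have hx := h.x0
    have hy := h.y0
    have h1 : (x⁻¹ * y⁻¹) ^ 2 * (x * y) ^ 2 = 1 := by
      field_simp
    rw [h0, one_mul] at h1
    exact h1
  m0 := by
    rw [lam_inv, lam_inv]
    exact h.m0

/-- the fibres, first case -/
theorem NZ.fib1 (h : NZ x y) {x' y' : N} (h' : NZ x' y') (ho : om x' y' = om x y)
    (hX : zX x' y' = zX x y) : (x' = x ∧ y' = y) ∨ (x' = -x ∧ y' = -y) := by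
  have hj := im_sq (N := N)
  have hk := h.k0
  have hd := h.den
  have hd' := h'.den
  have hs1 := h.s_sub
  have hs2 := h.s_add
  have e1 : x' * y' = x * y := by
    have h1 := h.om_k
    have h2 := h'.om_k
    rw [ho] at h2
    have h3 : (1 - im N * om x y) * (x' * y' - x * y) = 0 := by
      linear_combination h1 - h2
    rcases mul_eq_zero.1 h3 with h4 | h4
    · exfalso
      have h5 : om x y = -im N := by linear_combination im N * h4 + om x y * hj
      rw [h5] at h1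
      have h6 : 2 * im N = 0 := by linear_combination -h1 - (x * y) * hj
      exact mul_ne_zero two_ne_zero im_ne h6
    · linear_combination h4
  have e2 : y' * x = x' * y := by
    unfold zX at hX
    have hS : zS x' y' = zS x y := by
      unfold zS
      rw [ho]
    rw [hS, ho] at hX
    rw [ho] at hd'
    have h3 : (zS x y + 1) / (zS x y - 1) ≠ 0 := div_ne_zero (by rwa [add_comm]) hs1
    have h4 := mul_right_cancel₀ h3 hX
    rw [div_eq_div_iff hd' hd] at h4
    have h5 : (2 * om x y) * (y' * x) = (2 * om x y) * (x' * y) := by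
      linear_combination h4
    exact mul_left_cancel₀ (mul_ne_zero two_ne_zero h.om_ne) h5
  have e3 : (x' - x) * (x' + x) = 0 := by
    have h5 : y * ((x' - x) * (x' + x)) = 0 := by
      linear_combination (-x') * e2 + x * e1
    exact (mul_eq_zero.1 h5).resolve_left h.y0
  rcases mul_eq_zero.1 e3 with h4 | h4
  · left
    have h5 : x' = x := by linear_combination h4
    refine ⟨h5, ?_⟩
    rw [h5] at e1
    exact mul_left_cancel₀ h.x0 e1
  · right
    have h5 : x' = -x := by linear_combination h4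
    refine ⟨h5, ?_⟩
    rw [h5] at e1
    exact mul_left_cancel₀ h.x0 (by linear_combination -e1)

/-- the fibres -/
theorem NZ.fib (h : NZ x y) {x' y' : N} (h' : NZ x' y') (hS : zS x' y' = zS x y)
    (hX : zX x' y' = zX x y) : (x' = x ∧ y' = y) ∨ (x' = -x ∧ y' = -y) ∨
      (x' = y⁻¹ ∧ y' = -x⁻¹) ∨ (x' = -y⁻¹ ∧ y' = x⁻¹) := by
  have h1 : om x' y' ^ 2 = om x y ^ 2 := hS
  rcases sq_eq_sq_iff_eq_or_eq_neg.1 h1 with h2 | h2
  · rcases h.fib1 h' h2 hX with h3 | h3
    · exact Or.inl h3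
    · exact Or.inr (Or.inl h3)
  · have h3 : om y'⁻¹ (-x'⁻¹) = om x y := by rw [h'.gom, h2, neg_neg]
    rcases h.fib1 h'.g h3 (by rw [h'.gX, hX]) with ⟨h4, h5⟩ | ⟨h4, h5⟩
    · right; right; right
      refine ⟨?_, ?_⟩
      · rw [← h5, inv_neg, inv_inv, neg_neg]
      · rw [← h4, inv_inv]
    · right; right; left
      refine ⟨?_, ?_⟩
      · have h6 : x'⁻¹ = y := neg_injective h5
        rw [← h6, inv_inv]
      · have h6 : x = -y'⁻¹ := by rw [h4, neg_neg]
        rw [h6, inv_neg, inv_inv, neg_neg]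

theorem NZ.F_ne (h : NZ x y) : zF x y ≠ 0 := by
  have h1 := h.P_eq
  have hl : lv (zS x y) ≠ 0 := by
    unfold lv
    exact div_ne_zero (pow_ne_zero 2 h.s_add) h.s_ne
  have h2 : 4 * (x * y) * om x y * lv (zS x y) ≠ 0 :=
    mul_ne_zero (mul_ne_zero (mul_ne_zero (by norm_num) (mul_ne_zero h.x0 h.y0)) h.om_ne) hl
  rw [← h1] at h2
  exact mul_ne_zero hl (left_ne_zero_of_mul h2)

end Field

section Nat

variable {N N' : Type} [Field N] [Algebra ℂ N] [Field N'] [Algebra ℂ N'] (g : N →ₐ[ℂ] N')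

theorem map_im' : g (im N) = im N' := g.commutes _

theorem map_lam (x : N) : g (lam x) = lam (g x) := by
  unfold lam
  rw [map_div₀, map_add, map_inv₀, map_ofNat]

theorem map_om (x y : N) : g (om x y) = om (g x) (g y) := by
  unfold om
  simp only [map_div₀, map_add, map_mul, map_one, map_im']

theorem map_zS (x y : N) : g (zS x y) = zS (g x) (g y) := by
  unfold zS
  rw [map_pow, map_om]

theorem map_zX (x y : N) : g (zX x y) = zX (g x) (g y) := by
  unfold zX
  simp only [map_mul, map_div₀, map_sub, map_add, map_one, map_om, map_zS]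

theorem map_lv' (s : N) : g (lv s) = lv (g s) := by
  unfold lv
  simp only [map_div₀, map_pow, map_add, map_one]

theorem map_zF (x y : N) : g (zF x y) = zF (g x) (g y) := by
  unfold zF
  simp only [map_mul, map_sub, map_pow, map_lv', map_zS, map_zX, map_ofNat]

theorem map_zdet {R S : Type} [CommRing R] [CommRing S] (φ : R →+* S) (m : Fin 10 → R)
    (a b c d : R) : φ (zdet m a b c d) = zdet (fun i => φ (m i)) (φ a) (φ b) (φ c) (φ d) := by
  unfold zdet e00 e01 e11 e02 e12 e22 f00 f11 f02 f12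
  simp only [map_add, map_mul, map_pow, map_neg, map_ofNat]

theorem map_zD (m : Fin 10 → ℂ) (x y : N) : g (zD m x y) = zD m (g x) (g y) := by
  unfold zD
  have h := map_zdet (g : N →+* N') (zm N m) 1 (lam x + im N * lam y) (lam x - im N * lam y)
    (lam (x * y))
  have h2 : (fun i => (g : N →+* N') (zm N m i)) = zm N' m := by
    funext i
    exact g.commutes _
  rw [h2] at h
  refine h.trans ?_
  simp only [RingHom.coe_coe, map_add, map_sub, map_mul, map_one, map_im', map_lam]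

theorem map_dz {R S : Type} [CommRing R] [CommRing S] (φ : R →+* S) (j : R) (m : Fin 10 → R)
    (l : R) (i : Fin 10) : φ (dz j m l i) = dz (φ j) (fun i => φ (m i)) (φ l) i := by
  unfold dz e00 e01 e11 e02 e12 e22 f00 f11 f02 f12
  fin_cases i <;>
    simp only [Fin.zero_eta, Fin.mk_one, Fin.reduceFinMk, Matrix.cons_val, map_add, map_sub,
      map_mul, map_pow, map_neg, map_ofNat, Matrix.cons_val_zero, Matrix.cons_val_one]

/-- the quartic over the field -/
theorem aeval_zP (m : Fin 10 → ℂ) (l : N) (i : Fin 5) :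
    aeval l (zP m i) = tq (dz (im N) (zm N m) l) l i := by
  have h := map_tq ((aeval l : ℂ[X] →ₐ[ℂ] N) : ℂ[X] →+* N)
    (dz (C Complex.I) (fun i => C (m i)) X) X i
  refine h.trans ?_
  have h1 : ((aeval l : ℂ[X] →ₐ[ℂ] N) : ℂ[X] →+* N) X = l := aeval_X l
  have h2 : (fun k => ((aeval l : ℂ[X] →ₐ[ℂ] N) : ℂ[X] →+* N)
      (dz (C Complex.I) (fun i => (C (m i) : ℂ[X])) X k)) = dz (im N) (zm N m) l := by
    funext k
    rw [map_dz, h1]
    have h3 : ((aeval l : ℂ[X] →ₐ[ℂ] N) : ℂ[X] →+* N) (C Complex.I) = im N := aeval_C l _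
    have h4 : (fun i => ((aeval l : ℂ[X] →ₐ[ℂ] N) : ℂ[X] →+* N) (C (m i))) = zm N m := by
      funext i
      exact aeval_C l _
    rw [h3, h4]
  rw [h1, h2]

end Nat

section Generic

variable {N : Type} [Field N] [Algebra ℂ N] [CharZero N] [IsAlgClosed N] {x y w : N}

/-- The curve: `Y = F w` lies on the quartic. -/
theorem NZ.curve (h : NZ x y) (m : Fin 10 → ℂ) (hw : w ^ 2 = zD m x y) :
    (zF x y * w) ^ 2 = qv (fun i => aeval (lv (zS x y)) (zP m i)) (zX x y) := by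
  have h1 : (fun i => aeval (lv (zS x y)) (zP m i)) =
      tq (dz (im N) (zm N m) (lv (zS x y))) (lv (zS x y)) := funext fun i => aeval_zP m _ i
  rw [h1, ← h.curve_eq m, mul_pow, hw]

theorem im_mem (M : IntermediateField ℂ N) : im N ∈ M := M.algebraMap_mem _

theorem nz_of_generic (hx : Transcendental ℂ x) (hy : y ∉ cl0 {x}) : NZ x y := by
  have mx : x ∈ cl0 ({x} : Set N) := subset_cl0 _ rfl
  have mj : im N ∈ cl0 ({x} : Set N) := im_mem _
  have hx0 : x ≠ 0 := by
    rintro rfl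
    exact hx isAlgebraic_zero
  have hj := im_sq (N := N)
  have hj0 := im_ne (N := N)
  refine ⟨hx0, ?_, ?_, ?_, ?_, ?_⟩
  · rintro rfl
    exact hy (zero_mem _)
  · intro h0
    apply hy
    have h1 : y = -(im N * x)⁻¹ := by
      rw [eq_neg_iff_add_eq_zero]
      have := mul_inv_cancel₀ (mul_ne_zero hj0 hx0)
      refine mul_left_cancel₀ (mul_ne_zero hj0 hx0) ?_
      linear_combination h0 + this
    rw [h1]
    exact neg_mem (inv_mem (mul_mem mj mx))
  · intro h0
    apply hy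
    have h1 : y = -im N * x⁻¹ := by
      refine mul_left_cancel₀ hx0 ?_
      have := mul_inv_cancel₀ hx0
      linear_combination h0 + im N * this
    rw [h1]
    exact mul_mem (neg_mem mj) (inv_mem mx)
  · intro h0
    have h1 : (x * y - 1) * (x * y + 1) = 0 := by linear_combination h0
    apply hy
    rcases mul_eq_zero.1 h1 with h2 | h2
    · have h3 : y = x⁻¹ := by
        refine mul_left_cancel₀ hx0 ?_
        rw [mul_inv_cancel₀ hx0]
        linear_combination h2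
      rw [h3]
      exact inv_mem mx
    · have h3 : y = -x⁻¹ := by
        refine mul_left_cancel₀ hx0 ?_
        have := mul_inv_cancel₀ hx0
        linear_combination h2 + this
      rw [h3]
      exact neg_mem (inv_mem mx)
  · intro h0
    have hy0 : y ≠ 0 := by
      rintro rfl
      exact hy (zero_mem _)
    have h1 : x ^ 2 * y + y + im N * (x * y ^ 2 + x) = 0 := by
      have h2 : 2 * (x * y) * (lam x + im N * lam y) =
          x ^ 2 * y + y + im N * (x * y ^ 2 + x) := by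
        unfold lam
        field_simp
      rw [← h2, h0, mul_zero]
    apply hy
    refine G4.root_mem (closed_cl0 _) (c := ![im N * x, x ^ 2 + 1, im N * x, 0, 0]) ?_
      ⟨0, mul_ne_zero hj0 hx0⟩ ?_
    · intro i
      fin_cases i
      · exact mul_mem mj mx
      · exact add_mem (pow_mem mx 2) (one_mem _)
      · exact mul_mem mj mx
      · exact zero_mem _
      · exact zero_mem _
    · change im N * x + (x ^ 2 + 1) * y + im N * x * y ^ 2 + 0 * y ^ 3 + 0 * y ^ 4 = 0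
      linear_combination h1

theorem sq_mem' {M : IntermediateField ℂ N} (hM : Closed M) {u : N} (hu : u ^ 2 ∈ M) : u ∈ M := by
  refine G4.root_mem hM (c := ![-u ^ 2, 0, 1, 0, 0]) ?_ ⟨2, one_ne_zero⟩ ?_
  · intro i
    fin_cases i
    · exact neg_mem hu
    · exact zero_mem _
    · exact one_mem _
    · exact zero_mem _
    · exact zero_mem _
  · change -u ^ 2 + 0 * u + 1 * u ^ 2 + 0 * u ^ 3 + 0 * u ^ 4 = 0
    ring

theorem NZ.xy_mem (h : NZ x y) {M : IntermediateField ℂ N} (hM : Closed M)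
    (hs : zS x y ∈ M) : x * y ∈ M := by
  have hj := im_sq (N := N)
  have mj : im N ∈ M := im_mem _
  have mo : om x y ∈ M := sq_mem' hM hs
  have h1 := h.om_k
  have h2 : 1 - im N * om x y ≠ 0 := by
    intro h4
    have h5 : om x y = -im N := by linear_combination im N * h4 + om x y * hj
    rw [h5] at h1
    have h6 : 2 * im N = 0 := by linear_combination -h1 - (x * y) * hj
    exact mul_ne_zero two_ne_zero im_ne h6
  have h3 : x * y = (om x y - im N) / (1 - im N * om x y) := by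
    rw [eq_div_iff h2]
    linear_combination -h1
  rw [h3]
  exact div_mem (sub_mem mo mj) (sub_mem (one_mem _) (mul_mem mj mo))

/-- Everything is algebraic over a closed field that contains `s` and `X`. -/
theorem NZ.mem (h : NZ x y) {M : IntermediateField ℂ N} (hM : Closed M) (hs : zS x y ∈ M)
    (hX : zX x y ∈ M) : x ∈ M ∧ y ∈ M := by
  have mo : om x y ∈ M := sq_mem' hM hs
  have hx := h.x0
  have hy := h.y0
  have m1 := h.xy_mem hM hs
  have hd := h.den
  have hs1 := h.s_sub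
  have hs2 := h.s_add
  have m2 : (y - x * om x y) / (y + x * om x y) ∈ M := by
    have h3 : (y - x * om x y) / (y + x * om x y) =
        zX x y * ((zS x y - 1) / (zS x y + 1)) := by
      unfold zX
      rw [mul_assoc, div_mul_div_comm, mul_comm (zS x y + 1), div_self
        (mul_ne_zero hs1 (by rwa [add_comm])), mul_one]
    rw [h3]
    exact mul_mem hX (div_mem (sub_mem hs (one_mem _)) (add_mem hs (one_mem _)))
  set r : N := (y - x * om x y) / (y + x * om x y) with hr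
  have h4 : r * (y + x * om x y) = y - x * om x y := div_mul_cancel₀ _ hd
  have h5 : (1 - r) * y = (1 + r) * om x y * x := by linear_combination -h4
  have h6 : 1 - r ≠ 0 := by
    intro h7
    rw [h7, zero_mul] at h5
    have h8 : 1 + r ≠ 0 := by
      intro h9
      have : (2 : N) = 0 := by linear_combination h7 + h9
      exact two_ne_zero this
    exact mul_ne_zero (mul_ne_zero h8 h.om_ne) hx h5.symm
  have h7 : x ^ 2 * ((1 + r) * om x y) = (1 - r) * (x * y) := by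
    linear_combination -x * h5
  have h8 : (1 + r) * om x y ≠ 0 := by
    intro h9
    rw [h9, mul_zero] at h7
    exact mul_ne_zero h6 (mul_ne_zero hx hy) h7.symm
  have m3 : x ∈ M := by
    apply sq_mem' hM
    rw [eq_div_of_mul_eq h8 h7]
    exact div_mem (mul_mem (sub_mem (one_mem _) m2) m1)
      (mul_mem (add_mem (one_mem _) m2) mo)
  refine ⟨m3, ?_⟩
  have h9 : y = x * y / x := by rw [mul_div_cancel_left₀ _ hx]
  rw [h9]
  exact div_mem m1 m3

omit [CharZero N] in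
theorem pair0 {u v : N} : AlgebraicIndependent ℂ ![u, v] ↔
    Transcendental ℂ u ∧ v ∉ cl0 {u} := by
  rw [pair_iff', mem_cl0]
  rfl

/-- Generic points of the plane give generic points of the `(s, X)`-plane. -/
theorem generic (hx : Transcendental ℂ x) (hy : y ∉ cl0 {x}) :
    Transcendental ℂ (zS x y) ∧ zX x y ∉ cl0 {zS x y} := by
  have h := nz_of_generic hx hy
  have mx : x ∈ cl0 ({x} : Set N) := subset_cl0 _ rfl
  have h1 : zS x y ∉ cl0 {x} := by
    intro h2
    have h3 := h.xy_mem (closed_cl0 _) h2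
    apply hy
    have h9 : y = x * y / x := by rw [mul_div_cancel_left₀ _ h.x0]
    rw [h9]
    exact div_mem h3 mx
  have h2 := pair_swap (pair0.2 ⟨hx, h1⟩)
  obtain ⟨h3, h4⟩ := pair0.1 h2
  exact ⟨h3, fun h5 => h4 (h.mem (closed_cl0 {zS x y}) (subset_cl0 _ (Set.mem_singleton _)) h5).1⟩

theorem generic_of_ind (h : AlgebraicIndependent ℂ ![x, y]) :
    NZ x y ∧ AlgebraicIndependent ℂ ![zS x y, zX x y] := by
  obtain ⟨h1, h2⟩ := pair0.1 h
  exact ⟨nz_of_generic h1 h2, pair0.2 (generic h1 h2)⟩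

end Generic

end Vale.Agent.P297.H55.T8
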