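import Vale.Agent.P297.H55.T8F
import Vale.Agent.P297.H637.PsiDefs
import Vale.Agent.P297.H637.KAbs

/-!
The web of quadrics of the numerical Campedelli surfaces with fundamental group `ℤ/8`: the
determinant, the action of the group, the lifts of a point of the twin.
-/

set_option linter.unusedSectionVars false

open IntermediateField Polynomial

namespace Vale.Agent.P297.H55.T8

open Vale.Agent.P297 Vale.Agent.P297.Gen Vale.Agent.P297.G4 Vale.Agent.P297.H10
open Vale.Agent.P297.Z3 Vale.Agent.P297.C8 Vale.Agent.P297.H637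

/-- The web of quadrics; `m = (a₁, a₂, b₁, b₂, b₃, c₁, c₂, d₁, d₂, d₃)`. -/
noncomputable def zweb (m : Fin 10 → ℂ) : Web :=
  ![!![0, 0, 0, m 0 / 2; 0, 0, m 1 / 2, 0; 0, m 1 / 2, 0, 0; m 0 / 2, 0, 0, 0],
    !![m 2, m 9 / 2, 0, 0; m 9 / 2, m 3, 0, 0; 0, 0, m 7, m 4 / 2; 0, 0, m 4 / 2, m 8],
    !![Complex.I * m 2, -(Complex.I * (m 9 / 2)), 0, 0;
       -(Complex.I * (m 9 / 2)), Complex.I * m 3, 0, 0;
       0, 0, -(Complex.I * m 7), Complex.I * (m 4 / 2);
       0, 0, Complex.I * (m 4 / 2), -(Complex.I * m 8)],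
    !![0, 0, m 5 / 2, 0; 0, 0, 0, m 6 / 2; m 5 / 2, 0, 0, 0; 0, m 6 / 2, 0, 0]]

theorem zweb_symm (m : Fin 10 → ℂ) (i : Fin 4) : (zweb m i).IsSymm := by
  rw [Matrix.IsSymm]
  ext a b
  rw [Matrix.transpose_apply]
  fin_cases i <;> fin_cases a <;> fin_cases b <;> rfl

section

variable {N : Type} [Field N] [Algebra ℂ N]

theorem MM_zweb [CharZero N] (m : Fin 10 → ℂ) (x y : N) :
    (2 : N) • MM (zweb m) x y = zmat (zm N m) 1 (lam x + im N * lam y) (lam x - im N * lam y)
      (lam (x * y)) := by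
  have h2 : algebraMap ℂ N 2 = 2 := map_ofNat _ 2
  ext a b
  rw [Matrix.smul_apply, smul_eq_mul, MM, Fin.sum_univ_four]
  fin_cases a <;> fin_cases b <;>
    simp [zweb, zmat, C8.lam, lam, zm, im, h2] <;> ring

/-- The determinant. -/
theorem det_MM [CharZero N] (m : Fin 10 → ℂ) (x y : N) :
    16 * (MM (zweb m) x y).det = zD m x y := by
  have h := congrArg Matrix.det (MM_zweb m x y)
  rw [Matrix.det_smul, Fintype.card_fin, det_zmat] at h
  rw [zD, ← h]
  norm_num

/-- the bilinear map -/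
theorem qb_zweb [CharZero N] (m : Fin 10 → ℂ) (o u : Fin 4 → N) : qb (zweb m) o u =
    ![zm N m 0 / 2 * (o 0 * u 3 + o 3 * u 0) + zm N m 1 / 2 * (o 1 * u 2 + o 2 * u 1),
      zm N m 2 * (o 0 * u 0) + zm N m 3 * (o 1 * u 1) + zm N m 4 / 2 * (o 2 * u 3 + o 3 * u 2) +
      (zm N m 7 * (o 2 * u 2) + zm N m 8 * (o 3 * u 3) + zm N m 9 / 2 * (o 0 * u 1 + o 1 * u 0)),
      im N * (zm N m 2 * (o 0 * u 0) + zm N m 3 * (o 1 * u 1) +
        zm N m 4 / 2 * (o 2 * u 3 + o 3 * u 2) -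
      (zm N m 7 * (o 2 * u 2) + zm N m 8 * (o 3 * u 3) + zm N m 9 / 2 * (o 0 * u 1 + o 1 * u 0))),
      zm N m 5 / 2 * (o 0 * u 2 + o 2 * u 0) + zm N m 6 / 2 * (o 1 * u 3 + o 3 * u 1)] := by
  have h2 : algebraMap ℂ N 2 = 2 := map_ofNat _ 2
  funext i
  fin_cases i <;>
    simp [qb_apply, Fin.sum_univ_four, zweb, zm, im, h2] <;> ring

/-- The generator of the group on the space of the quadrics. -/
noncomputable def zA (o : Fin 4 → N) : Fin 4 → N := ![o 0, -o 1, im N * o 2, -(im N * o 3)]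

theorem qb_zA [CharZero N] (m : Fin 10 → ℂ) (o u : Fin 4 → N) :
    qb (zweb m) (zA o) (zA u) = ![-(im N * qb (zweb m) o u 0), -(im N * qb (zweb m) o u 2),
      im N * qb (zweb m) o u 1, im N * qb (zweb m) o u 3] := by
  have hj := im_sq (N := N)
  rw [qb_zweb, qb_zweb]
  funext i
  fin_cases i
  · simp [zA]
    ring
  · simp [zA]
    linear_combination (zm N m 2 * (o 0 * u 0) + zm N m 3 * (o 1 * u 1) -
      zm N m 9 / 2 * (o 0 * u 1 + o 1 * u 0)) * hj
  · simp [zA]
    left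
    linear_combination (-(zm N m 4 / 2 * (o 2 * u 3 + o 3 * u 2) +
      zm N m 7 * (o 2 * u 2) + zm N m 8 * (o 3 * u 3))) * hj
  · simp [zA]
    ring

theorem qq_zA [CharZero N] (m : Fin 10 → ℂ) (o : Fin 4 → N) :
    qq (zweb m) (zA o) = ![-(im N * qq (zweb m) o 0), -(im N * qq (zweb m) o 2),
      im N * qq (zweb m) o 1, im N * qq (zweb m) o 3] := qb_zA m o o

/-- The group acts on the octic. -/
theorem st_zA [CharZero N] (m : Fin 10 → ℂ) (o : Fin 4 → N) :
    st (qq (zweb m) (zA o)) = st (qq (zweb m) o) := by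
  have hj := im_sq (N := N)
  have hj4 : im N ^ 4 = 1 := by
    rw [show im N ^ 4 = (im N ^ 2) ^ 2 by ring, hj]
    ring
  rw [qq_zA]
  simp only [st, Matrix.cons_val]
  linear_combination (qq (zweb m) o 1 ^ 2 * qq (zweb m) o 3 ^ 2 +
    qq (zweb m) o 2 ^ 2 * qq (zweb m) o 3 ^ 2 + qq (zweb m) o 2 ^ 2 * qq (zweb m) o 1 ^ 2 -
    2 * (qq (zweb m) o 0 * qq (zweb m) o 2 * qq (zweb m) o 1 * qq (zweb m) o 3)) * hj4

/-- The action on the lines. -/
theorem mv_zA [CharZero N] (m : Fin 10 → ℂ) {x y : N} (o : Fin 4 → N) :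
    ∑ i, mv y⁻¹ (-x⁻¹) i * vy (qq (zweb m) (zA o)) i =
      ∑ i, mv x y i * vy (qq (zweb m) o) i := by
  have hj := im_sq (N := N)
  rw [qq_zA]
  simp only [Fin.sum_univ_three, vy_zero, vy_one, vy_two, mv, Matrix.cons_val]
  rw [inv_neg, inv_inv]
  linear_combination (-(x * (qq (zweb m) o 1 * qq (zweb m) o 3)) -
    y⁻¹ * (qq (zweb m) o 2 * qq (zweb m) o 3) - qq (zweb m) o 1 * qq (zweb m) o 2) * hj

/-- The action on the quadrics. -/
theorem MB_zA [CharZero N] (m : Fin 10 → ℂ) {x y : N} (o u : Fin 4 → N) :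
    MB (zweb m) y⁻¹ (-x⁻¹) (zA o) (zA u) = -(im N) * MB (zweb m) x y o u := by
  unfold MB
  have h1 : y⁻¹ * -x⁻¹ = -(x * y)⁻¹ := by
    rw [mul_inv]
    ring
  rw [qb_zA]
  simp only [Fin.sum_univ_four, C8.lam, Matrix.cons_val, h1]
  rw [inv_neg, inv_neg, inv_inv, inv_inv, inv_inv]
  ring

/-- the inverse of `zA` -/
noncomputable def zB (o : Fin 4 → N) : Fin 4 → N := ![o 0, -o 1, -(im N * o 2), im N * o 3]

theorem zA_zB (o : Fin 4 → N) : zA (zB o) = o := by
  have hj := im_sq (N := N)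
  funext i
  fin_cases i
  · rfl
  · exact neg_neg _
  · change im N * -(im N * o 2) = o 2
    linear_combination -o 2 * hj
  · change -(im N * (im N * o 3)) = o 3
    linear_combination -o 3 * hj

theorem zB_zA (o : Fin 4 → N) : zB (zA o) = o := by
  have hj := im_sq (N := N)
  funext i
  fin_cases i
  · rfl
  · exact neg_neg _
  · change -(im N * (im N * o 2)) = o 2
    linear_combination -o 2 * hj
  · change im N * -(im N * o 3) = o 3
    linear_combination -o 3 * hj

theorem det_zA (z u d e : Fin 4 → N) :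
    Matrix.det ![zA z, zA u, zA d, zA e] = -Matrix.det ![z, u, d, e] := by
  have hj := im_sq (N := N)
  have h : (Matrix.of ![zA z, zA u, zA d, zA e] : Matrix (Fin 4) (Fin 4) N) =
      Matrix.of ![z, u, d, e] * Matrix.diagonal ![1, -1, im N, -im N] := by
    ext i k
    rw [Matrix.mul_diagonal]
    fin_cases i <;> fin_cases k <;> simp [zA] <;> ring
  have h1 := congrArg Matrix.det h
  rw [Matrix.det_mul, Matrix.det_diagonal, Fin.prod_univ_four] at h1
  simp only [Matrix.cons_val] at h1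
  change Matrix.det ![zA z, zA u, zA d, zA e] = Matrix.det ![z, u, d, e] * _ at h1
  linear_combination h1 + (Matrix.det ![z, u, d, e]) * hj

/-- The action on the rulings. -/
theorem Rul_zA [CharZero N] (m : Fin 10 → ℂ) {x y w : N} (z u : Fin 4 → N) :
    RulB (zweb m) y⁻¹ (-x⁻¹) w (zA z) (zA u) ↔ RulB (zweb m) x y w z u := by
  have hj := im_sq (N := N)
  have key : ∀ d e : Fin 4 → N,
      (MB (zweb m) y⁻¹ (-x⁻¹) (zA z) (zA d) * MB (zweb m) y⁻¹ (-x⁻¹) (zA u) (zA e) -
        MB (zweb m) y⁻¹ (-x⁻¹) (zA z) (zA e) * MB (zweb m) y⁻¹ (-x⁻¹) (zA u) (zA d) =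
        w * Matrix.det ![zA z, zA u, zA d, zA e]) ↔
      (MB (zweb m) x y z d * MB (zweb m) x y u e - MB (zweb m) x y z e * MB (zweb m) x y u d =
        w * Matrix.det ![z, u, d, e]) := by
    intro d e
    rw [MB_zA, MB_zA, MB_zA, MB_zA, det_zA]
    constructor
    · intro h
      linear_combination -h + (MB (zweb m) x y z d * MB (zweb m) x y u e -
        MB (zweb m) x y z e * MB (zweb m) x y u d) * hj
    · intro h
      linear_combination -h + (MB (zweb m) x y z d * MB (zweb m) x y u e -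
        MB (zweb m) x y z e * MB (zweb m) x y u d) * hj
  constructor
  · intro h d e
    exact (key d e).1 (h (zA d) (zA e))
  · intro h d e
    have h1 := (key (zB d) (zB e)).2 (h (zB d) (zB e))
    rwa [zA_zB, zA_zB] at h1

/-- the generator as a matrix -/
noncomputable def zAm (N : Type) [Field N] [Algebra ℂ N] : Matrix (Fin 4) (Fin 4) N :=
  Matrix.diagonal ![1, -1, im N, -im N]

theorem zAm_mulVec (o : Fin 4 → N) : (zAm N).mulVec o = zA o := by
  funext i
  rw [zAm, Matrix.mulVec_diagonal]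
  fin_cases i <;> simp [zA]

theorem det_zAm : (zAm N).det = -1 := by
  have hj := im_sq (N := N)
  rw [zAm, Matrix.det_diagonal, Fin.prod_univ_four]
  simp only [Matrix.cons_val]
  linear_combination hj

theorem MM_zA [CharZero N] (m : Fin 10 → ℂ) (x y : N) :
    (zAm N).transpose * MM (zweb m) y⁻¹ (-x⁻¹) * zAm N = (-im N) • MM (zweb m) x y := by
  have h2 : (2 : N) ≠ 0 := two_ne_zero
  have h := MM_zweb m x y
  have h' := MM_zweb m y⁻¹ (-x⁻¹)
  have e1 : MM (zweb m) x y = (2 : N)⁻¹ • ((2 : N) • MM (zweb m) x y) := by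
    rw [smul_smul, inv_mul_cancel₀ h2, one_smul]
  have e2 : MM (zweb m) y⁻¹ (-x⁻¹) = (2 : N)⁻¹ • ((2 : N) • MM (zweb m) y⁻¹ (-x⁻¹)) := by
    rw [smul_smul, inv_mul_cancel₀ h2, one_smul]
  rw [e1, e2, h, h', Matrix.mul_smul, Matrix.smul_mul, smul_comm (-im N)]
  congr 1
  have h1 : y⁻¹ * -x⁻¹ = -(x * y)⁻¹ := by
    rw [mul_inv]
    ring
  have hj := im_sq (N := N)
  rw [h1, lam_inv, lam_neg, lam_inv, lam_neg, lam_inv, zAm, Matrix.diagonal_transpose]
  ext a b
  rw [Matrix.mul_diagonal, Matrix.diagonal_mul, Matrix.smul_apply, smul_eq_mul]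
  generalize lam x = u
  generalize lam y = v
  generalize lam (x * y) = r
  generalize im N = j at *
  fin_cases a <;> fin_cases b <;> simp [zmat]
  · linear_combination (2 * zm N m 2 * v) * hj
  · linear_combination (zm N m 9 * v) * hj
  · ring
  · ring
  · linear_combination (zm N m 9 * v) * hj
  · linear_combination (2 * zm N m 3 * v) * hj
  · ring
  · ring
  · linear_combination (2 * zm N m 7 * j * u) * hj
  · linear_combination (-(zm N m 4 * j * u)) * hj
  · linear_combination (-(zm N m 4 * j * u)) * hj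
  · linear_combination (2 * zm N m 8 * j * u) * hj

end

section lifts

variable {N : Type} [Field N] [Algebra ℂ N] [CharZero N] {x y w : N}

/-- The coordinates of a point of the twin. -/
theorem NZ.curve' (h : NZ x y) (m : Fin 10 → ℂ) (hw : w ^ 2 = (MM (zweb m) x y).det) :
    (zF x y * (4 * w)) ^ 2 = qv (cP (zP m) (zS x y)) (zX x y) := by
  have h1 : (4 * w) ^ 2 = zD m x y := by
    rw [← det_MM, mul_pow, hw]
    norm_num
  have h2 : cP (zP m) (zS x y) =
      tq (dz (im N) (zm N m) (lv (zS x y))) (lv (zS x y)) := funext fun i => aeval_zP m _ i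
  rw [h2, ← h.curve_eq m, mul_pow, h1]

theorem zS_mem (x y : N) : zS x y ∈ IntermediateField.adjoin ℂ (Set.range ![x, y]) := by
  have hx : x ∈ IntermediateField.adjoin ℂ (Set.range ![x, y]) :=
    subset_adjoin _ _ ⟨0, rfl⟩
  have hy : y ∈ IntermediateField.adjoin ℂ (Set.range ![x, y]) :=
    subset_adjoin _ _ ⟨1, rfl⟩
  have hj : im N ∈ IntermediateField.adjoin ℂ (Set.range ![x, y]) :=
    IntermediateField.algebraMap_mem _ _
  exact pow_mem (div_mem (add_mem (mul_mem hx hy) hj)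
    (add_mem (one_mem _) (mul_mem hj (mul_mem hx hy)))) 2

theorem zX_mem (x y : N) : zX x y ∈ IntermediateField.adjoin ℂ (Set.range ![x, y]) := by
  have hx : x ∈ IntermediateField.adjoin ℂ (Set.range ![x, y]) :=
    subset_adjoin _ _ ⟨0, rfl⟩
  have hy : y ∈ IntermediateField.adjoin ℂ (Set.range ![x, y]) :=
    subset_adjoin _ _ ⟨1, rfl⟩
  have hj : im N ∈ IntermediateField.adjoin ℂ (Set.range ![x, y]) :=
    IntermediateField.algebraMap_mem _ _
  have ho : om x y ∈ IntermediateField.adjoin ℂ (Set.range ![x, y]) :=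
    div_mem (add_mem (mul_mem hx hy) hj) (add_mem (one_mem _) (mul_mem hj (mul_mem hx hy)))
  have hs := zS_mem x y
  exact mul_mem (div_mem (sub_mem hy (mul_mem hx ho)) (add_mem hy (mul_mem hx ho)))
    (div_mem (add_mem hs (one_mem _)) (sub_mem hs (one_mem _)))

theorem ind_of (h : AlgebraicIndependent ℂ ![zS x y, zX x y]) :
    AlgebraicIndependent ℂ ![x, y] := by
  obtain ⟨σ, hσ⟩ := H777.exists_indep ![x, y] _ h (by
    intro i
    fin_cases i
    · exact zS_mem x y
    · exact zX_mem x y)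
  have hinj : Function.Injective σ := by
    intro i k hik
    exact hσ.injective (by simp only [hik])
  have hbij : Function.Bijective σ := Finite.injective_iff_bijective.1 hinj
  have h1 := (algebraicIndependent_equiv (R := ℂ) (Equiv.ofBijective σ hbij)
    (f := ![x, y])).1 hσ
  exact h1

/-- The fields of transcendence degree at least two have a lift of every generic point. -/
theorem exists_lift [IsAlgClosed N] {s X : N} (hs : Transcendental ℂ s) (hX : X ∉ cl0 {s}) :
    ∃ x y : N, NZ x y ∧ zS x y = s ∧ zX x y = X := by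
  have hj := im_sq (N := N)
  have hj0 := im_ne (N := N)
  have h2 : (2 : N) ≠ 0 := two_ne_zero
  have ms : s ∈ cl0 ({s} : Set N) := subset_cl0 _ rfl
  have hst : ∀ c : ℂ, s ≠ algebraMap ℂ N c := by
    rintro c rfl
    exact hs (isAlgebraic_algebraMap c)
  have hs0 : s ≠ 0 := by
    have := hst 0
    rwa [map_zero] at this
  have hs1 : s - 1 ≠ 0 := by
    have := hst 1
    rw [map_one] at this
    exact sub_ne_zero.2 this
  have hs2 : s + 1 ≠ 0 := by
    have := hst (-1)
    rw [map_neg, map_one] at this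
    intro h
    exact this (by linear_combination h)
  obtain ⟨o, ho⟩ := IsAlgClosed.exists_pow_nat_eq s (n := 2) two_pos
  have mo : o ∈ cl0 ({s} : Set N) := sq_mem' (closed_cl0 _) (by rw [ho]; exact ms)
  have mj : im N ∈ cl0 ({s} : Set N) := im_mem _
  have ho0 : o ≠ 0 := by
    rintro rfl
    exact hs0 (by rw [← ho]; ring)
  have ho1 : 1 - im N * o ≠ 0 := by
    intro h
    apply hs2
    rw [← ho]
    linear_combination (1 + im N * o) * h + o ^ 2 * hj
  have ho2 : o - im N ≠ 0 := by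
    intro h
    apply hs2
    rw [← ho]
    linear_combination (o + im N) * h + hj
  obtain ⟨t, ht⟩ : ∃ t : N, t * (1 - im N * o) = o - im N := ⟨_, div_mul_cancel₀ _ ho1⟩
  have ht0 : t ≠ 0 := by
    rintro rfl
    exact ho2 (by rw [← ht, zero_mul])
  obtain ⟨r, hr⟩ : ∃ r : N, r * (s + 1) = X * (s - 1) := ⟨_, div_mul_cancel₀ _ hs2⟩
  have hrm : r ∉ cl0 ({s} : Set N) := by
    intro h
    apply hX
    have h1 : X = r * (s + 1) / (s - 1) := by rw [hr, mul_div_cancel_right₀ _ hs1]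
    rw [h1]
    exact div_mem (mul_mem h (add_mem ms (one_mem _))) (sub_mem ms (one_mem _))
  have hr1 : 1 - r ≠ 0 := by
    intro h
    apply hrm
    have h1 : r = 1 := by linear_combination -h
    rw [h1]
    exact one_mem _
  have hr2 : 1 + r ≠ 0 := by
    intro h
    apply hrm
    have h1 : r = -1 := by linear_combination h
    rw [h1]
    exact neg_mem (one_mem _)
  obtain ⟨ρ, hρ⟩ : ∃ ρ : N, ρ * (1 - r) = o * (1 + r) := ⟨_, div_mul_cancel₀ _ hr1⟩
  have hρ0 : ρ ≠ 0 := by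
    rintro rfl
    rw [zero_mul] at hρ
    exact mul_ne_zero ho0 hr2 hρ.symm
  obtain ⟨x, hx⟩ := IsAlgClosed.exists_pow_nat_eq (t / ρ) (n := 2) two_pos
  have hx0 : x ≠ 0 := by
    rintro rfl
    have : t / ρ = 0 := by rw [← hx]; ring
    exact div_ne_zero ht0 hρ0 this
  have hxy : x * (ρ * x) = t := by
    have h1 : x * (ρ * x) = ρ * x ^ 2 := by ring
    rw [h1, hx, mul_div_cancel₀ _ hρ0]
  have hk : (1 + im N * t) * (1 - im N * o) = 2 := by
    linear_combination im N * ht - hj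
  have hk0 : 1 + im N * t ≠ 0 := by
    intro h
    rw [h, zero_mul] at hk
    exact h2 hk.symm
  have hto : (t + im N) * (1 - im N * o) = 2 * o := by
    linear_combination ht - o * hj
  have hto0 : t + im N ≠ 0 := by
    intro h
    rw [h, zero_mul] at hto
    exact mul_ne_zero h2 ho0 hto.symm
  have hot : o * (1 + im N * t) = t + im N := by
    have h3 : (o * (1 + im N * t)) * (1 - im N * o) = (t + im N) * (1 - im N * o) := by
      rw [hto, mul_assoc, hk]
      ring
    exact mul_right_cancel₀ ho1 h3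
  have hom : om x (ρ * x) = o := by
    unfold om
    rw [hxy, div_eq_iff hk0, hot]
  have hd : ρ * x + x * o ≠ 0 := by
    intro h
    have h3 : x * (ρ + o) = 0 := by linear_combination h
    have h4 := (mul_eq_zero.1 h3).resolve_left hx0
    have h5 : 2 * o = 0 := by linear_combination (1 - r) * h4 - hρ
    exact mul_ne_zero h2 ho0 h5
  have hNZ : NZ x (ρ * x) := by
    refine ⟨hx0, mul_ne_zero hρ0 hx0, ?_, ?_, ?_, ?_⟩
    · rw [hxy]
      exact hk0
    · rw [hxy]
      exact hto0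
    · rw [hxy]
      intro h
      have h3 : 2 * (s - 1) = 0 := by
        rw [← ho]
        linear_combination (1 - im N * o) ^ 2 * h - (t * (1 - im N * o) + (o - im N)) * ht +
          (o ^ 2 - 1) * hj
      exact mul_ne_zero h2 hs1 h3
    · intro h
      have hy0 : ρ * x ≠ 0 := mul_ne_zero hρ0 hx0
      have h3 : 2 * (x * (ρ * x)) * (lam x + im N * lam (ρ * x)) =
          x ^ 2 * (ρ * x) + ρ * x + im N * (x * (ρ * x) ^ 2 + x) := by
        generalize ρ * x = y at *
        unfold lam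
        field_simp
      rw [h, mul_zero] at h3
      have h4 : (ρ * x + x * o) * (1 + im N * t) = 0 := by
        rw [h3]
        linear_combination x * hot - (x + im N * (ρ * x)) * hxy
      rcases mul_eq_zero.1 h4 with h5 | h5
      · exact hd h5
      · exact hk0 h5
  refine ⟨x, ρ * x, hNZ, ?_, ?_⟩
  · rw [zS, hom, ho]
  · have h3 : zX x (ρ * x) = (ρ * x - x * o) / (ρ * x + x * o) * ((s + 1) / (s - 1)) := by
      rw [zX, hom, zS, hom, ho]
    rw [h3, div_mul_div_comm, div_eq_iff (mul_ne_zero hd hs1)]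
    have h4 : ρ * x - x * o = r * (ρ * x + x * o) := by linear_combination x * hρ
    rw [h4]
    linear_combination (ρ * x + x * o) * hr

/-- **The lifts of a generic point of the twin.** -/
theorem lifts [IsAlgClosed N] (m : Fin 10 → ℂ) {s X Y : N} (h : GenT (zP m) s X Y) :
    ∃ k : Fin 4 → N × N × N, Function.Injective k ∧ ∀ x y w : N,
      (AlgebraicIndependent ℂ ![x, y] ∧ w ^ 2 = (MM (zweb m) x y).det ∧ zS x y = s ∧
        zX x y = X ∧ zF x y * (4 * w) = Y) ↔ ∃ i, (x, y, w) = k i := by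
  obtain ⟨x₀, y₀, h0, hS, hX⟩ := exists_lift h.tr h.notMem
  have hF := h0.F_ne
  have h4 : (4 : N) ≠ 0 := by norm_num
  have h16 : (16 : N) ≠ 0 := by norm_num
  have hg := h0.g
  have hgg := h0.g.g
  have hggg := h0.g.g.g
  -- the four lifts
  have key : ∀ x y : N, NZ x y → zS x y = s → zX x y = X →
      AlgebraicIndependent ℂ ![x, y] ∧ zF x y = zF x₀ y₀ ∧
      (Y / (4 * zF x₀ y₀)) ^ 2 = (MM (zweb m) x y).det := by
    intro x y hxy h1 h2
    have h3 : zF x y = zF x₀ y₀ := by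
      unfold zF
      rw [h1, h2, hS, hX]
    refine ⟨ind_of ?_, h3, ?_⟩
    · rw [h1, h2]
      exact pair0.2 ⟨h.tr, h.notMem⟩
    · have h5 := hxy.curve_eq m
      rw [h1, h2, h3] at h5
      have h6 := h.eq
      have h7 : cP (zP m) s = tq (dz (im N) (zm N m) (lv s)) (lv s) :=
        funext fun i => aeval_zP m _ i
      rw [h7, ← h5, ← det_MM] at h6
      rw [div_pow, h6, mul_pow]
      field_simp
      ring
  have hx0 := h0.x0
  have hy0 := h0.y0
  have h2 : (2 : N) ≠ 0 := two_ne_zero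
  have e1 : (-x₀⁻¹)⁻¹ = -x₀ := by rw [inv_neg, inv_inv]
  have e2 : -(y₀⁻¹)⁻¹ = -y₀ := by rw [inv_inv]
  have e3 : (-y₀)⁻¹ = -y₀⁻¹ := by rw [inv_neg]
  have e4 : -(-x₀)⁻¹ = x₀⁻¹ := by rw [inv_neg, neg_neg]
  rw [e1, e2] at hgg
  have hSg : zS y₀⁻¹ (-x₀⁻¹) = s ∧ zX y₀⁻¹ (-x₀⁻¹) = X := ⟨h0.gS.trans hS, h0.gX.trans hX⟩
  have hSgg : zS (-x₀) (-y₀) = s ∧ zX (-x₀) (-y₀) = X := by
    have k1 := hg.gS
    have k2 := hg.gX
    rw [e1, e2] at k1 k2
    exact ⟨k1.trans hSg.1, k2.trans hSg.2⟩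
  have hggg' : NZ (-y₀⁻¹) x₀⁻¹ := by
    have k := hgg.g
    rwa [e3, e4] at k
  have hSggg : zS (-y₀⁻¹) x₀⁻¹ = s ∧ zX (-y₀⁻¹) x₀⁻¹ = X := by
    have k1 := hgg.gS
    have k2 := hgg.gX
    rw [e3, e4] at k1 k2
    exact ⟨k1.trans hSgg.1, k2.trans hSgg.2⟩
  set W : N := Y / (4 * zF x₀ y₀) with hW
  have hWY : zF x₀ y₀ * (4 * W) = Y := by
    rw [hW]
    field_simp
  refine ⟨![(x₀, y₀, W), (-x₀, -y₀, W), (y₀⁻¹, -x₀⁻¹, W), (-y₀⁻¹, x₀⁻¹, W)], ?_, ?_⟩
  · have n1 : x₀ ≠ -x₀ := by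
      intro h1
      exact mul_ne_zero h2 hx0 (by linear_combination h1)
    have n2 : y₀⁻¹ ≠ -y₀⁻¹ := by
      intro h1
      exact mul_ne_zero h2 (inv_ne_zero hy0) (by linear_combination h1)
    have c1 : ∀ u v : N, u ≠ 0 → v ≠ 0 → u = v⁻¹ → v = -u⁻¹ → False := by
      intro u v hu hv h1 h3
      have h5 : u * v = 1 := by rw [h1, inv_mul_cancel₀ hv]
      have h6 : u * v = -1 := by
        rw [h3]
        field_simp
      exact h2 (by linear_combination h6 - h5)
    have c2 : ∀ u v : N, u ≠ 0 → v ≠ 0 → u = -v⁻¹ → v = u⁻¹ → False :=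
      fun u v hu hv h1 h3 => c1 v u hv hu h3 h1
    intro i k hik
    fin_cases i <;> fin_cases k <;>
      simp only [Fin.zero_eta, Fin.mk_one, Fin.reduceFinMk, Matrix.cons_val, Prod.mk.injEq,
        and_true] at hik ⊢
    · exact (n1 hik.1).elim
    · exact (c1 _ _ hx0 hy0 hik.1 hik.2).elim
    · exact (c2 _ _ hx0 hy0 hik.1 hik.2).elim
    · exact (n1 hik.1.symm).elim
    · exact (c2 _ _ hx0 hy0 (by rw [← hik.1, neg_neg]) (neg_injective hik.2)).elim
    · exact (c1 _ _ hx0 hy0 (neg_injective hik.1) (by rw [← hik.2, neg_neg])).elim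
    · exact (c1 _ _ hx0 hy0 hik.1.symm hik.2.symm).elim
    · exact (c2 _ _ hx0 hy0 (by rw [hik.1, neg_neg]) (neg_injective hik.2.symm)).elim
    · exact (n2 hik.1).elim
    · exact (c2 _ _ hx0 hy0 hik.1.symm hik.2.symm).elim
    · exact (c1 _ _ hx0 hy0 (neg_injective hik.1.symm) (by rw [hik.2, neg_neg])).elim
    · exact (n2 hik.1.symm).elim
  · intro x y w
    constructor
    · rintro ⟨h1, h3, h5, h6, h7⟩
      have hNZ := (generic_of_ind h1).1
      have h8 := (key x y hNZ h5 h6).2.1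
      have h9 : w = W := by
        rw [h8, ← hWY] at h7
        exact mul_left_cancel₀ h4 (mul_left_cancel₀ hF h7)
      rcases h0.fib hNZ (h5.trans hS.symm) (h6.trans hX.symm) with
        ⟨k1, k2⟩ | ⟨k1, k2⟩ | ⟨k1, k2⟩ | ⟨k1, k2⟩
      · exact ⟨0, by rw [k1, k2, h9]; rfl⟩
      · exact ⟨1, by rw [k1, k2, h9]; rfl⟩
      · exact ⟨2, by rw [k1, k2, h9]; rfl⟩
      · exact ⟨3, by rw [k1, k2, h9]; rfl⟩
    · rintro ⟨i, hi⟩
      have fin : ∀ u v : N, NZ u v → zS u v = s → zX u v = X → (x, y, w) = (u, v, W) →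
          AlgebraicIndependent ℂ ![x, y] ∧ w ^ 2 = (MM (zweb m) x y).det ∧ zS x y = s ∧
            zX x y = X ∧ zF x y * (4 * w) = Y := by
        intro u v huv h1 h3 h5
        simp only [Prod.mk.injEq] at h5
        obtain ⟨rfl, rfl, rfl⟩ := h5
        obtain ⟨k1, k2, k3⟩ := key _ _ huv h1 h3
        exact ⟨k1, k3, h1, h3, by rw [k2, hWY]⟩
      fin_cases i
      · exact fin _ _ h0 hS hX hi
      · exact fin _ _ hgg hSgg.1 hSgg.2 hi
      · exact fin _ _ hg hSg.1 hSg.2 hi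
      · exact fin _ _ hggg' hSggg.1 hSggg.2 hi

end lifts

end Vale.Agent.P297.H55.T8
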