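import Vale.Agent.P297.H55.T8L
import Vale.Agent.P297.H72.OctA
import Vale.Agent.P297.H572.Half.Zero

/-!
The non-degeneracy of the twin of the numerical Campedelli surfaces with fundamental group `ℤ/8`:
the jacobian is not of the trivial form as soon as its discriminant does not vanish.
-/

set_option linter.unusedSectionVars false

open IntermediateField Polynomial

namespace Vale.Agent.P297.H55.T8

open Vale.Agent.P297 Vale.Agent.P297.Gen Vale.Agent.P297.G4 Vale.Agent.P297.H10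
open Vale.Agent.P297.Z3 Vale.Agent.P297.C8 Vale.Agent.P297.H637

theorem zp_zero (m : Fin 10 → ℂ) : (zp m).eval 0 = 16 * (16 * e11 m) ^ 2 := by
  have h := map_tI (evalRingHom (0 : ℂ)) (dz (C Complex.I) (fun i => C (m i)) X) X
  change (zp m).eval 0 = _ at h
  rw [h, dz_C]
  have h1 : (fun i => (evalRingHom (0 : ℂ)) ((![C (e11 m - e12 m), C (e01 m - e02 m + e12 m),
      C (e00 m + e02 m), C (e12 m), C (e02 m + 2 * Complex.I * f02 m), C (e12 m),
      C (e02 m - 2 * Complex.I * f12 m), -(C (f00 m) * X), C (e22 m) * X,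
      -(C (f11 m) * X)] : Fin 10 → ℂ[X]) i)) = ![e11 m - e12 m, e01 m - e02 m + e12 m,
      e00 m + e02 m, e12 m, e02 m + 2 * Complex.I * f02 m, e12 m,
      e02 m - 2 * Complex.I * f12 m, 0, 0, 0] := by
    funext i
    fin_cases i <;> simp
  rw [h1, coe_evalRingHom, eval_X]
  simp only [tI, tTh, tQ, ta, tb, tg, Matrix.cons_val]
  ring

theorem zq_zero (m : Fin 10 → ℂ) : (zq m).eval 0 = -(128 * (16 * e11 m) ^ 3) := by
  have h := map_tJ (evalRingHom (0 : ℂ)) (dz (C Complex.I) (fun i => C (m i)) X) X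
  change (zq m).eval 0 = _ at h
  rw [h, dz_C]
  have h1 : (fun i => (evalRingHom (0 : ℂ)) ((![C (e11 m - e12 m), C (e01 m - e02 m + e12 m),
      C (e00 m + e02 m), C (e12 m), C (e02 m + 2 * Complex.I * f02 m), C (e12 m),
      C (e02 m - 2 * Complex.I * f12 m), -(C (f00 m) * X), C (e22 m) * X,
      -(C (f11 m) * X)] : Fin 10 → ℂ[X]) i)) = ![e11 m - e12 m, e01 m - e02 m + e12 m,
      e00 m + e02 m, e12 m, e02 m + 2 * Complex.I * f02 m, e12 m,
      e02 m - 2 * Complex.I * f12 m, 0, 0, 0] := by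
    funext i
    fin_cases i <;> simp
  rw [h1, coe_evalRingHom, eval_X]
  simp only [tJ, tTh, tQ, tDe, ta, tb, tg, Matrix.cons_val]
  ring

/-- the linear coefficient of the form of degree four, when `c₁ c₂ = 0` -/
theorem zp_one (m : Fin 10 → ℂ) (h0 : e11 m = 0) :
    (derivative (zp m)).eval 0 = -(768 * e12 m ^ 2) := by
  unfold zp
  rw [dz_C, h0]
  simp only [tI, tTh, tQ, ta, tb, tg, Matrix.cons_val]
  simp [derivative_pow]
  ring

/-- the values of the web, over `ℂ` -/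
theorem qq_zweb (m : Fin 10 → ℂ) (o : Fin 4 → ℂ) : qq (zweb m) o =
    ![m 0 * (o 0 * o 3) + m 1 * (o 1 * o 2),
      m 2 * o 0 ^ 2 + m 3 * o 1 ^ 2 + m 4 * (o 2 * o 3) +
      (m 7 * o 2 ^ 2 + m 8 * o 3 ^ 2 + m 9 * (o 0 * o 1)),
      Complex.I * (m 2 * o 0 ^ 2 + m 3 * o 1 ^ 2 + m 4 * (o 2 * o 3) -
      (m 7 * o 2 ^ 2 + m 8 * o 3 ^ 2 + m 9 * (o 0 * o 1))),
      m 5 * (o 0 * o 2) + m 6 * (o 1 * o 3)] := by
  unfold qq
  rw [qb_zweb]
  have h : zm ℂ m = m := rfl
  have hI : im ℂ = Complex.I := rfl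
  rw [h, hI]
  funext i
  fin_cases i <;> simp <;> ring

theorem coeff_ne (m : Fin 10 → ℂ) (hfin : NoBase (zweb m)) :
    m 2 ≠ 0 ∧ m 3 ≠ 0 ∧ m 7 ≠ 0 ∧ m 8 ≠ 0 := by
  refine ⟨?_, ?_, ?_, ?_⟩
  · intro h
    have h1 := hfin ![1, 0, 0, 0] (by
      rw [qq_zweb]
      funext i
      fin_cases i <;> simp [h])
    exact one_ne_zero (congrFun h1 0)
  · intro h
    have h1 := hfin ![0, 1, 0, 0] (by
      rw [qq_zweb]
      funext i
      fin_cases i <;> simp [h])
    exact one_ne_zero (congrFun h1 1)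
  · intro h
    have h1 := hfin ![0, 0, 1, 0] (by
      rw [qq_zweb]
      funext i
      fin_cases i <;> simp [h])
    exact one_ne_zero (congrFun h1 2)
  · intro h
    have h1 := hfin ![0, 0, 0, 1] (by
      rw [qq_zweb]
      funext i
      fin_cases i <;> simp [h])
    exact one_ne_zero (congrFun h1 3)

theorem c_ne (m : Fin 10 → ℂ) (hfin : NoBase (zweb m)) : ¬ (m 5 = 0 ∧ m 6 = 0) := by
  rintro ⟨h5, h6⟩
  obtain ⟨v, hv, h⟩ := H572.Half.common_zero (k := ℂ) (σ := Fin 4) (τ := Fin 3) (by simp)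
    (fun i => qq (zweb m) (MvPolynomial.X : Fin 4 → MvPolynomial (Fin 4) ℂ) (Fin.castSucc i)) (by
      intro i
      rw [map_qq]
      simp [qq_apply])
  apply hv
  apply hfin
  have h' : ∀ i : Fin 3, qq (zweb m) v (Fin.castSucc i) = 0 := by
    intro i
    have h1 := h i
    rw [map_qq] at h1
    simpa using h1
  funext i
  refine Fin.lastCases ?_ (fun k => h' k) i
  rw [qq_zweb, h5, h6]
  simp

theorem zp_root (m : Fin 10 → ℂ) (hfin : NoBase (zweb m)) (h0 : e11 m = 0) :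
    (derivative (zp m)).eval 0 ≠ 0 := by
  rw [zp_one m h0]
  obtain ⟨h2, h3, h7, h8⟩ := coeff_ne m hfin
  intro h
  have h12 : e12 m = 0 := by
    have h1 : e12 m ^ 2 = 0 := by linear_combination (-1 / 768 : ℂ) * h
    exact pow_eq_zero_iff (two_ne_zero) |>.1 h1
  have h56 : m 5 * m 6 = 0 := by
    have h1 : (m 5 * m 6) ^ 2 = 0 := by
      unfold e11 at h0
      linear_combination h0
    exact pow_eq_zero_iff (two_ne_zero) |>.1 h1
  apply c_ne m hfin
  unfold e12 at h12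
  rcases mul_eq_zero.1 h56 with h5 | h6
  · refine ⟨h5, ?_⟩
    have h1 : m 7 * m 2 * m 6 ^ 2 = 0 := by
      rw [h5] at h12
      linear_combination (-1 / 4 : ℂ) * h12
    exact pow_eq_zero_iff two_ne_zero |>.1
      ((mul_eq_zero.1 h1).resolve_left (mul_ne_zero h7 h2))
  · refine ⟨?_, h6⟩
    have h1 : m 8 * m 3 * m 5 ^ 2 = 0 := by
      rw [h6] at h12
      linear_combination (-1 / 4 : ℂ) * h12
    exact pow_eq_zero_iff two_ne_zero |>.1
      ((mul_eq_zero.1 h1).resolve_left (mul_ne_zero h8 h3))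

/-- **Non-triviality of the jacobian.** -/
theorem hnt_of_hdisc (m : Fin 10 → ℂ) (hfin : NoBase (zweb m))
    (hdisc : 4 * zp m ^ 3 ≠ zq m ^ 2) (α β a b : ℂ) :
    ¬ (zp m = C α * (C a * X + C b) ^ 4 ∧ zq m = C β * (C a * X + C b) ^ 6) := by
  rintro ⟨hp, hq⟩
  have hpz := zp_zero m
  have hqz := zq_zero m
  have hp1 : (zp m).eval 0 = α * b ^ 4 := by
    rw [hp]
    simp
  have hq1 : (zq m).eval 0 = β * b ^ 6 := by
    rw [hq]
    simp
  have hdz : 4 * ((zp m).eval 0) ^ 3 = ((zq m).eval 0) ^ 2 := by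
    rw [hpz, hqz]
    ring
  have h1 : (4 * α ^ 3 - β ^ 2) * b ^ 12 = 0 := by
    rw [hp1, hq1] at hdz
    linear_combination hdz
  rcases mul_eq_zero.1 h1 with h2 | h2
  · apply hdisc
    rw [hp, hq]
    have h3 : (4 : ℂ[X]) * C α ^ 3 = C β ^ 2 := by
      have h4 : C (4 * α ^ 3) = C (β ^ 2) := congrArg C (by linear_combination h2)
      rw [map_mul, map_pow, map_pow, map_ofNat] at h4
      exact h4
    linear_combination (C a * X + C b) ^ 12 * h3
  · have hb : b = 0 := pow_eq_zero_iff (by norm_num) |>.1 h2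
    have h0 : e11 m = 0 := by
      rw [hp1, hb] at hpz
      have h3 : e11 m ^ 2 = 0 := by linear_combination (-1 / 4096 : ℂ) * hpz
      exact pow_eq_zero_iff two_ne_zero |>.1 h3
    apply zp_root m hfin h0
    rw [hp, hb]
    simp [derivative_pow]

end Vale.Agent.P297.H55.T8
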