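import Vale.Agent.P297.H55.Z8Final
import Vale.Agent.P297.H10.PsiMap
import Vale.Agent.P297.H637.Rel3

/-!
The action of the group `ℤ/4` on the cycles of the points on the lines of the rulings, for the
numerical Campedelli surfaces with fundamental group `ℤ/8`.
-/

set_option linter.unusedSectionVars false

open IntermediateField Polynomial Matrix

namespace Vale.Agent.P297.C8

open Vale.Agent.P297.H55.T8 Vale.Agent.P297.H839 Vale.Agent.P297.H72 Vale.Agent.P297.Gen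
open Vale.Agent.P297.H637 Vale.Agent.P297.Z3

section

variable {N : Type} [Field N] [Algebra ℂ N]

/-- the generator as a linear equivalence -/
noncomputable def Z8.zAe (N : Type) [Field N] [Algebra ℂ N] : (Fin 4 → N) ≃ₗ[N] (Fin 4 → N) where
  toFun := zA
  invFun := zB
  left_inv := zB_zA
  right_inv := zA_zB
  map_add' u v := by
    rw [← zAm_mulVec, ← zAm_mulVec, ← zAm_mulVec, Matrix.mulVec_add]
  map_smul' a u := by
    rw [← zAm_mulVec, ← zAm_mulVec, Matrix.mulVec_smul, RingHom.id_apply]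

variable {K K₁ : Type} [Field K] [Algebra ℂ K] [Field K₁] [Algebra ℂ K₁] [IsAlgClosed N]
  {x y w : N} {z : Fin 4 → N}

/-- One step. -/
theorem Z8.step {m : Fin 10 → ℂ} (hfin : NoBase (zweb m)) (hirr : Irreducible (octic (zweb m)))
    (h4 : Algebra.trdeg ℂ N = 4) {c : Fin 4 → K₁} (hc : IsFF (zweb m) c) (ι : K →ₐ[ℂ] K₁)
    (g : K₁ →ₐ[ℂ] K₁) (hg : ∀ j, g (c j) = zl j • c j) (hι : g.comp ι = ι)
    (h : GQ (zweb m) x y w z) :
    GQ (zweb m) y⁻¹ (-x⁻¹) w (zA z) ∧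
      resK ι (R1.Psi (zweb m) c y⁻¹ (-x⁻¹) w (zA z)) =
        (resK ι (R1.Psi (zweb m) c x y w z) : (K →ₐ[ℂ] N) →₀ ℤ) := by
  have : CharZero N := charZero_of_injective_algebraMap (algebraMap ℂ N).injective
  refine ⟨⟨Z8.genZ_zA m h.gen, by rw [Z8.det_g, h.det], h.ne⟩, ?_⟩
  refine R1.resK_Psi ι (Z8.zAe N) (fun u => ?_) (fun u => ?_) (fun u => Z8.rul_zA m z u)
    (fun o ho => ?_) (fun o ho => ?_) (fun o ho => ?_) ?_
  · change st (qq (zweb m) (zA u)) = 0 ↔ _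
    rw [st_zA]
  · change (∑ i, mv y⁻¹ (-x⁻¹) i * vy (qq (zweb m) (zA u)) i) = 0 ↔ _
    rw [mv_zA]
  · have h1 : o 0 = 1 := ho.1
    change o 0 ≠ 0
    rw [h1]
    exact one_ne_zero
  · have h1 : o 0 = 1 := ho.1
    change o 0 ≠ 0
    rw [h1]
    exact one_ne_zero
  · refine Z8.resK_zA hc ι g hg hι (h.genW (zweb_symm m) hfin hirr h4 ?_ ho.2.2.2 ho.2.1)
    rintro rfl
    exact zero_ne_one ho.1
  · obtain ⟨D, hD, hD0, hR'⟩ := C8.exists_dir (MM_isSymm (zweb_symm m) x y) h.det h.ne h.gen.one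
      h.gen.iso
    have hR : Rul (MM (zweb m) x y) w z D := (hR' D).2 ⟨0, 1, by simp⟩
    obtain ⟨t, -, -, ht⟩ := GQ.eight (zweb_symm m) hfin hirr h4 h hD0 hD hR
    refine Set.Finite.subset (s := {o | o 0 = 1 ∧ st (qq (zweb m) o) = 0 ∧
      Rul (MM (zweb m) x y) w z o}) ?_ ?_
    · rw [ht]
      exact Set.finite_range _
    · rintro o ⟨k1, k2, -, k4⟩
      exact ⟨k1, k2, k4⟩

/-- **The group acts**: points of the double cover with the same coordinates on the twin have the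
same cycles. -/
theorem Z8.hH {m : Fin 10 → ℂ} (hfin : NoBase (zweb m)) (hirr : Irreducible (octic (zweb m)))
    (h4 : Algebra.trdeg ℂ N = 4) {c : Fin 4 → K₁} (hc : IsFF (zweb m) c) (ι : K →ₐ[ℂ] K₁)
    (g : K₁ →ₐ[ℂ] K₁) (hg : ∀ j, g (c j) = zl j • c j) (hι : g.comp ι = ι)
    (h : GQ (zweb m) x y w z) {x' y' w' : N} (hxy' : AlgebraicIndependent ℂ ![x', y'])
    (hS : zS x' y' = zS x y) (hX : zX x' y' = zX x y)
    (hF : zF x' y' * (4 * w') = zF x y * (4 * w)) :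
    ∃ z' : Fin 4 → N, GQ (zweb m) x' y' w' z' ∧
      resK ι (R1.Psi (zweb m) c x' y' w' z') =
        (resK ι (R1.Psi (zweb m) c x y w z) : (K →ₐ[ℂ] N) →₀ ℤ) := by
  have : CharZero N := charZero_of_injective_algebraMap (algebraMap ℂ N).injective
  have hn := (generic_of_ind h.gen.xy).1
  have hn' := (generic_of_ind hxy').1
  have hw : w' = w := by
    have h1 : zF x' y' = zF x y := by
      unfold zF
      rw [hS, hX]
    rw [h1] at hF
    exact mul_left_cancel₀ (by norm_num : (4 : N) ≠ 0) (mul_left_cancel₀ hn.F_ne hF)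
  obtain ⟨g1, r1⟩ := Z8.step hfin hirr h4 hc ι g hg hι h
  obtain ⟨g2, r2⟩ := Z8.step hfin hirr h4 hc ι g hg hι g1
  obtain ⟨g3, r3⟩ := Z8.step hfin hirr h4 hc ι g hg hι g2
  have e1 : (-x⁻¹)⁻¹ = -x := by rw [inv_neg, inv_inv]
  have e2 : -(y⁻¹)⁻¹ = -y := by rw [inv_inv]
  have e3 : (-y)⁻¹ = -y⁻¹ := by rw [inv_neg]
  have e4 : -(-x)⁻¹ = x⁻¹ := by rw [inv_neg, neg_neg]
  rw [e1, e2] at g2 r2
  rw [e1, e2, e3, e4] at g3 r3
  rw [hw]
  rcases hn.fib hn' hS hX with ⟨k1, k2⟩ | ⟨k1, k2⟩ | ⟨k1, k2⟩ | ⟨k1, k2⟩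
  · rw [k1, k2]
    exact ⟨z, h, rfl⟩
  · rw [k1, k2]
    exact ⟨zA (zA z), g2, r2.trans r1⟩
  · rw [k1, k2]
    exact ⟨zA z, g1, r1⟩
  · rw [k1, k2]
    exact ⟨zA (zA (zA z)), g3, r3.trans (r2.trans r1)⟩

end

end Vale.Agent.P297.C8
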