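import Vale.Agent.P297.H55.Sing
import Vale.Agent.P297.H55.T8N
import Vale.Agent.P297.H600.Deg
import Vale.Agent.P297.H777.SmoothR

/-!
The discriminant of the twin of the numerical Campedelli surfaces with fundamental group `ℤ/8`: it
does not vanish identically when the intersection of the four quadrics is smooth.
-/

set_option linter.unusedSectionVars false

open IntermediateField Polynomial

namespace Vale.Agent.P297.H55.T8

open Vale.Agent.P297 Vale.Agent.P297.Gen Vale.Agent.P297.G4 Vale.Agent.P297.H10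
open Vale.Agent.P297.Z3 Vale.Agent.P297.C8 Vale.Agent.P297.H637

theorem b_ne (m : Fin 10 → ℂ) (hfin : NoBase (zweb m)) : m 4 ≠ 0 ∧ m 9 ≠ 0 := by
  obtain ⟨h2, h3, h7, h8⟩ := coeff_ne m hfin
  constructor
  · intro h
    obtain ⟨u, hu⟩ := IsAlgClosed.exists_pow_nat_eq (-(m 8 / m 7)) (n := 2) two_pos
    have hu' : m 7 * u ^ 2 + m 8 = 0 := by
      rw [hu]
      field_simp
      ring
    have h1 := hfin ![0, 0, u, 1] (by
      rw [qq_zweb]
      funext i
      fin_cases i <;> simp [h, hu'])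
    exact one_ne_zero (congrFun h1 3)
  · intro h
    obtain ⟨u, hu⟩ := IsAlgClosed.exists_pow_nat_eq (-(m 3 / m 2)) (n := 2) two_pos
    have hu' : m 2 * u ^ 2 + m 3 = 0 := by
      rw [hu]
      field_simp
      ring
    have h1 := hfin ![u, 1, 0, 0] (by
      rw [qq_zweb]
      funext i
      fin_cases i <;> simp [h, hu'])
    exact one_ne_zero (congrFun h1 1)

/-- A quartic whose discriminant vanishes has a double root. -/
theorem factor_any {k : Type} [Field k] [CharZero k] [IsAlgClosed k] {c : Fin 5 → k}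
    (h4 : c 4 ≠ 0) (hd : 4 * qI c ^ 3 = qJ c ^ 2) : ∃ x g₁ g₀ : k,
      c 3 = c 4 * (g₁ - 2 * x) ∧ c 2 = c 4 * (g₀ - 2 * x * g₁ + x ^ 2) ∧
      c 1 = c 4 * (x ^ 2 * g₁ - 2 * x * g₀) ∧ c 0 = c 4 * (x ^ 2 * g₀) := by
  by_cases hs : J.sU c = 0 ∧ J.sV c = 0
  · obtain ⟨hU, hV⟩ := hs
    unfold J.sU at hU
    unfold J.sV at hV
    obtain ⟨h, hh⟩ : ∃ h, c 3 = 2 * c 4 * h := ⟨c 3 / (2 * c 4), by field_simp⟩
    obtain ⟨e, he⟩ : ∃ e, c 2 = c 4 * (h ^ 2 + 2 * e) := ⟨(c 2 / c 4 - h ^ 2) / 2, by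
      field_simp
      ring⟩
    have h1 : c 1 = c 4 * (2 * h * e) := by
      apply mul_left_cancel₀ (pow_ne_zero 2 h4)
      rw [hh, he] at hU
      linear_combination (1 / 8 : k) * hU
    have h0 : c 0 = c 4 * e ^ 2 := by
      apply mul_left_cancel₀ (pow_ne_zero 3 h4)
      rw [hh, he] at hV
      linear_combination (-1 / 64 : k) * hV
    have hdeg : (C 1 * X ^ 2 + C h * X + C e : k[X]).degree ≠ 0 := by
      rw [degree_quadratic one_ne_zero]
      exact two_ne_zero
    obtain ⟨x, hx⟩ := IsAlgClosed.exists_root _ hdeg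
    simp only [IsRoot.def, eval_add, eval_mul, eval_C, eval_pow, eval_X] at hx
    refine ⟨x, 2 * (h + x), (h + x) ^ 2, ?_, ?_, ?_, ?_⟩
    · rw [hh]
      ring
    · rw [he]
      linear_combination (2 * c 4) * hx
    · rw [h1]
      linear_combination (2 * c 4 * h) * hx
    · rw [h0]
      have h5 : e = -(x * (h + x)) := by linear_combination hx
      rw [h5]
      ring
  · obtain ⟨x, g₁, g₀, -, e3, e2, e1, e0⟩ := J.exists_factor h4 hd hs
    exact ⟨x, g₁, g₀, e3, e2, e1, e0⟩

theorem zP_four (m : Fin 10 → ℂ) (hfin : NoBase (zweb m)) : zP m 4 ≠ 0 := by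
  obtain ⟨h2, h3, h7, h8⟩ := coeff_ne m hfin
  obtain ⟨h4, h9⟩ := b_ne m hfin
  have h : (zP m 4).coeff 5 = -f11 m := by
    unfold zP
    rw [dz_C]
    generalize e11 m - e12 m = k0
    generalize e01 m - e02 m + e12 m = k1
    generalize e00 m + e02 m = k2
    generalize e12 m = k3
    generalize e02 m + 2 * Complex.I * f02 m = k4
    generalize e02 m - 2 * Complex.I * f12 m = k6
    generalize f00 m = k7
    generalize e22 m = k8
    generalize f11 m = k9
    unfold tq ta tb tg
    change coeff ((X - 4) ^ 2 * ((16 * C k0 + 4 * X * C k1 + X ^ 2 * C k2) -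
      (X - 4) * (4 * C k3 + X * C k6) + (X - 4) ^ 2 * (-(C k9 * X))) : ℂ[X]) 5 = -k9
    have : ((X - 4) ^ 2 * ((16 * C k0 + 4 * X * C k1 + X ^ 2 * C k2) -
      (X - 4) * (4 * C k3 + X * C k6) + (X - 4) ^ 2 * (-(C k9 * X))) : ℂ[X]) =
      C (-k9) * X ^ 5 + C (k2 - k6 + 16 * k9) * X ^ 4 +
      C (4 * k1 - 8 * k2 - 4 * k3 + 12 * k6 - 96 * k9) * X ^ 3 +
      C (16 * k0 - 32 * k1 + 16 * k2 + 48 * k3 - 48 * k6 + 256 * k9) * X ^ 2 +
      C (-128 * k0 + 64 * k1 - 192 * k3 + 64 * k6 - 256 * k9) * X +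
      C (256 * k0 + 256 * k3) := by
      simp only [map_add, map_sub, map_mul, map_neg, map_ofNat]
      ring
    rw [this]
    compute_degree
    all_goals norm_num
  intro h0
  rw [h0, coeff_zero] at h
  have h5 : f11 m = 0 := by linear_combination h
  unfold f11 at h5
  have h6 : 4 * m 7 * m 8 * m 9 ^ 2 ≠ 0 :=
    mul_ne_zero (mul_ne_zero (mul_ne_zero (by norm_num) h7) h8) (pow_ne_zero 2 h9)
  exact h6 (by linear_combination -h5)

section

variable {N : Type} [Field N] [Algebra ℂ N] [CharZero N]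

/-- a quadratic polynomial in a transcendental element -/
theorem quad_ne {s : N} (hs : Transcendental ℂ s) (a b : ℂ) {c : ℂ} (hc : c ≠ 0) :
    algebraMap ℂ N a + algebraMap ℂ N b * s + algebraMap ℂ N c * s ^ 2 ≠ 0 := by
  intro h
  apply hs
  refine ⟨C c * X ^ 2 + C b * X + C a, ?_, ?_⟩
  · intro h2
    have h3 := degree_quadratic (b := b) (c := a) hc
    rw [h2, degree_zero] at h3
    exact absurd h3 (by simp)
  · simp only [map_add, map_mul, map_pow, aeval_X, aeval_C]
    linear_combination h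

theorem map_e (m : Fin 10 → ℂ) : f00 (zm N m) = algebraMap ℂ N (f00 m) ∧
    e22 (zm N m) = algebraMap ℂ N (e22 m) ∧ f11 (zm N m) = algebraMap ℂ N (f11 m) := by
  unfold f00 e22 f11 zm
  simp only [map_add, map_mul, map_pow, map_neg, map_ofNat, and_self]

/-- the special values of the quartic -/
theorem qv_special (m : Fin 10 → ℂ) {l x σ : N} (h1 : l - (l - 4) * x ^ 2 = 0)
    (h2 : (l + (l - 4) * x) ^ 2 = 4 * l * σ) :
    qv (tq (dz (im N) (zm N m) l) l) x = 16 * l ^ 3 *
      (algebraMap ℂ N (-f00 m) + algebraMap ℂ N (e22 m) * σ +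
        algebraMap ℂ N (-f11 m) * σ ^ 2) := by
  obtain ⟨e1, e2, e3⟩ := map_e (N := N) m
  rw [qv_tq, map_neg, map_neg, ← e1, ← e2, ← e3]
  simp only [qf, uq, dz, Matrix.cons_val, h1, h2]
  ring

/-- The quartic does not vanish at the special points. -/
theorem qv_special_ne (m : Fin 10 → ℂ) (hfin : NoBase (zweb m)) {s x : N}
    (hs : Transcendental ℂ s) (hx : (x * (s - 1)) ^ 2 = (s + 1) ^ 2) :
    qv (tq (dz (im N) (zm N m) (lv s)) (lv s)) x ≠ 0 := by
  obtain ⟨h2, h3, h7, h8⟩ := coeff_ne m hfin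
  obtain ⟨h4, h9⟩ := b_ne m hfin
  have hf0 : f00 m ≠ 0 := by
    unfold f00
    exact neg_ne_zero.2 (mul_ne_zero (mul_ne_zero (mul_ne_zero (by norm_num) h2) h3)
      (pow_ne_zero 2 h4))
  have hf1 : -f11 m ≠ 0 := by
    unfold f11
    rw [neg_neg]
    exact mul_ne_zero (mul_ne_zero (mul_ne_zero (by norm_num) h7) h8) (pow_ne_zero 2 h9)
  have hst : ∀ c : ℂ, s ≠ algebraMap ℂ N c := by
    rintro c rfl
    exact hs (isAlgebraic_algebraMap c)
  have hs0 : s ≠ 0 := by
    have := hst 0
    rwa [map_zero] at this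
  have hs2 : s + 1 ≠ 0 := by
    have := hst (-1)
    rw [map_neg, map_one] at this
    intro h
    exact this (by linear_combination h)
  have hl : lv s * s = (1 + s) ^ 2 := div_mul_cancel₀ _ hs0
  have hl0 : lv s ≠ 0 := by
    intro h
    rw [h, zero_mul] at hl
    exact pow_ne_zero 2 (by rwa [add_comm]) hl.symm
  have h1 : lv s - (lv s - 4) * x ^ 2 = 0 := by
    apply mul_left_cancel₀ hs0
    linear_combination (1 - x ^ 2) * hl - hx
  have hsi : Transcendental ℂ s⁻¹ := fun h => hs (by simpa using h.inv)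
  have key : ∀ σ : N, Transcendental ℂ σ → (lv s + (lv s - 4) * x) ^ 2 = 4 * lv s * σ →
      qv (tq (dz (im N) (zm N m) (lv s)) (lv s)) x ≠ 0 := by
    intro σ hσ h5
    rw [qv_special m h1 h5]
    exact mul_ne_zero (mul_ne_zero (by norm_num) (pow_ne_zero 3 hl0)) (quad_ne hσ _ _ hf1)
  rcases sq_eq_sq_iff_eq_or_eq_neg.1 hx with h6 | h6
  · refine key s hs ?_
    have h7 : lv s + (lv s - 4) * x = 2 * (s + 1) := by
      apply mul_left_cancel₀ hs0
      linear_combination (1 + x) * hl + (s - 1) * h6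
    rw [h7]
    linear_combination -4 * hl
  · refine key s⁻¹ hsi ?_
    have h7 : s * (lv s + (lv s - 4) * x) = 2 * (s + 1) := by
      linear_combination (1 + x) * hl + (s - 1) * h6
    apply mul_left_cancel₀ (pow_ne_zero 2 hs0)
    have h8 : s ^ 2 * (4 * lv s * s⁻¹) = 4 * lv s * s := by
      field_simp
    rw [h8, ← mul_pow, h7]
    linear_combination -4 * hl

end

section

variable {N : Type} [Field N] [Algebra ℂ N] [CharZero N] [IsAlgClosed N]

/-- a lift of a point of the twin -/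
theorem lift_of {s X : N} (hs0 : s ≠ 0) (hs1 : s - 1 ≠ 0) (hs2 : s + 1 ≠ 0)
    (hX : (X * (s - 1)) ^ 2 ≠ (s + 1) ^ 2) : ∃ x y : N, NZ x y ∧ zS x y = s ∧ zX x y = X := by
  have hj := im_sq (N := N)
  have hj0 := im_ne (N := N)
  have h2 : (2 : N) ≠ 0 := two_ne_zero
  obtain ⟨o, ho⟩ := IsAlgClosed.exists_pow_nat_eq s (n := 2) two_pos
  have ho0 : o ≠ 0 := by
    rintro rfl
    exact hs0 (by rw [← ho]; ring)
  have ho1 : 1 - im N * o ≠ 0 := by
    intro h
    apply hs2
    rw [← ho]
    linear_combination (1 + im N * o) * h + o ^ 2 * hj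
  have ho2 : o - im N ≠ 0 := by
    intro h
    apply hs2
    rw [← ho]
    linear_combination (o + im N) * h + hj
  obtain ⟨t, ht⟩ : ∃ t : N, t * (1 - im N * o) = o - im N := ⟨_, div_mul_cancel₀ _ ho1⟩
  have ht0 : t ≠ 0 := by
    rintro rfl
    exact ho2 (by rw [← ht, zero_mul])
  obtain ⟨r, hr⟩ : ∃ r : N, r * (s + 1) = X * (s - 1) := ⟨_, div_mul_cancel₀ _ hs2⟩
  have hr1 : 1 - r ≠ 0 := by
    intro h
    apply hX
    have h1 : r = 1 := by linear_combination -h
    rw [← hr, h1, one_mul]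
  have hr2 : 1 + r ≠ 0 := by
    intro h
    apply hX
    have h1 : r = -1 := by linear_combination h
    rw [← hr, h1]
    ring
  obtain ⟨ρ, hρ⟩ : ∃ ρ : N, ρ * (1 - r) = o * (1 + r) := ⟨_, div_mul_cancel₀ _ hr1⟩
  have hρ0 : ρ ≠ 0 := by
    rintro rfl
    rw [zero_mul] at hρ
    exact mul_ne_zero ho0 hr2 hρ.symm
  obtain ⟨x, hx⟩ := IsAlgClosed.exists_pow_nat_eq (t / ρ) (n := 2) two_pos
  have hx0 : x ≠ 0 := by
    rintro rfl
    have : t / ρ = 0 := by rw [← hx]; ring
    exact div_ne_zero ht0 hρ0 this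
  have hxy : x * (ρ * x) = t := by
    have h1 : x * (ρ * x) = ρ * x ^ 2 := by ring
    rw [h1, hx, mul_div_cancel₀ _ hρ0]
  have hk : (1 + im N * t) * (1 - im N * o) = 2 := by
    linear_combination im N * ht - hj
  have hk0 : 1 + im N * t ≠ 0 := by
    intro h
    rw [h, zero_mul] at hk
    exact h2 hk.symm
  have hto : (t + im N) * (1 - im N * o) = 2 * o := by
    linear_combination ht - o * hj
  have hto0 : t + im N ≠ 0 := by
    intro h
    rw [h, zero_mul] at hto
    exact mul_ne_zero h2 ho0 hto.symm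
  have hot : o * (1 + im N * t) = t + im N := by
    have h3 : (o * (1 + im N * t)) * (1 - im N * o) = (t + im N) * (1 - im N * o) := by
      rw [hto, mul_assoc, hk]
      ring
    exact mul_right_cancel₀ ho1 h3
  have hom : om x (ρ * x) = o := by
    unfold om
    rw [hxy, div_eq_iff hk0, hot]
  have hd : ρ * x + x * o ≠ 0 := by
    intro h
    have h3 : x * (ρ + o) = 0 := by linear_combination h
    have h4 := (mul_eq_zero.1 h3).resolve_left hx0
    have h5 : 2 * o = 0 := by linear_combination (1 - r) * h4 - hρ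
    exact mul_ne_zero h2 ho0 h5
  have hNZ : NZ x (ρ * x) := by
    refine ⟨hx0, mul_ne_zero hρ0 hx0, ?_, ?_, ?_, ?_⟩
    · rw [hxy]
      exact hk0
    · rw [hxy]
      exact hto0
    · rw [hxy]
      intro h
      have h3 : 2 * (s - 1) = 0 := by
        rw [← ho]
        linear_combination (1 - im N * o) ^ 2 * h - (t * (1 - im N * o) + (o - im N)) * ht +
          (o ^ 2 - 1) * hj
      exact mul_ne_zero h2 hs1 h3
    · intro h
      have hy0 : ρ * x ≠ 0 := mul_ne_zero hρ0 hx0
      have h3 : 2 * (x * (ρ * x)) * (lam x + im N * lam (ρ * x)) =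
          x ^ 2 * (ρ * x) + ρ * x + im N * (x * (ρ * x) ^ 2 + x) := by
        generalize ρ * x = y at *
        unfold lam
        field_simp
      rw [h, mul_zero] at h3
      have h4 : (ρ * x + x * o) * (1 + im N * t) = 0 := by
        rw [h3]
        linear_combination x * hot - (x + im N * (ρ * x)) * hxy
      rcases mul_eq_zero.1 h4 with h5 | h5
      · exact hd h5
      · exact hk0 h5
  refine ⟨x, ρ * x, hNZ, ?_, ?_⟩
  · rw [zS, hom, ho]
  · have h3 : zX x (ρ * x) = (ρ * x - x * o) / (ρ * x + x * o) * ((s + 1) / (s - 1)) := by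
      rw [zX, hom, zS, hom, ho]
    rw [h3, div_mul_div_comm, div_eq_iff (mul_ne_zero hd hs1)]
    have h4 : ρ * x - x * o = r * (ρ * x + x * o) := by linear_combination x * hρ
    rw [h4]
    linear_combination (ρ * x + x * o) * hr

end

section

variable {N : Type} [Field N] [Algebra ℂ N] [CharZero N] [IsAlgClosed N] {x y t : N}

theorem NZ.scale (h : NZ x y) (ht : t ≠ 0) (hb : y + x * om x y * t ^ 2 ≠ 0) :
    NZ (x * t) (y / t) ∧ om (x * t) (y / t) = om x y := by
  have hxy : x * t * (y / t) = x * y := by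
    field_simp
  have ho : om (x * t) (y / t) = om x y := by
    unfold om
    rw [hxy]
  refine ⟨⟨mul_ne_zero h.x0 ht, div_ne_zero h.y0 ht, ?_, ?_, ?_, ?_⟩, ho⟩
  · rw [hxy]
    exact h.k0
  · rw [hxy]
    exact h.o0
  · rw [hxy]
    exact h.e0
  · intro h0
    have h1 : 2 * (x * t * (y / t)) * (lam (x * t) + im N * lam (y / t)) =
        (x * t) ^ 2 * (y / t) + y / t + im N * (x * t * (y / t) ^ 2 + x * t) := by
      have hx := mul_ne_zero h.x0 ht
      have hy := div_ne_zero h.y0 ht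
      generalize x * t = x' at *
      generalize y / t = y' at *
      unfold lam
      field_simp
    rw [h0, mul_zero] at h1
    have h2 := h.om_k
    have h3 : (y + x * om x y * t ^ 2) * (1 + im N * (x * y)) = 0 := by
      have h4 : (y + x * om x y * t ^ 2) * (1 + im N * (x * y)) =
          t * ((x * t) ^ 2 * (y / t) + y / t + im N * (x * t * (y / t) ^ 2 + x * t)) := by
        have h5 : t * ((x * t) ^ 2 * (y / t) + y / t + im N * (x * t * (y / t) ^ 2 + x * t)) =
            x ^ 2 * t ^ 2 * y + y + im N * (x * y ^ 2 + x * t ^ 2) := by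
          field_simp
        rw [h5]
        linear_combination x * t ^ 2 * h2
      rw [h4, ← h1, mul_zero]
    exact mul_ne_zero hb h.k0 h3

theorem lv_ne' (h : NZ x y) : lv (zS x y) ≠ 0 := by
  unfold lv
  exact div_ne_zero (pow_ne_zero 2 h.s_add) h.s_ne

/-- The determinant along a curve of the Cayley cubic with `x y` fixed. -/
theorem A3_det (h : NZ x y) (m : Fin 10 → ℂ) (ht : t ≠ 0) (hb : y + x * om x y * t ^ 2 ≠ 0)
    {k X₀ g₁ g₀ : N} (hk : k = (zS x y + 1) / (zS x y - 1))
    {c : Fin 5 → N} (hc : c = tq (dz (im N) (zm N m) (lv (zS x y))) (lv (zS x y)))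
    (e3 : c 3 = c 4 * (g₁ - 2 * X₀)) (e2 : c 2 = c 4 * (g₀ - 2 * X₀ * g₁ + X₀ ^ 2))
    (e1 : c 1 = c 4 * (X₀ ^ 2 * g₁ - 2 * X₀ * g₀)) (e0 : c 0 = c 4 * (X₀ ^ 2 * g₀)) :
    (4 * (x * y) * om x y * lv (zS x y) ^ 2) ^ 2 * 16 * (A3 (zweb m) x y).det.eval t =
      c 4 * (k * (y - x * om x y * t ^ 2) - X₀ * (y + x * om x y * t ^ 2)) ^ 2 *
      ((k * (y - x * om x y * t ^ 2)) ^ 2 +
        g₁ * (k * (y - x * om x y * t ^ 2)) * (y + x * om x y * t ^ 2) +
        g₀ * (y + x * om x y * t ^ 2) ^ 2) := by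
  obtain ⟨h', ho⟩ := h.scale ht hb
  have hxy : x * t * (y / t) = x * y := by
    field_simp
  have hS : zS (x * t) (y / t) = zS x y := by
    unfold zS
    rw [ho]
  have hdet : (A3 (zweb m) x y).det.eval t = t ^ 4 * (MM (zweb m) (x * t) (y / t)).det := by
    have h1 : (evalRingHom t) (A3 (zweb m) x y).det =
        ((evalRingHom t).mapMatrix (A3 (zweb m) x y)).det := RingHom.map_det _ _
    have h2 : (evalRingHom t).mapMatrix (A3 (zweb m) x y) = t • MM (zweb m) (x * t) (y / t) := by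
      ext i l
      rw [RingHom.mapMatrix_apply, Matrix.map_apply, coe_evalRingHom,
        A3_eval _ h.x0 h.y0 ht, Matrix.smul_apply, smul_eq_mul]
    rw [h2, Matrix.det_smul, coe_evalRingHom] at h1
    exact h1
  have hcur := h'.curve_eq m
  rw [hS, ← hc, ← det_MM] at hcur
  have hP := h'.P_eq
  rw [hS, ho, hxy] at hP
  set X := zX (x * t) (y / t) with hX
  set b := y + x * om x y * t ^ 2 with hbd
  set a := y - x * om x y * t ^ 2 with had
  set l := lv (zS x y) with hl
  have hb' : t * (y / t + x * t * om x y) = b := by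
    rw [hbd]
    field_simp
  have ha' : t * (y / t - x * t * om x y) = a := by
    rw [had]
    field_simp
  have hF : zF (x * t) (y / t) * b ^ 2 = 4 * (x * y) * om x y * l ^ 2 * t ^ 2 := by
    unfold zF
    rw [hS, ← hl, ← hX, ← hb']
    linear_combination (l * t ^ 2) * hP
  have hXb : X * b = k * a := by
    have h1 : X = a / b * k := by
      rw [hX, zX, hS, ho, ← ha', ← hb', mul_div_mul_left _ _ ht, hk]
    rw [h1]
    field_simp
  have hqv : qv c X * b ^ 4 = c 4 * (k * a - X₀ * b) ^ 2 *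
      ((k * a) ^ 2 + g₁ * (k * a) * b + g₀ * b ^ 2) := by
    rw [← hXb]
    unfold qv
    rw [e3, e2, e1, e0]
    ring
  rw [← hqv, ← hcur, hdet]
  linear_combination (-(16 * (MM (zweb m) (x * t) (y / t)).det)) *
    (zF (x * t) (y / t) * b ^ 2 + 4 * (x * y) * om x y * l ^ 2 * t ^ 2) * hF

end

section

variable {N : Type} [Field N] [Algebra ℂ N] [CharZero N] [IsAlgClosed N] {x y t : N}

/-- **The discriminant**, over a field with a transcendental element. -/
theorem disc_aux (m : Fin 10 → ℂ) (hfin : NoBase (zweb m)) (hsm : SmN (zweb m) N) {s : N}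
    (hs : Transcendental ℂ s) : 4 * zp m ^ 3 ≠ zq m ^ 2 := by
  intro hdisc
  have hst : ∀ c : ℂ, s ≠ algebraMap ℂ N c := by
    rintro c rfl
    exact hs (isAlgebraic_algebraMap c)
  have hs0 : s ≠ 0 := by
    have := hst 0
    rwa [map_zero] at this
  have hs1 : s - 1 ≠ 0 := by
    have := hst 1
    rw [map_one] at this
    exact sub_ne_zero.2 this
  have hs2 : s + 1 ≠ 0 := by
    have := hst (-1)
    rw [map_neg, map_one] at this
    intro h
    exact this (by linear_combination h)
  have hlt : Transcendental ℂ (lv s) := lv_tr hs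
  obtain ⟨c, hc⟩ : ∃ c : Fin 5 → N, c = tq (dz (im N) (zm N m) (lv s)) (lv s) := ⟨_, rfl⟩
  have hci : ∀ i, c i = aeval (lv s) (zP m i) := fun i => by rw [hc, aeval_zP]
  have h4 : c 4 ≠ 0 := by
    rw [hci]
    intro h
    exact hlt ⟨_, zP_four m hfin, h⟩
  have hqI : qI c = aeval (lv s) (qI (zP m)) := by
    unfold qI
    simp only [map_add, map_sub, map_mul, map_pow, map_ofNat, hci]
  have hqJ : qJ c = aeval (lv s) (qJ (zP m)) := by
    unfold qJ
    simp only [map_add, map_sub, map_mul, map_pow, map_ofNat, hci]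
  have hd : 4 * qI c ^ 3 = qJ c ^ 2 := by
    rw [hqI, hqJ, qI_zP, qJ_zP]
    have h1 := congrArg (aeval (lv s)) hdisc
    simp only [map_mul, map_pow, map_ofNat] at h1 ⊢
    linear_combination ((aeval (lv s) (X : ℂ[X])) * (aeval (lv s) (X - 4 : ℂ[X]))) ^ 6 * h1
  obtain ⟨X₀, g₁, g₀, e3, e2, e1, e0⟩ := factor_any h4 hd
  have hroot : qv c X₀ = 0 := by
    unfold qv
    rw [e3, e2, e1, e0]
    ring
  have hX₀ : (X₀ * (s - 1)) ^ 2 ≠ (s + 1) ^ 2 := by
    intro h
    apply qv_special_ne m hfin hs h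
    rw [← hc]
    exact hroot
  obtain ⟨x, y, h, hS, hX⟩ := lift_of hs0 hs1 hs2 hX₀
  rw [← hS] at hc
  have key := fun t ht hb => A3_det h m (t := t) ht hb rfl hc e3 e2 e1 e0
  set k := (zS x y + 1) / (zS x y - 1) with hk
  set K := (4 * (x * y) * om x y * lv (zS x y) ^ 2) ^ 2 * 16 with hK
  have hK0 : K ≠ 0 := by
    rw [hK]
    exact mul_ne_zero (pow_ne_zero 2 (mul_ne_zero (mul_ne_zero (mul_ne_zero (by norm_num)
      (mul_ne_zero h.x0 h.y0)) h.om_ne) (pow_ne_zero 2 (lv_ne' h)))) (by norm_num)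
  set L : N[X] := C k * (C y - C (x * om x y) * X ^ 2) - C X₀ * (C y + C (x * om x y) * X ^ 2)
    with hL
  set G : N[X] := C (c 4) * ((C k * (C y - C (x * om x y) * X ^ 2)) ^ 2 +
    C g₁ * (C k * (C y - C (x * om x y) * X ^ 2)) * (C y + C (x * om x y) * X ^ 2) +
    C g₀ * (C y + C (x * om x y) * X ^ 2) ^ 2) with hG
  have hpoly : C K * (A3 (zweb m) x y).det = L ^ 2 * G := by
    have h1 : (C K * (A3 (zweb m) x y).det - L ^ 2 * G) *
        (X * (C y + C (x * om x y) * X ^ 2)) = 0 := by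
      apply Polynomial.funext
      intro t
      rw [eval_mul, eval_zero]
      by_cases ht : t = 0
      · rw [ht]
        simp
      by_cases hb : y + x * om x y * t ^ 2 = 0
      · have h2 : (X * (C y + C (x * om x y) * X ^ 2) : N[X]).eval t = 0 := by
          simp only [eval_mul, eval_add, eval_C, eval_X, eval_pow]
          rw [hb, mul_zero]
        rw [h2, mul_zero]
      · have h2 := key t ht hb
        rw [eval_sub, eval_mul, eval_C, h2]
        simp only [hL, hG, eval_mul, eval_sub, eval_add, eval_C, eval_X, eval_pow]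
        ring
    have h2 : (X * (C y + C (x * om x y) * X ^ 2) : N[X]) ≠ 0 := by
      apply mul_ne_zero X_ne_zero
      intro h3
      have h4 := congrArg (fun p => p.coeff 0) h3
      simp only [coeff_add, coeff_C_zero, coeff_C_mul, coeff_X_pow, coeff_zero] at h4
      simp at h4
      exact h.y0 h4
    have h3 := (mul_eq_zero.1 h1).resolve_right h2
    exact sub_eq_zero.1 h3
  have hL1 : L.eval 1 = 0 := by
    simp only [hL, eval_mul, eval_sub, eval_add, eval_C, eval_X, eval_pow, one_pow, mul_one]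
    have h5 := h.den
    have h6 : X₀ * (y + x * om x y) = k * (y - x * om x y) := by
      rw [← hX, zX, hk]
      field_simp
    linear_combination -h6
  have hd0 : (A3 (zweb m) x y).det.eval 1 = 0 := by
    have h5 := congrArg (fun p => p.eval 1) hpoly
    simp only [eval_mul, eval_C, eval_pow, hL1] at h5
    have h6 : K * (A3 (zweb m) x y).det.eval 1 = 0 := by rw [h5]; ring
    exact (mul_eq_zero.1 h6).resolve_left hK0
  have hd1 : (derivative (A3 (zweb m) x y).det).eval 1 = 0 := by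
    have h5 := congrArg (fun p => (derivative p).eval 1) hpoly
    rw [derivative_C_mul, eval_mul, eval_C, derivative_mul, derivative_pow] at h5
    have h6 : K * (derivative (A3 (zweb m) x y).det).eval 1 = 0 := by
      rw [h5]
      simp [hL1]
    exact (mul_eq_zero.1 h6).resolve_left hK0
  refine no_double_three (zweb_symm m) hsm (fun o ho => ?_) h.x0 h.y0 ?_ hd0 hd1
  · by_contra hne
    exact qq_ne hfin hne ho
  · intro halg
    apply hs
    rw [← hS]
    unfold zS om
    rw [div_eq_mul_inv]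
    have hI : IsAlgebraic ℂ (im N) := isAlgebraic_algebraMap _
    exact (((halg.add hI).mul ((isAlgebraic_one.add (hI.mul halg)).inv))).pow 2

end

/-- **The discriminant of the twin does not vanish**, when the surface is smooth. -/
theorem hdisc_of_smooth (m : Fin 10 → ℂ) (hfin : NoBase (zweb m)) (hsm : SmoothX (zweb m)) :
    4 * zp m ^ 3 ≠ zq m ^ 2 := by
  let N := AlgebraicClosure (RatFunc ℂ)
  have : CharZero N := charZero_of_injective_algebraMap (algebraMap ℂ N).injective
  have hs : Transcendental ℂ (algebraMap (RatFunc ℂ) N RatFunc.X) := by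
    have h1 : Transcendental ℂ (RatFunc.X : RatFunc ℂ) := RatFunc.transcendental_X
    exact (transcendental_algebraMap_iff (algebraMap (RatFunc ℂ) N).injective).2 h1
  exact disc_aux m hfin (N := N) (fun o v hov hne l h1 h2 => smN_of hsm o v hov hne l h1 h2) hs

end Vale.Agent.P297.H55.T8
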