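import Vale.Agent.P297.H55.Fin8

/-!
An explicit smooth intersection of four quadrics with a free action of the cyclic group of order
eight.
-/

set_option linter.unusedSectionVars false

namespace Vale.Agent.P297.C8

open Vale.Agent.P297 Vale.Agent.P297.H55.T8

namespace Z8Ex

/-- The four conics. -/
def cn0 (a b c : ℂ) : ℂ := a ^ 2 + b ^ 2 + c ^ 2 - 4 * a * b + 2 * b * c

/-- The four conics. -/
def cn1 (a b c : ℂ) : ℂ := a ^ 2 + b ^ 2 + c ^ 2 + 4 * a * b + 2 * a * c

/-- The four conics. -/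
def cn2 (a b c : ℂ) : ℂ := a ^ 2 + b ^ 2 + c ^ 2 - 4 * a * b - 2 * b * c

/-- The four conics. -/
def cn3 (a b c : ℂ) : ℂ := a ^ 2 + b ^ 2 + c ^ 2 + 4 * a * b - 2 * a * c

theorem zero_of_sq {a b c : ℂ} (h1 : a ^ 2 = 0) (h2 : b ^ 2 = 0) (h3 : c ^ 2 = 0) :
    a = 0 ∧ b = 0 ∧ c = 0 :=
  ⟨pow_eq_zero_iff two_ne_zero |>.1 h1, pow_eq_zero_iff two_ne_zero |>.1 h2,
    pow_eq_zero_iff two_ne_zero |>.1 h3⟩

theorem cancel {k e : ℂ} (hk : k ≠ 0) (h : k * e = 0) : e = 0 :=
  (mul_eq_zero.1 h).resolve_left hk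

/-- No point on three of the conics. -/
theorem triple {a b c : ℂ} (h0 : cn0 a b c = 0) (h2 : cn2 a b c = 0)
    (h1 : cn1 a b c = 0 ∨ cn3 a b c = 0) : a = 0 ∧ b = 0 ∧ c = 0 := by
  unfold cn0 at h0
  unfold cn2 at h2
  have e1 : b * c = 0 := by linear_combination (1 / 4 : ℂ) * h0 - (1 / 4 : ℂ) * h2
  have e2 : a ^ 2 + b ^ 2 + c ^ 2 = 4 * (a * b) := by linear_combination h0 - 2 * e1
  have e3 : a * (4 * b + c) = 0 ∨ a * (4 * b - c) = 0 := by
    rcases h1 with h1 | h1
    · left
      unfold cn1 at h1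
      linear_combination (1 / 2 : ℂ) * h1 - (1 / 2 : ℂ) * e2
    · right
      unfold cn3 at h1
      linear_combination (1 / 2 : ℂ) * h1 - (1 / 2 : ℂ) * e2
  rcases mul_eq_zero.1 e1 with rfl | rfl
  · have e4 : a * c = 0 := by
      rcases e3 with e3 | e3
      · linear_combination e3
      · linear_combination -e3
    rcases mul_eq_zero.1 e4 with rfl | rfl
    · exact zero_of_sq (by ring) (by ring) (by linear_combination e2)
    · exact zero_of_sq (by linear_combination e2) (by ring) (by ring)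
  · have e4 : a * b = 0 := by
      rcases e3 with e3 | e3
      · linear_combination (1 / 4 : ℂ) * e3
      · linear_combination (1 / 4 : ℂ) * e3
    rcases mul_eq_zero.1 e4 with rfl | rfl
    · exact zero_of_sq (by ring) (by linear_combination e2) (by ring)
    · exact zero_of_sq (by linear_combination e2) (by ring) (by ring)

/-- The rotation of the plane. -/
theorem rot_zero {a b c : ℂ} (h : -b = 0 ∧ a = 0 ∧ c = 0) : a = 0 ∧ b = 0 ∧ c = 0 :=
  ⟨h.2.1, neg_eq_zero.1 h.1, h.2.2⟩

/-- The first conic is smooth. -/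
theorem single {a b c g : ℂ} (r1 : g * (a - 2 * b) = 0) (r2 : g * (-2 * a + b + c) = 0)
    (r3 : g * (b + c) = 0) : g = 0 ∨ (a = 0 ∧ b = 0 ∧ c = 0) := by
  by_cases hg : g = 0
  · exact Or.inl hg
  · right
    have e1 := (mul_eq_zero.1 r1).resolve_left hg
    have e2 := (mul_eq_zero.1 r2).resolve_left hg
    have e3 := (mul_eq_zero.1 r3).resolve_left hg
    refine ⟨?_, ?_, ?_⟩
    · linear_combination (1 / 2 : ℂ) * e3 - (1 / 2 : ℂ) * e2
    · linear_combination (1 / 4 : ℂ) * e3 - (1 / 4 : ℂ) * e2 - (1 / 2 : ℂ) * e1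
    · linear_combination (3 / 4 : ℂ) * e3 + (1 / 4 : ℂ) * e2 + (1 / 2 : ℂ) * e1

/-- The first and the third conic intersect transversally. -/
theorem pair02 {a b c g k : ℂ} (h0 : cn0 a b c = 0) (h2 : cn2 a b c = 0)
    (r1 : g * (a - 2 * b) + k * (a - 2 * b) = 0)
    (r2 : g * (-2 * a + b + c) + k * (-2 * a + b - c) = 0)
    (r3 : g * (b + c) + k * (-b + c) = 0) : (g = 0 ∧ k = 0) ∨ (a = 0 ∧ b = 0 ∧ c = 0) := by
  unfold cn0 at h0
  unfold cn2 at h2
  have e1 : b * c = 0 := by linear_combination (1 / 4 : ℂ) * h0 - (1 / 4 : ℂ) * h2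
  have e2 : a ^ 2 + b ^ 2 + c ^ 2 = 4 * (a * b) := by linear_combination h0 - 2 * e1
  have e3 : (g + k) * (a - 2 * b) = 0 := by linear_combination r1
  rcases mul_eq_zero.1 e1 with rfl | rfl
  · rcases mul_eq_zero.1 e3 with e4 | e4
    · have e5 : (g - k) * c = 0 := by linear_combination r2 + 2 * a * e4
      rcases mul_eq_zero.1 e5 with e6 | rfl
      · left
        exact ⟨by linear_combination (1 / 2 : ℂ) * e4 + (1 / 2 : ℂ) * e6,
          by linear_combination (1 / 2 : ℂ) * e4 - (1 / 2 : ℂ) * e6⟩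
      · right
        exact zero_of_sq (by linear_combination e2) (by ring) (by ring)
    · right
      have e5 : a = 0 := by linear_combination e4
      subst e5
      exact zero_of_sq (by ring) (by ring) (by linear_combination e2)
  · have e4 : (g - k) * b = 0 := by linear_combination r3
    rcases mul_eq_zero.1 e4 with e5 | rfl
    · rcases mul_eq_zero.1 e3 with e6 | e6
      · left
        exact ⟨by linear_combination (1 / 2 : ℂ) * e5 + (1 / 2 : ℂ) * e6,
          by linear_combination (1 / 2 : ℂ) * e6 - (1 / 2 : ℂ) * e5⟩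
      · right
        have e7 : a = 2 * b := by linear_combination e6
        subst e7
        have e8 : b ^ 2 = 0 := by linear_combination (-1 / 3 : ℂ) * e2
        exact zero_of_sq (by linear_combination 4 * e8) e8 (by ring)
    · right
      exact zero_of_sq (by linear_combination e2) (by ring) (by ring)

/-- The first and the second conic intersect transversally. -/
theorem pair01 {a b c g k : ℂ} (h1 : cn1 a b c = 0)
    (r1 : g * (a - 2 * b) + k * (a + 2 * b + c) = 0)
    (r2 : g * (-2 * a + b + c) + k * (2 * a + b) = 0)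
    (r3 : g * (b + c) + k * (a + c) = 0) : (g = 0 ∧ k = 0) ∨ (a = 0 ∧ b = 0 ∧ c = 0) := by
  unfold cn1 at h1
  by_cases hg : g = 0
  · subst hg
    by_cases hk : k = 0
    · exact Or.inl ⟨rfl, hk⟩
    · right
      have e1 : a + 2 * b + c = 0 := by
        apply cancel hk
        linear_combination r1
      have e2 : 2 * a + b = 0 := by
        apply cancel hk
        linear_combination r2
      have e3 : a + c = 0 := by
        apply cancel hk
        linear_combination r3
      have e4 : b = 0 := by linear_combination (1 / 2 : ℂ) * e1 - (1 / 2 : ℂ) * e3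
      have e5 : a = 0 := by linear_combination (1 / 2 : ℂ) * e2 - (1 / 2 : ℂ) * e4
      exact ⟨e5, e4, by linear_combination e3 - e5⟩
  · right
    obtain ⟨t, rfl⟩ : ∃ t, k = g * t := ⟨k / g, by rw [mul_div_cancel₀ _ hg]⟩
    have R1 : (1 + t) * a + (-2 + 2 * t) * b + t * c = 0 := by
      apply cancel hg
      linear_combination r1
    have R2 : (-2 + 2 * t) * a + (1 + t) * b + c = 0 := by
      apply cancel hg
      linear_combination r2
    have R3 : t * a + b + (1 + t) * c = 0 := by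
      apply cancel hg
      linear_combination r3
    refine zero_of_sq ?_ ?_ ?_
    · linear_combination ((16/31)*a + (4/31)*t*a + (5/62)*b + (-2/31)*t*b + (-5/62)*c +
        (4/31)*t*c)*R1 + ((-5/31)*a + (-27/62)*b + (8/31)*t*b + (-5/31)*c)*R2 +
        ((-25/62)*a + (27/62)*b + (-6/31)*t*b)*R3 + ((5/31) + (5/62)*t + (-4/31)*t^2)*h1
    · linear_combination ((27/62)*a + (-11/31)*t*a + (-15/31)*b + (-19/62)*t*b + (-5/31)*c +
        (4/31)*t*c)*R1 + ((19/62)*a + (-37/62)*b + (23/31)*t*b + (-11/62)*c)*R2 +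
        ((-53/62)*a + (15/31)*t*a + (14/31)*b + (3/62)*t*b)*R3 +
        ((11/62) + (5/31)*t + (-4/31)*t^2)*h1
    · linear_combination ((-11/62)*a + (13/31)*t*a + (17/62)*b + (17/62)*t*b + (23/62)*c +
        (-2/31)*t*c)*R1 + ((7/62)*a + (35/31)*b + (-19/31)*t*b + (37/62)*c)*R2 +
        ((-3/31)*a + (-15/31)*t*a + (-61/62)*b + (-9/62)*t*b)*R3 +
        ((25/62) + (-23/62)*t + (2/31)*t^2)*h1

/-- The conics meet transversally, and no three of them have a common point. -/
theorem key {a b c g0 g1 g2 g3 : ℂ} (h0 : g0 = 0 ∨ cn0 a b c = 0) (h1 : g1 = 0 ∨ cn1 a b c = 0)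
    (h2 : g2 = 0 ∨ cn2 a b c = 0) (h3 : g3 = 0 ∨ cn3 a b c = 0)
    (r1 : g0 * (a - 2 * b) + g1 * (a + 2 * b + c) + g2 * (a - 2 * b) + g3 * (a + 2 * b - c) = 0)
    (r2 : g0 * (-2 * a + b + c) + g1 * (2 * a + b) + g2 * (-2 * a + b - c) +
      g3 * (2 * a + b) = 0)
    (r3 : g0 * (b + c) + g1 * (a + c) + g2 * (-b + c) + g3 * (-a + c) = 0) :
    (g0 = 0 ∧ g1 = 0 ∧ g2 = 0 ∧ g3 = 0) ∨ (a = 0 ∧ b = 0 ∧ c = 0) := by
  have t013 : cn1 a b c = 0 → cn3 a b c = 0 → cn0 a b c = 0 ∨ cn2 a b c = 0 →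
      a = 0 ∧ b = 0 ∧ c = 0 := by
    intro k1 k3 k0
    refine rot_zero (triple (a := -b) (b := a) (c := c) ?_ ?_ ?_)
    · unfold cn1 at k1
      unfold cn0
      linear_combination k1
    · unfold cn3 at k3
      unfold cn2
      linear_combination k3
    · rcases k0 with k0 | k0
      · right
        unfold cn0 at k0
        unfold cn3
        linear_combination k0
      · left
        unfold cn2 at k0
        unfold cn1
        linear_combination k0
  rcases h0 with h0 | h0 <;> rcases h1 with h1 | h1 <;> rcases h2 with h2 | h2 <;>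
    rcases h3 with h3 | h3
  · exact Or.inl ⟨h0, h1, h2, h3⟩
  · -- only the fourth
    subst h0 h1 h2
    have h := single (a := b) (b := -a) (c := c) (g := g3) (by linear_combination r2)
      (by linear_combination -r1) (by linear_combination r3)
    rcases h with h | h
    · exact Or.inl ⟨rfl, rfl, rfl, h⟩
    · exact Or.inr ⟨neg_eq_zero.1 h.2.1, h.1, h.2.2⟩
  · -- only the third
    subst h0 h1 h3
    have h := single (a := -a) (b := -b) (c := c) (g := g2) (by linear_combination -r1)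
      (by linear_combination -r2) (by linear_combination r3)
    rcases h with h | h
    · exact Or.inl ⟨rfl, rfl, h, rfl⟩
    · exact Or.inr ⟨neg_eq_zero.1 h.1, neg_eq_zero.1 h.2.1, h.2.2⟩
  · -- the third and the fourth
    subst h0 h1
    have h := pair01 (a := -a) (b := -b) (c := c) (g := g2) (k := g3) (by
      unfold cn3 at h3
      unfold cn1
      linear_combination h3) (by linear_combination -r1) (by linear_combination -r2)
      (by linear_combination r3)
    rcases h with h | h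
    · exact Or.inl ⟨rfl, rfl, h.1, h.2⟩
    · exact Or.inr ⟨neg_eq_zero.1 h.1, neg_eq_zero.1 h.2.1, h.2.2⟩
  · -- only the second
    subst h0 h2 h3
    have h := single (a := -b) (b := a) (c := c) (g := g1) (by linear_combination -r2)
      (by linear_combination r1) (by linear_combination r3)
    rcases h with h | h
    · exact Or.inl ⟨rfl, h, rfl, rfl⟩
    · exact Or.inr (rot_zero h)
  · -- the second and the fourth
    subst h0 h2
    have h := pair02 (a := -b) (b := a) (c := c) (g := g1) (k := g3) (by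
      unfold cn1 at h1
      unfold cn0
      linear_combination h1) (by
      unfold cn3 at h3
      unfold cn2
      linear_combination h3) (by linear_combination -r2) (by linear_combination r1)
      (by linear_combination r3)
    rcases h with h | h
    · exact Or.inl ⟨rfl, h.1, rfl, h.2⟩
    · exact Or.inr (rot_zero h)
  · -- the second and the third
    subst h0 h3
    have h := pair01 (a := -b) (b := a) (c := c) (g := g1) (k := g2) (by
      unfold cn2 at h2
      unfold cn1
      linear_combination h2) (by linear_combination -r2) (by linear_combination r1)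
      (by linear_combination r3)
    rcases h with h | h
    · exact Or.inl ⟨rfl, h.1, h.2, rfl⟩
    · exact Or.inr (rot_zero h)
  · exact Or.inr (t013 h1 h3 (Or.inr h2))
  · -- only the first
    subst h1 h2 h3
    have h := single (a := a) (b := b) (c := c) (g := g0) (by linear_combination r1)
      (by linear_combination r2) (by linear_combination r3)
    rcases h with h | h
    · exact Or.inl ⟨h, rfl, rfl, rfl⟩
    · exact Or.inr h
  · -- the fourth and the first
    subst h1 h2
    have h := pair01 (a := b) (b := -a) (c := c) (g := g3) (k := g0) (by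
      unfold cn0 at h0
      unfold cn1
      linear_combination h0) (by linear_combination r2) (by linear_combination -r1)
      (by linear_combination r3)
    rcases h with h | h
    · exact Or.inl ⟨h.2, rfl, rfl, h.1⟩
    · exact Or.inr ⟨neg_eq_zero.1 h.2.1, h.1, h.2.2⟩
  · -- the first and the third
    subst h1 h3
    have h := pair02 (a := a) (b := b) (c := c) (g := g0) (k := g2) h0 h2
      (by linear_combination r1) (by linear_combination r2) (by linear_combination r3)
    rcases h with h | h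
    · exact Or.inl ⟨h.1, rfl, h.2, rfl⟩
    · exact Or.inr h
  · exact Or.inr (triple h0 h2 (Or.inr h3))
  · -- the first and the second
    subst h2 h3
    have h := pair01 (a := a) (b := b) (c := c) (g := g0) (k := g1) h1
      (by linear_combination r1) (by linear_combination r2) (by linear_combination r3)
    rcases h with h | h
    · exact Or.inl ⟨h.1, h.2, rfl, rfl⟩
    · exact Or.inr h
  · exact Or.inr (t013 h1 h3 (Or.inl h0))
  · exact Or.inr (triple h0 h2 (Or.inl h1))
  · exact Or.inr (triple h0 h2 (Or.inl h1))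

end Z8Ex

open Z8Ex in
/-- **An explicit smooth member** of the family of intersections of four quadrics
`(x₀ + x₁)² + (x₂ + x₃)² = 2 v₁ v₂`, `i ((x₀ - x₁)² - (x₂ - x₃)²) = 2 v₀ v₂`,
`2 (x₀ x₃ + x₁ x₂) = v₀² + v₁² + v₂²`, `-(x₀ x₂ + x₁ x₃) = 2 v₀ v₁`. -/
theorem Z8.exists_smooth : SmoothX (zweb ![2, 2, 1, 1, 2, -1, -1, 1, 1, 2]) := by
  intro o v hov hne l h1 h2
  have hI := Complex.I_mul_I
  -- the equations
  have q0 := congrFun hov 0
  have q1 := congrFun hov 1
  have q2 := congrFun hov 2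
  have q3 := congrFun hov 3
  rw [qq_zweb, ee_zero] at q0
  rw [qq_zweb, ee_one] at q1
  rw [qq_zweb, ee_two] at q2
  rw [qq_zweb, ee_three] at q3
  simp only [Matrix.cons_val] at q0 q1 q2 q3
  -- the kernel
  have k0 := h1 ![1, 0, 0, 0]
  have k1 := h1 ![0, 1, 0, 0]
  have k2 := h1 ![0, 0, 1, 0]
  have k3 := h1 ![0, 0, 0, 1]
  have f0 := h2 ![1, 0, 0]
  have f1 := h2 ![0, 1, 0]
  have f2 := h2 ![0, 0, 1]
  simp only [qb_apply, Fin.sum_univ_four, zweb, Matrix.cons_val, Matrix.of_apply,
    Matrix.cons_val_zero, Matrix.cons_val_one, Algebra.algebraMap_self, RingHom.id_apply] at k0 k1 k2 k3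
  simp only [eb, Fin.sum_univ_four, Matrix.cons_val, Matrix.cons_val_zero,
    Matrix.cons_val_one] at f0 f1 f2
  have k0' : l 0 * o 3 + l 1 * (o 0 + o 1) + l 2 * (Complex.I * (o 0 - o 1)) -
      l 3 * o 2 / 2 = 0 := by linear_combination k0
  have k1' : l 0 * o 2 + l 1 * (o 0 + o 1) - l 2 * (Complex.I * (o 0 - o 1)) -
      l 3 * o 3 / 2 = 0 := by linear_combination k1
  have k2' : l 0 * o 1 + l 1 * (o 2 + o 3) - l 2 * (Complex.I * (o 2 - o 3)) -
      l 3 * o 0 / 2 = 0 := by linear_combination k2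
  have k3' : l 0 * o 0 + l 1 * (o 2 + o 3) + l 2 * (Complex.I * (o 2 - o 3)) -
      l 3 * o 1 / 2 = 0 := by linear_combination k3
  clear k0 k1 k2 k3 h1 h2 hov
  obtain ⟨a, ha⟩ : ∃ a, a = v 0 := ⟨_, rfl⟩
  obtain ⟨b, hb⟩ : ∃ b, b = v 1 := ⟨_, rfl⟩
  obtain ⟨c, hc⟩ : ∃ c, c = v 2 := ⟨_, rfl⟩
  obtain ⟨y0, hy0⟩ : ∃ y, y = o 0 + o 1 + o 2 + o 3 := ⟨_, rfl⟩
  obtain ⟨y2, hy2⟩ : ∃ y, y = o 0 + o 1 - o 2 - o 3 := ⟨_, rfl⟩
  obtain ⟨y1, hy1⟩ : ∃ y, y = o 0 - o 1 + Complex.I * (o 2 - o 3) := ⟨_, rfl⟩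
  obtain ⟨y3, hy3⟩ : ∃ y, y = o 0 - o 1 - Complex.I * (o 2 - o 3) := ⟨_, rfl⟩
  rw [← ha, ← hb, ← hc] at q0 f0 f1 f2
  rw [← hb, ← hc] at q1
  rw [← ha, ← hc] at q2
  rw [← ha, ← hb] at q3
  have z0 : y0 ^ 2 = cn0 a b c := by
    unfold cn0
    rw [hy0]
    linear_combination q1 + q0 - 2 * q3
  have z2 : y2 ^ 2 = -cn2 a b c := by
    unfold cn2
    rw [hy2]
    linear_combination q1 - q0 + 2 * q3
  have z1 : y1 ^ 2 = -(Complex.I * cn1 a b c) := by
    unfold cn1
    rw [hy1]
    linear_combination -Complex.I * q2 - Complex.I * q0 - 2 * Complex.I * q3 +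
      (o 0 - o 1) ^ 2 * hI
  have z3 : y3 ^ 2 = Complex.I * cn3 a b c := by
    unfold cn3
    rw [hy3]
    linear_combination -Complex.I * q2 + Complex.I * q0 + 2 * Complex.I * q3 +
      (o 0 - o 1) ^ 2 * hI
  have w0 : (2 * l 0 + 4 * l 1 - l 3) * y0 = 0 := by
    rw [hy0]
    linear_combination 2 * k0' + 2 * k1' + 2 * k2' + 2 * k3'
  have w2 : (2 * l 0 - 4 * l 1 - l 3) * y2 = 0 := by
    rw [hy2]
    linear_combination -2 * k0' - 2 * k1' + 2 * k2' + 2 * k3'
  have w1 : (2 * l 0 + 4 * l 2 + l 3) * y1 = 0 := by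
    rw [hy1]
    linear_combination -2 * Complex.I * (k0' - k1') - 2 * (k2' - k3') +
      4 * l 2 * (o 0 - o 1) * hI
  have w3 : (2 * l 0 - 4 * l 2 + l 3) * y3 = 0 := by
    rw [hy3]
    linear_combination 2 * Complex.I * (k0' - k1') - 2 * (k2' - k3') -
      4 * l 2 * (o 0 - o 1) * hI
  have hkey := key (a := a) (b := b) (c := c) (g0 := 2 * l 0 + 4 * l 1 - l 3)
    (g1 := 2 * l 0 + 4 * l 2 + l 3) (g2 := 2 * l 0 - 4 * l 1 - l 3)
    (g3 := 2 * l 0 - 4 * l 2 + l 3) ?_ ?_ ?_ ?_ (by linear_combination 8 * f0)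
    (by linear_combination 8 * f1) (by linear_combination 8 * f2)
  rotate_left
  · rcases mul_eq_zero.1 w0 with h | h
    · exact Or.inl h
    · right
      rw [← z0, h]
      ring
  · rcases mul_eq_zero.1 w1 with h | h
    · exact Or.inl h
    · right
      rw [h] at z1
      linear_combination -Complex.I * z1 + cn1 a b c * hI
  · rcases mul_eq_zero.1 w2 with h | h
    · exact Or.inl h
    · right
      rw [h] at z2
      linear_combination z2
  · rcases mul_eq_zero.1 w3 with h | h
    · exact Or.inl h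
    · right
      rw [h] at z3
      linear_combination Complex.I * z3 + cn3 a b c * hI
  rcases hkey with ⟨g0, g1, g2, g3⟩ | ⟨ra, rb, rc⟩
  · funext i
    fin_cases i
    · change l 0 = 0
      linear_combination (1 / 8 : ℂ) * g0 + (1 / 8 : ℂ) * g1 + (1 / 8 : ℂ) * g2 + (1 / 8 : ℂ) * g3
    · change l 1 = 0
      linear_combination (1 / 8 : ℂ) * g0 - (1 / 8 : ℂ) * g2
    · change l 2 = 0
      linear_combination (1 / 8 : ℂ) * g1 - (1 / 8 : ℂ) * g3
    · change l 3 = 0
      linear_combination (1 / 4 : ℂ) * g1 + (1 / 4 : ℂ) * g3 - (1 / 4 : ℂ) * g0 - (1 / 4 : ℂ) * g2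
  · exfalso
    subst ra rb rc
    have hsq : ∀ {z : ℂ}, z ^ 2 = 0 → z = 0 := fun h => pow_eq_zero_iff two_ne_zero |>.1 h
    have y00 : y0 = 0 := hsq (by rw [z0]; unfold cn0; ring)
    have y10 : y1 = 0 := hsq (by rw [z1]; unfold cn1; ring)
    have y20 : y2 = 0 := hsq (by rw [z2]; unfold cn2; ring)
    have y30 : y3 = 0 := hsq (by rw [z3]; unfold cn3; ring)
    rw [y00] at hy0
    rw [y10] at hy1
    rw [y20] at hy2
    rw [y30] at hy3
    have e1 : Complex.I * (o 2 - o 3) = 0 := by
      linear_combination (1 / 2 : ℂ) * hy3 - (1 / 2 : ℂ) * hy1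
    have e2 : o 2 - o 3 = 0 := (mul_eq_zero.1 e1).resolve_left Complex.I_ne_zero
    rcases hne with h | h
    · apply h
      funext i
      fin_cases i
      · change o 0 = 0
        linear_combination (-1 / 4 : ℂ) * hy0 - (1 / 4 : ℂ) * hy2 - (1 / 4 : ℂ) * hy1 -
          (1 / 4 : ℂ) * hy3
      · change o 1 = 0
        linear_combination (-1 / 4 : ℂ) * hy0 - (1 / 4 : ℂ) * hy2 + (1 / 4 : ℂ) * hy1 +
          (1 / 4 : ℂ) * hy3
      · change o 2 = 0
        linear_combination (-1 / 4 : ℂ) * hy0 + (1 / 4 : ℂ) * hy2 + (1 / 2 : ℂ) * e2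
      · change o 3 = 0
        linear_combination (-1 / 4 : ℂ) * hy0 + (1 / 4 : ℂ) * hy2 - (1 / 2 : ℂ) * e2
    · apply h
      funext i
      fin_cases i
      · exact ha.symm
      · exact hb.symm
      · exact hc.symm

end Vale.Agent.P297.C8
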