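import Vale.Agent.P297.H55.T8N
import Vale.Agent.P297.H72.Camp8
import Vale.Agent.P297.H521.PsiConst
import Vale.Agent.P297.H521.RulConst

/-!
The numerical Campedelli surfaces with fundamental group `ℤ/8`: the group, the special points, the
final statement.
-/

set_option linter.unusedSectionVars false

open IntermediateField Polynomial

namespace Vale.Agent.P297.H55.T8

open Vale.Agent.P297 Vale.Agent.P297.Gen Vale.Agent.P297.G4 Vale.Agent.P297.H10
open Vale.Agent.P297.Z3 Vale.Agent.P297.C8 Vale.Agent.P297.H637 Vale.Agent.P297.H72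
open Vale.Agent.P297.H839

/-- the eigenvalues of the generator of the group -/
noncomputable def zl : Fin 4 → ℂ := ![1, -1, Complex.I, -Complex.I]

theorem zl_pow (i : Fin 4) : zl i ^ 4 = 1 := by
  have hI4 : Complex.I ^ 4 = 1 := Complex.I_pow_four
  fin_cases i
  · change (1 : ℂ) ^ 4 = 1
    ring
  · change (-1 : ℂ) ^ 4 = 1
    ring
  · exact hI4
  · change (-Complex.I) ^ 4 = 1
    rw [neg_pow, hI4]
    ring

theorem zl_ne (i : Fin 4) : zl i ≠ 0 := by
  intro h
  have h1 := zl_pow i
  rw [h] at h1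
  norm_num at h1

theorem zl_zero : zl 0 = 1 := rfl

theorem zA_apply {N : Type} [Field N] [Algebra ℂ N] (o : Fin 4 → N) (i : Fin 4) :
    zA o i = algebraMap ℂ N (zl i) * o i := by
  fin_cases i
  · change o 0 = algebraMap ℂ N 1 * o 0
    rw [map_one, one_mul]
  · change -o 1 = algebraMap ℂ N (-1) * o 1
    rw [map_neg, map_one]
    ring
  · rfl
  · change -(im N * o 3) = algebraMap ℂ N (-Complex.I) * o 3
    rw [map_neg, neg_mul]
    rfl

/-- Generators of a field with independent elements. -/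
theorem ind_of_adjoin {N : Type} [Field N] [Algebra ℂ N] {n : ℕ} {u v : Fin n → N}
    (hu : AlgebraicIndependent ℂ u)
    (hmem : ∀ i, u i ∈ IntermediateField.adjoin ℂ (Set.range v)) :
    AlgebraicIndependent ℂ v := by
  obtain ⟨σ, hσ⟩ := H777.exists_indep v _ hu hmem
  have hinj : Function.Injective σ := by
    intro i k hik
    exact hσ.injective (by simp only [hik])
  have hbij : Function.Bijective σ := Finite.injective_iff_bijective.1 hinj
  exact (algebraicIndependent_equiv (R := ℂ) (Equiv.ofBijective σ hbij) (f := v)).1 hσ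

theorem zero_of {u v o : Fin 4 → ℂ} (huv : ∀ i, u i ≠ v i) (h : ∀ i, u i * o i = v i * o i) :
    o = 0 := by
  funext i
  have h1 : (u i - v i) * o i = 0 := by linear_combination h i
  exact (mul_eq_zero.1 h1).resolve_left (sub_ne_zero.2 (huv i))

/-- Three points with the same values. -/
theorem exists_three (m : Fin 10 → ℂ) : ∃ a : Fin 4 → ℂ, Three (zweb m) a := by
  obtain ⟨c, hc⟩ := IsAlgClosed.exists_pow_nat_eq Complex.I (n := 2) two_pos
  have hI := Complex.I_sq
  have hj : im ℂ = Complex.I := rfl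
  have hc4 : c ^ 4 = -1 := by
    rw [show c ^ 4 = (c ^ 2) ^ 2 by ring, hc, hI]
  have hI4 : Complex.I ^ 4 = 1 := Complex.I_pow_four
  have hz : ∀ (o : Fin 4 → ℂ) (i : Fin 4), zA o i = zl i * o i := zA_apply
  have hu4 : ∀ i, (c * zl i) ^ 4 = -1 := fun i => by
    rw [mul_pow, hc4, zl_pow, mul_one]
  have hw4 : ∀ i, (Complex.I * (zl i * zl i)) ^ 4 = 1 := fun i => by
    rw [mul_pow, mul_pow, hI4, zl_pow, mul_one, mul_one]
  have hw2 : ∀ i, (Complex.I * (zl i * zl i)) ^ 2 = -1 := fun i => by
    rw [show (Complex.I * (zl i * zl i)) ^ 2 = Complex.I ^ 2 * zl i ^ 4 by ring, hI, zl_pow,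
      mul_one]
  have n1 : (-1 : ℂ) ≠ 1 := by norm_num
  have n2 : (1 : ℂ) ≠ -1 := by norm_num
  refine three_of_maps (fun o => c • zA o) (fun o => Complex.I • zA (zA o)) ?_ ?_ ?_ ?_ ?_ ?_ ?_ ?_
  · intro o h
    have h1 : qq (zweb m) o 1 = 0 := h 0
    have h2 : qq (zweb m) o 2 = 0 := h 1
    have h3 : qq (zweb m) o 3 = 0 := h 2
    rw [qq_smul, hc, qq_zA, h1, h2, h3, hj]
    funext i
    fin_cases i
    · change Complex.I * -(Complex.I * qq (zweb m) o 0) = qq (zweb m) o 0
      linear_combination (-(qq (zweb m) o 0)) * hI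
    · simp [h1]
    · simp [h2]
    · simp [h3]
  · intro o h
    have h1 : qq (zweb m) o 1 = 0 := h 0
    have h2 : qq (zweb m) o 2 = 0 := h 1
    have h3 : qq (zweb m) o 3 = 0 := h 2
    rw [qq_smul, qq_zA, qq_zA, hj]
    funext i
    fin_cases i
    · change Complex.I ^ 2 * -(Complex.I * -(Complex.I * qq (zweb m) o 0)) = qq (zweb m) o 0
      linear_combination (qq (zweb m) o 0 * (Complex.I ^ 2 - 1)) * hI
    · simp [h1]
    · simp [h2]
    · simp [h3]
  all_goals intro o ho h; apply ho
  · refine zero_of (u := fun i => c * zl i) (v := fun _ => 1) (fun i h0 => n1 ?_) fun i => ?_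
    · rw [← hu4 i, h0, one_pow]
    · have hi := congrFun h i
      simp only [Pi.smul_apply, smul_eq_mul, hz] at hi
      linear_combination hi
  · refine zero_of (u := fun i => c * zl i) (v := fun _ => -1) (fun i h0 => n1 ?_) fun i => ?_
    · rw [← hu4 i, h0]
      norm_num
    · have hi := congrFun h i
      simp only [Pi.smul_apply, Pi.neg_apply, smul_eq_mul, hz] at hi
      linear_combination hi
  · refine zero_of (u := fun i => Complex.I * (zl i * zl i)) (v := fun _ => 1)
      (fun i h0 => n1 ?_) fun i => ?_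
    · rw [← hw2 i, h0, one_pow]
    · have hi := congrFun h i
      simp only [Pi.smul_apply, smul_eq_mul, hz] at hi
      linear_combination hi
  · refine zero_of (u := fun i => Complex.I * (zl i * zl i)) (v := fun _ => -1)
      (fun i h0 => n1 ?_) fun i => ?_
    · rw [← hw2 i, h0]
      norm_num
    · have hi := congrFun h i
      simp only [Pi.smul_apply, Pi.neg_apply, smul_eq_mul, hz] at hi
      linear_combination hi
  · refine zero_of (u := fun i => Complex.I * (zl i * zl i)) (v := fun i => c * zl i)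
      (fun i h0 => n2 ?_) fun i => ?_
    · have h5 := hw4 i
      rw [h0, hu4 i] at h5
      exact h5.symm
    · have hi := congrFun h i
      simp only [Pi.smul_apply, smul_eq_mul, hz] at hi
      linear_combination hi
  · refine zero_of (u := fun i => Complex.I * (zl i * zl i)) (v := fun i => -(c * zl i))
      (fun i h0 => n2 ?_) fun i => ?_
    · have h5 := hw4 i
      rw [h0, neg_pow, hu4 i] at h5
      norm_num at h5
    · have hi := congrFun h i
      simp only [Pi.smul_apply, Pi.neg_apply, smul_eq_mul, hz] at hi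
      linear_combination hi

end Vale.Agent.P297.H55.T8

namespace Vale.Agent.P297.C8

open Vale.Agent.P297.H55.T8 Vale.Agent.P297.H839 Vale.Agent.P297.H72

section field

variable {K₁ N : Type} [Field K₁] [Algebra ℂ K₁] [Field N] [Algebra ℂ N]

/-- The restriction to the fixed field of the group. -/
theorem Z8.resK_zA {m : Fin 10 → ℂ} {x : Fin 4 → K₁} (hx : IsFF (zweb m) x)
    {K : Type} [Field K] [Algebra ℂ K] (ι : K →ₐ[ℂ] K₁) (g : K₁ →ₐ[ℂ] K₁)
    (hg : ∀ j, g (x j) = zl j • x j) (hι : g.comp ι = ι) {o : Fin 4 → N}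
    (ho : GenW (zweb m) o) :
    resK ι (pt x (zA o)) = (resK ι (pt x o) : (K →ₐ[ℂ] N) →₀ ℤ) := by
  refine resK_pt_eq hx ι g hι ho fun φ hφ j => ?_
  rw [hg, map_smul, hφ, zA_apply, zA_apply, zl_zero, map_one, one_mul, Algebra.smul_def,
    mul_div_assoc]

/-- The group acts on the generic points. -/
theorem Z8.genW_zA [CharZero N] {m : Fin 10 → ℂ} {o : Fin 4 → N} (ho : GenW (zweb m) o) :
    GenW (zweb m) (zA o) where
  zero := by rw [st_zA, ho.zero]
  ne := ho.ne
  ind := by
    obtain ⟨i, j, hij⟩ := ho.ind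
    refine ⟨i, j, ?_⟩
    have h1 : ∀ k, zA o k / zA o 0 = algebraMap ℂ N (zl k) * (o k / o 0) := fun k => by
      rw [zA_apply, zA_apply, zl_zero, map_one, one_mul, mul_div_assoc]
    rw [h1, h1]
    refine ind_of_adjoin hij ?_
    have key : ∀ k l, o k / o 0 ∈ IntermediateField.adjoin ℂ (Set.range
        ![algebraMap ℂ N (zl i) * (o i / o 0), algebraMap ℂ N (zl j) * (o j / o 0)]) ↔
        algebraMap ℂ N (zl l) * (o k / o 0) ∈ IntermediateField.adjoin ℂ (Set.range
        ![algebraMap ℂ N (zl i) * (o i / o 0), algebraMap ℂ N (zl j) * (o j / o 0)]) := by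
      intro k l
      constructor
      · intro h
        exact mul_mem (IntermediateField.algebraMap_mem _ _) h
      · intro h
        have h2 := mul_mem (IntermediateField.algebraMap_mem (IntermediateField.adjoin ℂ
          (Set.range ![algebraMap ℂ N (zl i) * (o i / o 0),
            algebraMap ℂ N (zl j) * (o j / o 0)])) (zl l)⁻¹) h
        rwa [← mul_assoc, ← map_mul, inv_mul_cancel₀ (zl_ne l), map_one, one_mul] at h2
    intro k
    fin_cases k
    · exact (key i i).2 (IntermediateField.subset_adjoin _ _ ⟨0, rfl⟩)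
    · exact (key j j).2 (IntermediateField.subset_adjoin _ _ ⟨1, rfl⟩)

theorem Z8.wd_smul {R : Type} [CommRing R] (a : R) (u v : Fin 4 → R) :
    wd (a • u) (a • v) = a ^ 2 • wd u v := by
  funext i
  fin_cases i <;>
    (simp [wd]; ring)

/-- The action on the rulings. -/
theorem Z8.rul_zA [CharZero N] (m : Fin 10 → ℂ) {x y w : N} (z u : Fin 4 → N) :
    Rul (MM (zweb m) y⁻¹ (-x⁻¹)) w (zA z) (zA u) ↔ Rul (MM (zweb m) x y) w z u := by
  have hj := im_sq (N := N)
  rw [← zAm_mulVec, ← zAm_mulVec]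
  rw [← rul_congr_iff (M := (-im N) • MM (zweb m) x y) (w := -w) (MM_zA m x y)
    (by rw [det_zAm]; ring) (by rw [det_zAm]; exact neg_ne_zero.2 one_ne_zero)]
  unfold Rul
  rw [Matrix.smul_mulVec, Matrix.smul_mulVec, Z8.wd_smul, neg_sq, hj]
  constructor
  · intro h
    have h1 := congrArg (fun v => (-1 : N) • v) h
    simpa using h1
  · intro h
    rw [h]
    simp

theorem Z8.det_g [CharZero N] (m : Fin 10 → ℂ) (x y : N) :
    (MM (zweb m) y⁻¹ (-x⁻¹)).det = (MM (zweb m) x y).det := by
  have h1 := det_MM m y⁻¹ (-x⁻¹)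
  have h2 := det_MM m x y
  rw [gD] at h1
  exact mul_left_cancel₀ (by norm_num : (16 : N) ≠ 0) (h1.trans h2.symm)

/-- The action on the generic points of the quadrics. -/
theorem Z8.genZ_zA [CharZero N] (m : Fin 10 → ℂ) {x y : N} {z : Fin 4 → N}
    (h : GenZ x y (MM (zweb m) x y) z) :
    GenZ y⁻¹ (-x⁻¹) (MM (zweb m) y⁻¹ (-x⁻¹)) (zA z) where
  one := h.one
  iso := by
    have h1 := MM_zA m x y
    have h2 : z ⬝ᵥ ((zAm N).transpose * MM (zweb m) y⁻¹ (-x⁻¹) * zAm N).mulVec z = 0 := by
      rw [h1, Matrix.smul_mulVec, dotProduct_smul, h.iso, smul_zero]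
    rw [← Matrix.mulVec_mulVec, ← Matrix.mulVec_mulVec, Matrix.dotProduct_mulVec,
      Matrix.vecMul_transpose, zAm_mulVec] at h2
    exact h2
  ind := by
    refine ind_of_adjoin h.ind ?_
    have mj : im N ∈ IntermediateField.adjoin ℂ (Set.range ![y⁻¹, -x⁻¹, zA z 1, zA z 2]) :=
      IntermediateField.algebraMap_mem _ _
    have m0 : y⁻¹ ∈ IntermediateField.adjoin ℂ (Set.range ![y⁻¹, -x⁻¹, zA z 1, zA z 2]) :=
      IntermediateField.subset_adjoin _ _ ⟨0, rfl⟩
    have m1 : -x⁻¹ ∈ IntermediateField.adjoin ℂ (Set.range ![y⁻¹, -x⁻¹, zA z 1, zA z 2]) :=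
      IntermediateField.subset_adjoin _ _ ⟨1, rfl⟩
    have m2 : zA z 1 ∈ IntermediateField.adjoin ℂ (Set.range ![y⁻¹, -x⁻¹, zA z 1, zA z 2]) :=
      IntermediateField.subset_adjoin _ _ ⟨2, rfl⟩
    have m3 : zA z 2 ∈ IntermediateField.adjoin ℂ (Set.range ![y⁻¹, -x⁻¹, zA z 1, zA z 2]) :=
      IntermediateField.subset_adjoin _ _ ⟨3, rfl⟩
    intro k
    fin_cases k
    · change x ∈ _
      have h1 := inv_mem (neg_mem m1)
      rwa [neg_neg, inv_inv] at h1
    · change y ∈ _
      have h1 := inv_mem m0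
      rwa [inv_inv] at h1
    · change z 1 ∈ _
      have h1 : -zA z 1 ∈ _ := neg_mem m2
      have h2 : -zA z 1 = z 1 := neg_neg _
      rwa [h2] at h1
    · change z 2 ∈ _
      have hj := im_sq (N := N)
      have h1 := neg_mem (mul_mem mj m3)
      have h2 : -(im N * zA z 2) = z 2 := by
        change -(im N * (im N * z 2)) = z 2
        linear_combination (-z 2) * hj
      rwa [h2] at h1

/-- **Bloch's conjecture**, from the linking relation. -/
theorem Z8.bloch_of_link (m : Fin 10 → ℂ) (hfin : NoBase (zweb m))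
    (hirr : Irreducible (octic (zweb m))) {x : Fin 4 → K₁} (hx : IsFF (zweb m) x)
    (g : K₁ ≃ₐ[ℂ] K₁) (hg : ∀ j, g (x j) = zl j • x j) [IsAlgClosed N] (φ : K₁ →ₐ[ℂ] N)
    {n : ℤ} (hn : n ≠ 0)
    (link : ∀ o o' : Fin 4 → N, GenW (zweb m) o → GenW (zweb m) o' →
      qq (zweb m) o' = qq (zweb m) o → o' ≠ o → o' ≠ -o →
      n • resK (IntermediateField.fixedField (Subgroup.zpowers g)).val (pt x o + pt x o') ∈
        Rel 0 (IntermediateField.fixedField (Subgroup.zpowers g)) N) :
    PointsEquivalent (IntermediateField.fixedField (Subgroup.zpowers g)) :=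
  camp_glue (zweb_symm m) hfin hirr (exists_three m) hx _ φ hn link

end field

end Vale.Agent.P297.C8
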