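import Vale.Agent.P297.H55.Z8Act
import Vale.Agent.P297.H637.ZSum

/-!
The twin of the numerical Campedelli surfaces with fundamental group `ℤ/8`, in the form that is used
by the main theorem on the rulings.
-/

set_option linter.unusedSectionVars false

open IntermediateField Polynomial Matrix

namespace Vale.Agent.P297.C8

open Vale.Agent.P297.H55.T8 Vale.Agent.P297.H839 Vale.Agent.P297.H72 Vale.Agent.P297.Gen
open Vale.Agent.P297.H637 Vale.Agent.P297.Z3

section

variable {N : Type} [Field N] [Algebra ℂ N] [IsAlgClosed N]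

/-- the third coordinate -/
noncomputable def Z8.tY (x y w : N) : N := zF x y * (4 * w)

/-- The coordinates of the twin. -/
theorem Z8.twin (m : Fin 10 → ℂ) :
    Twin (zweb m) (zP m) (N := N) zS zX Z8.tY where
  gen := by
    intro x y w hxy hw
    have : CharZero N := charZero_of_injective_algebraMap (algebraMap ℂ N).injective
    obtain ⟨h1, h2⟩ := generic_of_ind hxy
    obtain ⟨h3, h4⟩ := pair0.1 h2
    exact ⟨h3, h4, h1.curve' m hw⟩
  inv := by
    intro x y hxy w
    have : CharZero N := charZero_of_injective_algebraMap (algebraMap ℂ N).injective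
    have h1 := (generic_of_ind hxy).1
    exact ⟨h1.sS.1, h1.iX, by rw [Z8.tY, Z8.tY, h1.iF]⟩
  map := by
    intro g x y w
    refine ⟨map_zS g.toAlgHom x y, map_zX g.toAlgHom x y, ?_⟩
    have h1 : g (zF x y) = zF (g x) (g y) := map_zF g.toAlgHom x y
    rw [Z8.tY, Z8.tY, map_mul, map_mul, map_ofNat, h1]
  zero := fun x y => by rw [Z8.tY, mul_zero, mul_zero]
  alg := by
    intro x y hxy
    have : CharZero N := charZero_of_injective_algebraMap (algebraMap ℂ N).injective
    exact (generic_of_ind hxy).1.mem (closed_cl0 _) (subset_cl0 _ (by simp))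
      (subset_cl0 _ (by simp))
  lifts := by
    intro s X Y h
    have : CharZero N := charZero_of_injective_algebraMap (algebraMap ℂ N).injective
    exact Vale.Agent.P297.H55.T8.lifts m h

variable {K K₁ : Type} [Field K] [Algebra ℂ K] [Field K₁] [Algebra ℂ K₁]

/-- The cycles on the lines of the rulings are torsion modulo relations. -/
theorem Z8.blockD {m : Fin 10 → ℂ} (hfin : NoBase (zweb m)) (hirr : Irreducible (octic (zweb m)))
    (hdisc : 4 * zp m ^ 3 ≠ zq m ^ 2)
    (h4 : Algebra.trdeg ℂ N = 4) {c : Fin 4 → K₁} (hc : IsFF (zweb m) c) (ι : K →ₐ[ℂ] K₁)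
    (g : K₁ →ₐ[ℂ] K₁) (hg : ∀ j, g (c j) = zl j • c j) (hι : g.comp ι = ι)
    (h2r : ∀ {x y : N}, AlgebraicIndependent ℂ ![x, y] → (MM (zweb m) x y).det ≠ 0 →
      ∀ μ₁ μ₂ : N, μ₁ ∉ cl0 {x, y} → μ₂ ∉ cl0 {x, y, μ₁} → ∃ a b : N, a ≠ b ∧ ∀ t,
        (zv μ₁ μ₂ t ⬝ᵥ (MM (zweb m) x y).mulVec (zv μ₁ μ₂ t) = 0 ↔ t = a ∨ t = b))
    {x y w : N} {z : Fin 4 → N} (h : GQ (zweb m) x y w z) (n : ℤ) :
    (128 : ℤ) • resD ι (R1.Psi (zweb m) c x y w z) ∈ H72.Rel n K N :=
  blockD_aux (zweb_symm m) hfin hirr h4 (natDegree_zp m) (natDegree_zq m) hdisc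
    (hnt_of_hdisc m hfin hdisc) (qI_zP m) (qJ_zP m) (Z8.twin m) hc ι h2r
    (fun h hxy' _ hS hX hF => Z8.hH hfin hirr h4 hc ι g hg hι h hxy' hS hX hF) h

end

end Vale.Agent.P297.C8
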