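import Vale.Agent.P297.H55.Z8Disc
import Vale.Agent.P297.H55.Z8Twin
import Vale.Agent.P297.H637.DetNe
import Vale.Agent.P297.H521.TwoRoots
import Vale.Agent.P297.H212.Camp.Smooth8
import Vale.Agent.P297.H10.Q8Link

/-!
Bloch's conjecture for the numerical Campedelli surfaces with fundamental group `ℤ/8`.
-/

set_option linter.unusedSectionVars false
set_option linter.style.haveILetI false

open IntermediateField Polynomial Matrix

namespace Vale.Agent.P297.C8

open Vale.Agent.P297 Vale.Agent.P297.Gen Vale.Agent.P297.H637 Vale.Agent.P297.H55.T8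
open Vale.Agent.P297.H212.Camp Vale.Agent.P297.H839 Vale.Agent.P297.H777

/-- A quadric of the web does not contain the last coordinate point. -/
theorem Z8.h33 {m : Fin 10 → ℂ} (hfin : NoBase (zweb m)) : ∃ i, zweb m i 3 3 ≠ 0 :=
  ⟨1, (coeff_ne m hfin).2.2.2⟩

/-- The relation for the generic lines of the rulings. -/
theorem Z8.dhyp {m : Fin 10 → ℂ} (hfin : NoBase (zweb m)) (hirr : Irreducible (octic (zweb m)))
    (hdisc : 4 * zp m ^ 3 ≠ zq m ^ 2) {K K₁ : Type} [Field K] [Algebra ℂ K] [Field K₁]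
    [Algebra ℂ K₁] {c : Fin 4 → K₁} (hc : IsFF (zweb m) c) (ι : K →ₐ[ℂ] K₁)
    (g : K₁ →ₐ[ℂ] K₁) (hg : ∀ j, g (c j) = zl j • c j) (hι : g.comp ι = ι) (n : ℤ) :
    DHyp (zweb m) c ι n 128 := by
  intro N _ _ _ h4 a b w z h
  have h1 := Z8.blockD (N := N) hfin hirr hdisc h4 hc ι g hg hι
    (fun hxy hdet μ₁ μ₂ h1 h2 => two_roots (zweb_symm m) (Z8.h33 hfin) hxy hdet h1 h2) h n
  have h2 : resD ι ((128 : ℤ) • R1.Psi (zweb m) c a b w z) ∈ H72.Rel n K N := by
    rw [map_zsmul]
    exact h1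
  exact h2

/-- The generic quadric of the web is smooth. -/
theorem Z8.hdet {m : Fin 10 → ℂ} (hdisc : 4 * zp m ^ 3 ≠ zq m ^ 2) :
    ∀ (N : Type) [Field N] [Algebra ℂ N] (a b : N), AlgebraicIndependent ℂ ![a, b] →
      (MM (zweb m) a b).det ≠ 0 :=
  det_ne_of_closed fun _ _ _ _ _ _ h => Twin.det_ne hdisc (qI_zP m) (qJ_zP m) (Z8.twin m) h

/-- The field of the surface and the fixed field of the group. -/
theorem Z8.comp_val {K₁ : Type} [Field K₁] [Algebra ℂ K₁] (g : K₁ ≃ₐ[ℂ] K₁) :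
    (g : K₁ →ₐ[ℂ] K₁).comp (IntermediateField.fixedField (Subgroup.zpowers g)).val =
      (IntermediateField.fixedField (Subgroup.zpowers g)).val := by
  ext u
  exact u.2 ⟨g, Subgroup.mem_zpowers g⟩

/-- **Bloch's conjecture for the numerical Campedelli surfaces with `π₁ = ℤ/8`**: `K₁` is the
field of the octic, the quotient of the smooth surface `Q(o) = e(v)` by the element of order two, and
the surface has the field of functions `K₁ ^ g`. -/
theorem Z8.bloch {m : Fin 10 → ℂ} (hsm : SmoothX (zweb m)) {K₁ : Type} [Field K₁] [Algebra ℂ K₁]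
    {x : Fin 4 → K₁} (hx : IsFF (zweb m) x) (g : K₁ ≃ₐ[ℂ] K₁) (hg : ∀ j, g (x j) = zl j • x j) :
    PointsEquivalent (IntermediateField.fixedField (Subgroup.zpowers g)) :=
  have hirr := hx.irr
  have hfin := hsm.noBase
  have hdisc := hdisc_of_smooth m hfin hsm
  bloch_smooth (N := AlgebraicClosure K₁) hx (zweb_symm m) hfin hirr (exists_three m)
    (Z8.hdet hdisc) (by norm_num : (128 : ℤ) ≠ 0)
    (Z8.dhyp hfin hirr hdisc hx (IntermediateField.fixedField (Subgroup.zpowers g)).val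
      (g : K₁ →ₐ[ℂ] K₁) hg (Z8.comp_val g) 0) hsm
    (IsScalarTower.toAlgHom ℂ K₁ (AlgebraicClosure K₁))

end Vale.Agent.P297.C8
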