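import Vale.Agent.P297.H55.Z8Main
import Vale.Agent.P297.H10.XField

/-!
Bloch's conjecture for the quotients by the cyclic group of order eight of the smooth intersections
of four quadrics.
-/

set_option linter.unusedSectionVars false

open IntermediateField Polynomial Matrix

namespace Vale.Agent.P297.C8

open Vale.Agent.P297 Vale.Agent.P297.Gen Vale.Agent.P297.H637 Vale.Agent.P297.H55.T8
open Vale.Agent.P297.H212.Camp Vale.Agent.P297.H839 Vale.Agent.P297.H777

/-- **Bloch's conjecture**, for a field fixed by the generator of the group. -/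
theorem Z8.bloch_sub {m : Fin 10 → ℂ} (hsm : SmoothX (zweb m)) {K K₁ : Type} [Field K]
    [Algebra ℂ K] [Field K₁] [Algebra ℂ K₁] {x : Fin 4 → K₁} (hx : IsFF (zweb m) x)
    (g : K₁ →ₐ[ℂ] K₁) (hg : ∀ j, g (x j) = zl j • x j) (ι : K →ₐ[ℂ] K₁)
    (hι : ∀ s, g (ι s) = ι s) : PointsEquivalent K :=
  have hirr := hx.irr
  have hfin := hsm.noBase
  have hdisc := hdisc_of_smooth m hfin hsm
  bloch_smooth (N := AlgebraicClosure K₁) hx (zweb_symm m) hfin hirr (exists_three m)
    (Z8.hdet hdisc) (by norm_num : (128 : ℤ) ≠ 0)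
    (Z8.dhyp hfin hirr hdisc hx ι g hg (AlgHom.ext hι) 0) hsm
    (IsScalarTower.toAlgHom ℂ K₁ (AlgebraicClosure K₁))

section

variable {m : Fin 10 → ℂ} {E : Type} [Field E] [Algebra ℂ E] {x : Fin 4 → E} {v : Fin 3 → E}

/-- The automorphism of order eight of the function field of `Q(o) = e(v)`. -/
structure ActZ (ε : ℂ) (x : Fin 4 → E) (v : Fin 3 → E) (G : E ≃ₐ[ℂ] E) : Prop where
  a1 : G (x 1) = -x 1
  a2 : G (x 2) = algebraMap ℂ E Complex.I * x 2
  a3 : G (x 3) = -(algebraMap ℂ E Complex.I * x 3)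
  a4 : G (v 0) = -(algebraMap ℂ E ε * v 1)
  a5 : G (v 1) = algebraMap ℂ E ε * v 0
  a6 : G (v 2) = algebraMap ℂ E ε * v 2

theorem ActZ.x4 {ε : ℂ} {G : E ≃ₐ[ℂ] E} (hG : ActZ ε x v G) (h0 : x 0 = 1) (j : Fin 4) :
    G (x j) = zl j • x j := by
  rw [Algebra.smul_def]
  fin_cases j
  · change G (x 0) = algebraMap ℂ E 1 * x 0
    rw [h0, map_one, map_one, one_mul]
  · change G (x 1) = algebraMap ℂ E (-1) * x 1
    rw [hG.a1, map_neg, map_one, neg_one_mul]
  · exact hG.a2
  · change G (x 3) = algebraMap ℂ E (-Complex.I) * x 3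
    rw [hG.a3, map_neg, neg_mul]

/-- **Bloch's conjecture** for the quotients by the cyclic group of order eight: `E` is the field of
functions of the smooth surface `Q(o) = e(v)`. -/
theorem Z8.blochX (hs : SmoothX (zweb m)) (hirr : Irreducible (octic (zweb m)))
    (hX : IsX (zweb m) x v) {ε : ℂ} (hε : ε ^ 2 = -Complex.I) {G : E ≃ₐ[ℂ] E}
    (hG : ActZ ε x v G) :
    PointsEquivalent (IntermediateField.fixedField (F := ℂ) (Subgroup.zpowers G)) := by
  have mx : ∀ j, x j ∈ K1 x := fun j => IntermediateField.subset_adjoin ℂ _ ⟨j, rfl⟩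
  have hFF := hX.isFF hirr
  have hx := hG.x4 hX.one
  have hI : algebraMap ℂ E Complex.I * algebraMap ℂ E Complex.I = -1 := by
    rw [← map_mul, Complex.I_mul_I, map_neg, map_one]
  have hεE : algebraMap ℂ E ε * algebraMap ℂ E ε = -algebraMap ℂ E Complex.I := by
    rw [← map_mul, ← sq, hε, map_neg]
  have k1 : ∀ s ∈ K1 x, G s ∈ K1 x := by
    intro s hs
    refine adjoin_induction (F := ℂ) (s := Set.range x) (p := fun s _ => G s ∈ K1 x)
      ?_ ?_ ?_ ?_ ?_ hs
    · rintro _ ⟨j, rfl⟩
      rw [hx, Algebra.smul_def]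
      exact mul_mem ((K1 x).algebraMap_mem _) (mx j)
    · intro c
      rw [G.commutes]
      exact (K1 x).algebraMap_mem c
    · intro s t _ _ e1 e2
      rw [map_add]
      exact add_mem e1 e2
    · intro s _ e1
      rw [map_inv₀]
      exact inv_mem e1
    · intro s t _ _ e1 e2
      rw [map_mul]
      exact mul_mem e1 e2
  let g : K1 x →ₐ[ℂ] K1 x := (G.toAlgHom.comp (K1 x).val).codRestrict (K1 x).toSubalgebra
    (fun s => k1 s s.2)
  have hg : ∀ s, (g s : E) = G s := fun s => rfl
  have hle : IntermediateField.fixedField (F := ℂ) (Subgroup.zpowers G) ≤ K1 x := by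
    intro s hs
    have e1 : G s = s := hs ⟨G, Subgroup.mem_zpowers G⟩
    refine hX.mem_of_fixed hirr (σ := (G * G * (G * G) : E ≃ₐ[ℂ] E).toAlgHom) ?_ ?_ ?_
    · intro j
      change G (G (G (G (x j)))) = x j
      simp only [hx, map_smul, smul_smul]
      have h1 : zl j * (zl j * (zl j * zl j)) = 1 := by
        have h2 := zl_pow j
        rw [← h2]
        ring
      have h2 : zl j * zl j * zl j * zl j = 1 := by rw [← h1]; ring
      first
      | rw [h1, one_smul]
      | rw [h2, one_smul]
    · intro j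
      change G (G (G (G (v j)))) = -v j
      fin_cases j
      · change G (G (G (G (v 0)))) = -v 0
        simp only [hG.a4, hG.a5, map_neg, map_mul, G.commutes]
        linear_combination (v 0 * (algebraMap ℂ E ε * algebraMap ℂ E ε -
          algebraMap ℂ E Complex.I)) * hεE + v 0 * hI
      · change G (G (G (G (v 1)))) = -v 1
        simp only [hG.a4, hG.a5, map_neg, map_mul, G.commutes]
        linear_combination (v 1 * (algebraMap ℂ E ε * algebraMap ℂ E ε -
          algebraMap ℂ E Complex.I)) * hεE + v 1 * hI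
      · change G (G (G (G (v 2)))) = -v 2
        simp only [hG.a6, map_mul, G.commutes]
        linear_combination (v 2 * (algebraMap ℂ E ε * algebraMap ℂ E ε -
          algebraMap ℂ E Complex.I)) * hεE + v 2 * hI
    · change G (G (G (G s))) = s
      rw [e1, e1, e1, e1]
  refine Z8.bloch_sub hs hFF g ?_ (IntermediateField.inclusion hle) ?_
  · intro j
    apply Subtype.ext
    rw [hg]
    exact hx j
  · intro s
    apply Subtype.ext
    rw [hg]
    exact s.2 ⟨G, Subgroup.mem_zpowers G⟩

end

end Vale.Agent.P297.C8
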